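import Crest.Agent.Lib.LT.Nat

/-!
Arrays with index arithmetic: indexed maps, tables, `for` loops, scattering and permutations that
are monotone on boundedly many colour classes.
-/

set_option autoImplicit false
set_option linter.dupNamespace false

namespace Crest.Agent.Lib.LT

open Crest.Agent.Lib.PT

variable {A α β γ σ : Type} [Enc α] [Enc β] [Enc γ] [Enc σ]
variable {cur : A → P} {B : A → ℕ} {x : In B}

/-- Map over an array, with a parameter and the index. -/
protected theorem CT.arr_mapIdx {N : A → ℕ} {el : A → ℕ → α} {par : A → γ} {out : A → ℕ → β}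
    (hl : CT cur x (fun a => arr (N a) (el a))) (hp : CT cur x par) (B' : A → ℕ → ℕ)
    (hsz : Dom (fun q : Ix N => sz (el q.a q.i) + sz (par q.a) + sz q.i) (fun q => B' q.a q.i))
    (body : ∀ x' : In (fun q : Ix N => B' q.a q.i),
      CT (fun q => cur q.a) x' (fun q => el q.a q.i) →
      CT (fun q => cur q.a) x' (fun q => par q.a) →
      CT (fun q => cur q.a) x' (fun q => q.i) →
      CT (fun q => cur q.a) x' (fun q => out q.a q.i))
    (hB : Dom (fun a => ∑ i ∈ Finset.range (N a), B' a i) B) :
    CT cur x (fun a => arr (N a) (out a)) :=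
  (CT.scan (st := fun a i => (par a, i)) hl (hp.pair (CT.const 0)) B'
    ((hsz.const_mul 2).le_trans fun q => by
      have := sz_pos q.i
      simp only [sz_pair]; omega)
    (fun x' h₁ h₂ => (body x' h₁ h₂.fst h₂.snd).pair
      (h₂.fst.pair (h₂.snd.add (CT.const 1)))) hB).fst

/-- Map over an array with a uniform cost `s` per entry. -/
protected theorem CT.arr_mapU {N : A → ℕ} {el : A → ℕ → α} {par : A → γ} {out : A → ℕ → β}
    (hl : CT cur x (fun a => arr (N a) (el a))) (hp : CT cur x par) (s : A → ℕ)
    (hel : Dom (fun q : Ix N => sz (el q.a q.i)) (fun q => s q.a))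
    (hpar : Dom (fun a => sz (par a)) s) (hN : Dom (fun a => sz (N a)) s)
    (body : ∀ x' : In (fun q : Ix N => s q.a),
      CT (fun q => cur q.a) x' (fun q => el q.a q.i) →
      CT (fun q => cur q.a) x' (fun q => par q.a) →
      CT (fun q => cur q.a) x' (fun q => q.i) →
      CT (fun q => cur q.a) x' (fun q => out q.a q.i))
    (hB : Dom (fun a => N a * s a) B) :
    CT cur x (fun a => arr (N a) (out a)) :=
  CT.arr_mapIdx hl hp (fun a _ => s a)
    ((hel.add (hpar.comap Ix.a)).add
      ((hN.comap Ix.a).le_trans fun q => sz_nat_mono q.lt.le))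
    body (hB.le_trans fun a => by simp)

/-- Tabulate a function with a uniform cost `s` per entry. -/
protected theorem CT.tabulate {N : A → ℕ} {par : A → γ} {out : A → ℕ → β}
    (hN : CT cur x N) (hp : CT cur x par) (s : A → ℕ)
    (hpar : Dom (fun a => sz (par a)) s) (hN' : Dom (fun a => sz (N a)) s)
    (body : ∀ x' : In (fun q : Ix N => s q.a),
      CT (fun q => cur q.a) x' (fun q => par q.a) →
      CT (fun q => cur q.a) x' (fun q => q.i) →
      CT (fun q => cur q.a) x' (fun q => out q.a q.i))
    (hB : Dom (fun a => N a * s a) B) :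
    CT cur x (fun a => arr (N a) (out a)) := by
  have hNB : Dom N B := hB.le_trans fun a => Nat.le_mul_of_pos_right _ (hN'.pos (sz_pos _))
  have hu : CT cur x (fun a => arr (N a) (fun _ => ())) :=
    (hN.un hNB).congr fun a => (un_eq_arr _).symm
  exact CT.arr_mapU hu hp s (Dom.const 1 fun q => hN'.pos (sz_pos _)) hpar hN'
    (fun x' _ h₂ h₃ => body x' h₂ h₃) hB

/-- Tabulate a polynomial-time function of small parameters. -/
protected theorem CT.tabulate_pt {N : A → ℕ} {par : A → γ} (f : γ → ℕ → β)
    (hf : PT (fun q : γ × ℕ => f q.1 q.2)) (hN : CT cur x N) (hp : CT cur x par) (s : A → ℕ)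
    (hs : Sm s (fun a => sz (par a) + sz (N a))) (hB : Dom (fun a => N a * s a) B) :
    CT cur x (fun a => arr (N a) (f (par a))) :=
  CT.tabulate hN hp s (hs.dom.le_trans fun _ => Nat.le_add_right _ _)
    (hs.dom.le_trans fun _ => Nat.le_add_left _ _)
    (fun _ h₁ h₂ => (h₁.pair h₂).pt hf (((hs.comap Ix.a).add_const 1).of_le fun q => by
      have := sz_nat_mono q.lt.le
      simp only [sz_pair]; omega)) hB

/-- A `for` loop. -/
protected theorem CT.for {N : A → ℕ} {st : A → ℕ → σ} {par : A → γ} (hN : CT cur x N)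
    (hp : CT cur x par) (h0 : CT cur x (fun a => st a 0)) (B' : A → ℕ → ℕ)
    (hsz : Dom (fun q : Ix N => sz (st q.a q.i) + sz (par q.a) + sz q.i) (fun q => B' q.a q.i))
    (body : ∀ x' : In (fun q : Ix N => B' q.a q.i),
      CT (fun q => cur q.a) x' (fun q => st q.a q.i) →
      CT (fun q => cur q.a) x' (fun q => par q.a) →
      CT (fun q => cur q.a) x' (fun q => q.i) →
      CT (fun q => cur q.a) x' (fun q => st q.a (q.i + 1)))
    (hB : Dom (fun a => ∑ i ∈ Finset.range (N a), B' a i) B) :
    CT cur x (fun a => st a (N a)) := by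
  have h1 : Dom (fun _ : Ix N => 1) (fun q => B' q.a q.i) :=
    hsz.le_trans fun q => by have := sz_pos q.i; omega
  have hNB : Dom N B := ((sum_Ix_dom (f := fun _ _ => 1) h1).trans hB).le_trans fun a => by simp
  have hu : CT cur x (fun a => arr (N a) (fun _ => ())) :=
    (hN.un hNB).congr fun a => (un_eq_arr _).symm
  exact (CT.scan (st := fun a i => (st a i, par a, i)) (out := fun _ _ => ()) hu
    (h0.pair (hp.pair (CT.const 0))) B'
    ((hsz.add (h1.const_mul 3)).le_trans fun q => by simp only [sz_pair, sz_unit]; omega)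
    (fun x' _ h₂ => (CT.const ()).pair ((body x' h₂.fst h₂.snd.fst h₂.snd.snd).pair
      (h₂.snd.fst.pair (h₂.snd.snd.add (CT.const 1))))) hB).snd.fst

/-- The first position after the first `m` keys. -/
def nextFree (key : ℕ → ℕ) : ℕ → ℕ
  | 0 => 0
  | m + 1 => key m + 1

section nextFree
omit [Enc α]
variable {n N : ℕ} {key : ℕ → ℕ} {f out : ℕ → α} {d : α}

lemma nextFree_le (hs : ∀ i j, i < j → j < n → key i < key j) {m i : ℕ} (hm : m ≤ i)
    (hi : i < n) : nextFree key m ≤ key i := by
  cases m with
  | zero => exact Nat.zero_le _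
  | succ m => exact hs m i hm hi

lemma lt_nextFree (hs : ∀ i j, i < j → j < n → key i < key j) {m i : ℕ} (hi : i < m)
    (hm : m ≤ n) : key i < nextFree key m := by
  cases m with
  | zero => omega
  | succ m =>
    rcases Nat.lt_succ_iff_lt_or_eq.1 hi with h | rfl
    · exact (hs i m h hm).trans (Nat.lt_succ_self _)
    · exact Nat.lt_succ_self _

lemma nextFree_le_bound (hlt : ∀ i, i < n → key i < N) : nextFree key n ≤ N := by
  cases n with
  | zero => exact Nat.zero_le _
  | succ n => exact hlt n (Nat.lt_succ_self _)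

lemma arr_nextFree_succ (hs : ∀ i j, i < j → j < n → key i < key j)
    (hlt : ∀ i, i < n → key i < N) (h₁ : ∀ i, i < n → out (key i) = f i)
    (h₂ : ∀ j, j < N → (∀ i, i < n → key i ≠ j) → out j = d) {m : ℕ} (hm : m < n) :
    arr (nextFree key (m + 1)) out =
      arr (nextFree key m) out ++ (List.replicate (key m - nextFree key m) d ++ [f m]) := by
  have h0 := nextFree_le hs le_rfl hm
  have h3 := hlt m hm
  have e : nextFree key (m + 1) = nextFree key m + (key m - nextFree key m) + 1 := by
    show key m + 1 = _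
    omega
  rw [e, arr_succ, arr_add, List.append_assoc, replicate_eq_arr]
  congr 2
  · refine arr_congr fun j hj => h₂ _ (by omega) fun i hi => ?_
    rcases lt_or_ge i m with h | h
    · have := lt_nextFree hs h hm.le
      omega
    · rcases h.eq_or_lt with rfl | h
      · omega
      · have := hs m i h hi
        omega
  · rw [show nextFree key m + (key m - nextFree key m) = key m by omega, h₁ m hm]

lemma arr_eq_nextFree (hs : ∀ i j, i < j → j < n → key i < key j)
    (hlt : ∀ i, i < n → key i < N)
    (h₂ : ∀ j, j < N → (∀ i, i < n → key i ≠ j) → out j = d) :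
    arr N out = arr (nextFree key n) out ++ List.replicate (N - nextFree key n) d := by
  have h0 := nextFree_le_bound hlt
  conv_lhs => rw [show N = nextFree key n + (N - nextFree key n) by omega]
  rw [arr_add, replicate_eq_arr]
  congr 1
  refine arr_congr fun j hj => h₂ _ (by omega) fun i hi => ?_
  have := lt_nextFree hs hi le_rfl
  omega

lemma sum_gap_le (hs : ∀ i j, i < j → j < n → key i < key j) {m : ℕ} (hm : m ≤ n) :
    ∑ i ∈ Finset.range m, (key i - nextFree key i) ≤ nextFree key m := by
  induction m with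
  | zero => simp
  | succ m ih =>
    have h0 := nextFree_le hs le_rfl (show m < n by omega)
    have := ih (by omega)
    rw [Finset.sum_range_succ]
    show _ ≤ key m + 1
    omega

lemma lookup_of_mem {l : List (ℕ × α)} (hs : l.Pairwise (fun p q => p.1 < q.1)) {p : ℕ × α}
    (hp : p ∈ l) : l.lookup p.1 = some p.2 := by
  induction l with
  | nil => simp at hp
  | cons q l ih =>
    obtain ⟨k, v⟩ := q
    rw [List.pairwise_cons] at hs
    rcases List.mem_cons.1 hp with rfl | hp
    · simp
    · have := hs.1 p hp
      have e : (p.1 == k) = false := by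
        simp only at this
        simp; omega
      rw [List.lookup_cons, e]
      exact ih hs.2 hp

end nextFree

/-- Spread an array along a strictly increasing key, with a default entry. -/
protected theorem CT.scatter_aux (d : α) {n N : A → ℕ} {key : A → ℕ → ℕ} {f out : A → ℕ → α}
    (hl : CT cur x (fun a => arr (n a) (fun i => (key a i, f a i)))) (hN : CT cur x N)
    (hB : Dom N B)
    (hs : ∀ a i j, i < j → j < n a → key a i < key a j) (hlt : ∀ a i, i < n a → key a i < N a)
    (h₁ : ∀ a i, i < n a → out a (key a i) = f a i)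
    (h₂ : ∀ a j, j < N a → (∀ i, i < n a → key a i ≠ j) → out a j = d) :
    CT cur x (fun a => arr (N a) (out a)) := by
  have hscan := CT.scan (st := fun a i => nextFree (key a) i)
    (out := fun a i => List.replicate (key a i - nextFree (key a) i) d ++ [f a i])
    hl (CT.const 0) (fun a i => sz (key a i, f a i) + (key a i - nextFree (key a) i))
    (((Dom.refl _).const_mul 2).le_trans fun q => by
      have := sz_nat_mono (nextFree_le (hs q.a) le_rfl q.lt)
      simp only [sz_pair]; omega)
    (fun x' h₁ h₂ => (((h₁.fst.sub h₂).replicate (CT.const d)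
        (((Dom.refl _).mul_const (sz d)).le_trans fun q =>
          Nat.mul_le_mul_right _ (Nat.le_add_left _ _))).append
        (h₁.snd.cons (CT.const []))).pair (h₁.fst.add (CT.const 1)))
    ((hl.dom_sz.add hB).le_trans fun a => by
      have e1 := sum_gap_le (hs a) le_rfl
      have e2 := nextFree_le_bound (hlt a)
      rw [Finset.sum_add_distrib, sz_arr]
      omega)
  refine (hscan.fst.flatten.append ((hN.sub hscan.snd).replicate (CT.const d)
    ((hB.mul_const (sz d)).le_trans fun a =>
      Nat.mul_le_mul_right _ (Nat.sub_le _ _)))).congr fun a => ?_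
  rw [arr_eq_nextFree (hs a) (hlt a) (h₂ a)]
  congr 1
  have key1 : ∀ m, m ≤ n a → arr (nextFree (key a) m) (out a) = (arr m (fun i =>
      List.replicate (key a i - nextFree (key a) i) d ++ [f a i])).flatten := by
    intro m
    induction m with
    | zero => intro _; rfl
    | succ m ih =>
      intro hm
      rw [arr_nextFree_succ (hs a) (hlt a) (h₁ a) (h₂ a) (by omega), ih (by omega), arr_succ]
      simp
  exact key1 _ le_rfl

/-- Spread a list of keyed entries with increasing keys over an array. -/
protected theorem CT.scatter' {N : A → ℕ} {l : A → List (ℕ × α)} {out : A → ℕ → Option α}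
    (hl : CT cur x l) (hN : CT cur x N) (hB : Dom N B)
    (hs : ∀ a, (l a).Pairwise (fun p q => p.1 < q.1)) (hlt : ∀ a, ∀ p ∈ l a, p.1 < N a)
    (h₁ : ∀ a, ∀ p ∈ l a, out a p.1 = some p.2)
    (h₂ : ∀ a j, j < N a → (∀ p ∈ l a, p.1 ≠ j) → out a j = none) :
    CT cur x (fun a => arr (N a) (out a)) := by
  have hl' : CT cur x (fun a => arr (l a).length (fun i =>
      ((((l a)[i]?).map Prod.fst).getD 0, ((l a)[i]?).map Prod.snd))) :=
    (hl.map_lt (f := fun p : ℕ × α => (p.1, some p.2))
      (LT.intro fun _ h => h.fst.pair h.snd.some)).congr fun a =>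
      (eq_arr (by simp) fun i hi => by
        have hi' : i < (l a).length := by simpa using hi
        simp [List.getElem?_eq_getElem hi']).symm
  refine CT.scatter_aux none hl' hN hB (fun a i j hij hj => ?_) (fun a i hi => ?_)
    (fun a i hi => ?_) (fun a j hj h => h₂ a j hj fun p hp => ?_)
  · have := List.pairwise_iff_getElem.1 (hs a) i j (by omega) hj hij
    simpa [List.getElem?_eq_getElem hj, List.getElem?_eq_getElem (hij.trans hj)] using this
  · simpa [List.getElem?_eq_getElem hi] using hlt a _ (List.getElem_mem hi)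
  · simpa [List.getElem?_eq_getElem hi] using h₁ a _ (List.getElem_mem hi)
  · obtain ⟨i, hi, rfl⟩ := List.getElem_of_mem hp
    simpa [List.getElem?_eq_getElem hi] using h i hi

/-- Spread a list of keyed entries with increasing keys over an array. -/
protected theorem CT.scatter {N : A → ℕ} {l : A → List (ℕ × α)} (hl : CT cur x l)
    (hN : CT cur x N) (hB : Dom (fun a => N a * sz (N a)) B)
    (hs : ∀ a, (l a).Pairwise (fun p q => p.1 < q.1)) (hlt : ∀ a, ∀ p ∈ l a, p.1 < N a) :
    CT cur x (fun a => arr (N a) (fun j => (l a).lookup j)) :=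
  CT.scatter' hl hN (hB.le_trans fun a => Nat.le_mul_of_pos_right _ (sz_pos _)) hs hlt
    (fun a p hp => lookup_of_mem (hs a) hp)
    (fun a j _ h => List.lookup_eq_none_iff.2 fun p hp => by
      simpa using (h p hp).symm)

/-- Spread an array along a strictly increasing key. -/
protected theorem CT.arr_scatter {n N : A → ℕ} {key : A → ℕ → ℕ} {f : A → ℕ → α}
    {out : A → ℕ → Option α}
    (hl : CT cur x (fun a => arr (n a) (fun i => (key a i, f a i)))) (hN : CT cur x N)
    (hB : Dom (fun a => N a * sz (N a)) B)
    (hs : ∀ a i j, i < j → j < n a → key a i < key a j) (hlt : ∀ a i, i < n a → key a i < N a)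
    (h₁ : ∀ a i, i < n a → out a (key a i) = some (f a i))
    (h₂ : ∀ a j, j < N a → (∀ i, i < n a → key a i ≠ j) → out a j = none) :
    CT cur x (fun a => arr (N a) (out a)) := by
  have hl' : CT cur x (fun a => arr (n a) (fun i => (key a i, some (f a i)))) :=
    hl.arr_map_lt (f := fun p : ℕ × α => (p.1, some p.2))
      (LT.intro fun _ h => h.fst.pair h.snd.some)
  exact CT.scatter_aux none hl' hN
    (hB.le_trans fun a => Nat.le_mul_of_pos_right _ (sz_pos _)) hs hlt h₁ h₂

omit [Enc α] in
/-- Dropping the empty slots undoes a scattering. -/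
lemma reduceOption_arr {n N : ℕ} {key : ℕ → ℕ} {f : ℕ → α} {out : ℕ → Option α}
    (hs : ∀ i j, i < j → j < n → key i < key j) (hlt : ∀ i, i < n → key i < N)
    (h₁ : ∀ i, i < n → out (key i) = some (f i))
    (h₂ : ∀ j, j < N → (∀ i, i < n → key i ≠ j) → out j = none) :
    (arr N out).reduceOption = arr n f := by
  have key1 : ∀ m, m ≤ n → (arr (nextFree key m) out).reduceOption = arr m f := by
    intro m
    induction m with
    | zero => intro _; rfl
    | succ m ih =>
      intro hm
      rw [arr_nextFree_succ (f := fun i => some (f i)) hs hlt h₁ h₂ (by omega),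
        List.reduceOption_append, ih (by omega), arr_succ]
      simp [List.reduceOption_append, List.reduceOption_replicate_none]
  rw [arr_eq_nextFree hs hlt h₂, List.reduceOption_append, key1 n le_rfl]
  simp [List.reduceOption_replicate_none]

/-- A permutation `π` of the positions that is increasing on each of `c` colour classes. -/
protected theorem CT.permColour (c : ℕ) (π col : γ → ℕ → ℕ)
    (hπ : PT (fun q : γ × ℕ => π q.1 q.2)) (hcol : PT (fun q : γ × ℕ => col q.1 q.2))
    {N : A → ℕ} {f g : A → ℕ → α} {par : A → γ} (s : A → ℕ)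
    (hl : CT cur x (fun a => arr (N a) (f a))) (hp : CT cur x par)
    (hs : Sm s (fun a => sz (par a) + sz (N a)))
    (hf : Dom (fun q : Ix N => sz (f q.a q.i)) (fun q => s q.a))
    (hB : Dom (fun a => N a * s a) B)
    (h₁ : ∀ a i, i < N a → π (par a) i < N a ∧ col (par a) i < c ∧ g a (π (par a) i) = f a i)
    (h₂ : ∀ a i j, i < j → j < N a → col (par a) i = col (par a) j → π (par a) i < π (par a) j)
    (h₃ : ∀ a i j, i < N a → j < N a → π (par a) i = π (par a) j → i = j) :
    CT cur x (fun a => arr (N a) (g a)) := by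
  classical
  have hNs : Dom (fun a => sz (N a)) s := hs.dom.le_trans fun _ => Nat.le_add_left _ _
  have hNB : Dom N B := hB.le_trans fun a => Nat.le_mul_of_pos_right _ (hs.pos a)
  have hN : CT cur x N := hl.length.congr fun a => by simp
  have ht : CT cur x (fun a => arr (N a) (fun i => (col (par a) i, π (par a) i, f a i))) := by
    refine CT.arr_mapU hl hp s hf (hs.dom.le_trans fun _ => Nat.le_add_right _ _) hNs
      (fun x' h₁ h₂ h₃ => ?_) hB
    have hsm : Sm (fun q : Ix N => s q.a) (fun q => sz (par q.a, q.i)) :=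
      ((hs.comap Ix.a).add_const 1).of_le fun q => by
        have := sz_nat_mono q.lt.le
        simp only [sz_pair]; omega
    exact ((h₂.pair h₃).pt hcol hsm).pair (((h₂.pair h₃).pt hπ hsm).pair h₁)
  have hk : ∀ k : ℕ, CT cur x (fun a => arr (N a) (fun j =>
      if ∃ i, i < N a ∧ π (par a) i = j ∧ col (par a) i = k then some (g a j) else none)) := by
    intro k
    have h1 := (ht.filter_lt (f := fun e : ℕ × ℕ × α => decide (e.1 = k))
      (LT.intro fun _ h => h.fst.decide_eq (CT.const k))).map_lt (f := Prod.snd)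
      (LT.intro fun _ h => h.snd)
    have hmem : ∀ a (p : ℕ × α), p ∈ ((arr (N a) (fun i => (col (par a) i, π (par a) i, f a i))).filter
        (fun e : ℕ × ℕ × α => decide (e.1 = k))).map Prod.snd ↔
        ∃ i, i < N a ∧ col (par a) i = k ∧ (π (par a) i, f a i) = p := by
      intro a p
      simp only [List.mem_map, List.mem_filter, mem_arr, decide_eq_true_eq]
      constructor
      · rintro ⟨e, ⟨⟨i, hi, rfl⟩, he⟩, rfl⟩
        exact ⟨i, hi, he, rfl⟩
      · rintro ⟨i, hi, he, rfl⟩
        exact ⟨_, ⟨⟨i, hi, rfl⟩, he⟩, rfl⟩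
    refine CT.scatter' h1 hN hNB (fun a => ?_) (fun a p hp => ?_) (fun a p hp => ?_)
      (fun a j _ h => ?_)
    · rw [List.pairwise_map, List.pairwise_filter, List.pairwise_iff_getElem]
      intro i j hi hj hij
      simp only [getElem_arr, decide_eq_true_eq]
      intro e₁ e₂
      exact h₂ a i j hij (by simpa using hj) (e₁.trans e₂.symm)
    · obtain ⟨i, hi, -, rfl⟩ := (hmem a p).1 hp
      exact (h₁ a i hi).1
    · obtain ⟨i, hi, he, rfl⟩ := (hmem a p).1 hp
      rw [if_pos ⟨i, hi, rfl, he⟩, (h₁ a i hi).2.2]
    · rw [if_neg]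
      rintro ⟨i, hi, rfl, he⟩
      exact h _ ((hmem a _).2 ⟨i, hi, he, rfl⟩) rfl
  have hc : ∀ k : ℕ, CT cur x (fun a => arr (N a) (fun j =>
      if ∃ i, i < N a ∧ π (par a) i = j ∧ col (par a) i < k then some (g a j) else none)) := by
    intro k
    induction k with
    | zero =>
      exact (hl.arr_map_lt (f := fun _ => (none : Option α))
        (LT.intro fun _ _ => CT.const _)).congr fun a => arr_congr fun j _ => by simp
    | succ k ih =>
      refine (((hk k).arr_zip ih).arr_map_lt (f := fun p : Option α × Option α => p.1.or p.2)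
        (LT.intro fun _ h => h.fst.orElse h.snd)).congr fun a => arr_congr fun j _ => ?_
      by_cases e₁ : ∃ i, i < N a ∧ π (par a) i = j ∧ col (par a) i = k
      · obtain ⟨i, hi, e, e'⟩ := e₁
        rw [if_pos ⟨i, hi, e, by omega⟩, if_pos ⟨i, hi, e, e'⟩]; rfl
      · rw [if_neg e₁]
        by_cases e₂ : ∃ i, i < N a ∧ π (par a) i = j ∧ col (par a) i < k
        · obtain ⟨i, hi, e, e'⟩ := e₂
          rw [if_pos ⟨i, hi, e, by omega⟩, if_pos ⟨i, hi, e, e'⟩]; rfl
        · rw [if_neg e₂, if_neg]
          · rfl
          · rintro ⟨i, hi, e, e'⟩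
            rcases Nat.lt_succ_iff_lt_or_eq.1 e' with e' | e'
            · exact e₂ ⟨i, hi, e, e'⟩
            · exact e₁ ⟨i, hi, e, e'⟩
  refine (hc c).reduceOption.congr fun a => ?_
  have hsurj : ∀ j, j < N a → ∃ i, i < N a ∧ π (par a) i = j := by
    intro j hj
    have := Finset.surj_on_of_inj_on_of_card_le (s := Finset.range (N a))
      (t := Finset.range (N a)) (fun i _ => π (par a) i)
      (fun i hi => Finset.mem_range.2 (h₁ a i (Finset.mem_range.1 hi)).1)
      (fun i j hi hj e => h₃ a i j (Finset.mem_range.1 hi) (Finset.mem_range.1 hj) e) le_rfl j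
      (Finset.mem_range.2 hj)
    obtain ⟨i, hi, e⟩ := this
    exact ⟨i, Finset.mem_range.1 hi, e.symm⟩
  refine (reduceOption_arr (key := fun i => i) (fun _ _ h _ => h) (fun _ h => h)
    (fun j hj => ?_) (fun j hj h => absurd rfl (h j hj))).symm
  obtain ⟨i, hi, e⟩ := hsurj j hj
  rw [if_pos ⟨i, hi, e, (h₁ a i hi).2.1⟩]

end Crest.Agent.Lib.LT
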