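import Crest.Agent.Lib.LT.Core
import Crest.Prelude.Def_TimeBound

/-!
Compiler from the stack language `P` to `Turing.FinTM2` with a constant overhead.
-/

set_option autoImplicit false

namespace Crest.Agent.Lib.LT

open Crest.Agent.Lib.PT
open Turing Turing.TM2

namespace Cmp

/-- The stacks of the compiled machine. -/
inductive K : Type
  | inp | out | ret | cnt | t1 | t2
  | val (k : Stk)
  deriving DecidableEq

instance : Fintype K :=
  ⟨{.inp, .out, .ret, .cnt, .t1, .t2, .val .m, .val .a, .val .b, .val .c}, by
    intro x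
    rcases x with _ | _ | _ | _ | _ | _ | k
    all_goals first | (cases k <;> simp) | simp⟩

/-- The alphabets of the stacks. -/
@[reducible] def G (Γ₀ Λ : Type) : K → Type
  | .inp => Γ₀
  | .out => Bool
  | .ret => Λ
  | .cnt => Bool
  | .t1 => Bool
  | .t2 => Bool
  | .val _ => Bool

/-- Internal state: a bit, a label, an input symbol. -/
abbrev Sg (Γ₀ Λ : Type) : Type := Option Bool × Λ × Option Γ₀

/-- Statements of the compiled machine. -/
abbrev Stm (Γ₀ Λ : Type) : Type := TM2.Stmt (G Γ₀ Λ) Λ (Sg Γ₀ Λ)

/-- Configurations of the compiled machine. -/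
abbrev Cf (Γ₀ Λ : Type) : Type := TM2.Cfg (G Γ₀ Λ) Λ (Sg Γ₀ Λ)

variable {Γ₀ Λ : Type}

/-- Stack contents. -/
def mk (i : List Γ₀) (o : List Bool) (r : List Λ) (c a b : List Bool) (V : Stk → List Bool) :
    ∀ k, List (G Γ₀ Λ k)
  | .inp => i
  | .out => o
  | .ret => r
  | .cnt => c
  | .t1 => a
  | .t2 => b
  | .val k => V k

section mk
variable (i : List Γ₀) (o : List Bool) (r : List Λ) (c a b : List Bool) (V : Stk → List Bool)
@[simp] lemma mk_inp : mk i o r c a b V .inp = i := rfl
@[simp] lemma mk_out : mk i o r c a b V .out = o := rfl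
@[simp] lemma mk_ret : mk i o r c a b V .ret = r := rfl
@[simp] lemma mk_cnt : mk i o r c a b V .cnt = c := rfl
@[simp] lemma mk_t1 : mk i o r c a b V .t1 = a := rfl
@[simp] lemma mk_t2 : mk i o r c a b V .t2 = b := rfl
@[simp] lemma mk_val (k : Stk) : mk i o r c a b V (.val k) = V k := rfl
@[simp] lemma up_inp (x : List Γ₀) :
    Function.update (mk i o r c a b V) .inp x = mk x o r c a b V := by
  funext k; cases k <;> simp
@[simp] lemma up_out (x : List Bool) :
    Function.update (mk i o r c a b V) .out x = mk i x r c a b V := by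
  funext k; cases k <;> simp
@[simp] lemma up_ret (x : List Λ) :
    Function.update (mk i o r c a b V) .ret x = mk i o x c a b V := by
  funext k; cases k <;> simp
@[simp] lemma up_cnt (x : List Bool) :
    Function.update (mk i o r c a b V) .cnt x = mk i o r x a b V := by
  funext k; cases k <;> simp
@[simp] lemma up_t1 (x : List Bool) :
    Function.update (mk i o r c a b V) .t1 x = mk i o r c x b V := by
  funext k; cases k <;> simp
@[simp] lemma up_t2 (x : List Bool) :
    Function.update (mk i o r c a b V) .t2 x = mk i o r c a x V := by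
  funext k; cases k <;> simp
@[simp] lemma up_val (k : Stk) (x : List Bool) :
    Function.update (mk i o r c a b V) (.val k) x = mk i o r c a b (Function.update V k x) := by
  funext j
  rcases j with _ | _ | _ | _ | _ | _ | j
  any_goals simp
  by_cases h : j = k
  · subst h; simp
  · rw [Function.update_of_ne (by simpa using h), Function.update_of_ne h, mk_val]
end mk

def setBit (v : Sg Γ₀ Λ) (x : Option Bool) : Sg Γ₀ Λ := (x, v.2)
def bitVal (v : Sg Γ₀ Λ) : Bool := v.1.getD false
def bitSome (v : Sg Γ₀ Λ) : Bool := v.1.isSome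
def setRet (v : Sg Γ₀ Λ) (x : Option Λ) : Sg Γ₀ Λ := (v.1, x.getD v.2.1, v.2.2)
def setIn (v : Sg Γ₀ Λ) (x : Option Γ₀) : Sg Γ₀ Λ := (v.1, v.2.1, x)

@[simp] lemma bitVal_setBit (v : Sg Γ₀ Λ) (x : Option Bool) :
    bitVal (setBit v x) = x.getD false := rfl
@[simp] lemma bitSome_setBit (v : Sg Γ₀ Λ) (x : Option Bool) :
    bitSome (setBit v x) = x.isSome := rfl

/-- The machine goes from `c` to `c'` in at most `n` steps. -/
def Reach (M : Λ → Stm Γ₀ Λ) (c c' : Cf Γ₀ Λ) (n : ℕ) : Prop :=
  ∃ m, m ≤ n ∧ (flip bind (step M))^[m] (some c) = some c'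

variable {M : Λ → Stm Γ₀ Λ}

lemma Reach.mono {c c' : Cf Γ₀ Λ} {m n : ℕ} (h : Reach M c c' m) (hn : m ≤ n) :
    Reach M c c' n := by
  obtain ⟨k, hk, h⟩ := h
  exact ⟨k, hk.trans hn, h⟩

lemma Reach.trans {c c₁ c₂ : Cf Γ₀ Λ} {m n : ℕ} (h₁ : Reach M c c₁ m) (h₂ : Reach M c₁ c₂ n) :
    Reach M c c₂ (m + n) := by
  obtain ⟨k₁, hk₁, h₁⟩ := h₁
  obtain ⟨k₂, hk₂, h₂⟩ := h₂
  refine ⟨k₂ + k₁, by omega, ?_⟩
  rw [Function.iterate_add_apply, h₁, h₂]

lemma Reach.one {l : Λ} {q : Stm Γ₀ Λ} (h : M l = q) (v : Sg Γ₀ Λ) (S : ∀ k, List (G Γ₀ Λ k)) :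
    Reach M ⟨some l, v, S⟩ (stepAux q v S) 1 :=
  ⟨1, le_rfl, by simp [flip, step, h]⟩

/-- Optional accumulation. -/
def acc (t : Bool) (s a : List Bool) : List Bool := if t then s.reverse ++ a else a

lemma acc_append (t : Bool) (s s' a : List Bool) : acc t (s ++ s') a = acc t s' (acc t s a) := by
  cases t <;> simp [acc]

/-- Optionally copy the current bit to the temporary stacks. -/
def act (ta tb : Bool) (q : Stm Γ₀ Λ) : Stm Γ₀ Λ :=
  match ta, tb with
  | false, false => q
  | true, false => .push .t1 bitVal q
  | false, true => .push .t2 bitVal q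
  | true, true => .push .t1 bitVal (.push .t2 bitVal q)

lemma stepAux_act (ta tb : Bool) (q : Stm Γ₀ Λ) (v : Sg Γ₀ Λ) (i : List Γ₀) (o : List Bool)
    (r : List Λ) (c a b : List Bool) (V : Stk → List Bool) :
    stepAux (act ta tb q) v (mk i o r c a b V) =
      stepAux q v (mk i o r c (acc ta [bitVal v] a) (acc tb [bitVal v] b) V) := by
  cases ta <;> cases tb <;> simp [act, acc]

/-- After a leaf: one pending subtree less. -/
def popEnd (l : Λ) (next : Stm Γ₀ Λ) : Stm Γ₀ Λ :=
  .pop .cnt setBit (.branch bitSome (.goto fun _ => l) next)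

/-- The loop popping one serialised tree. -/
def popStm (k : Stk) (ta tb : Bool) (l : Λ) (next : Stm Γ₀ Λ) : Stm Γ₀ Λ :=
  .pop (.val k) setBit (act ta tb
    (.branch bitVal (.push .cnt (fun _ => true) (.goto fun _ => l)) (popEnd l next)))

lemma reach_pop_aux {k : Stk} {ta tb : Bool} {l : Λ} {next : Stm Γ₀ Λ}
    (hM : M l = popStm k ta tb l next) (i : List Γ₀) (o : List Bool) (r : List Λ) (x : D) :
    ∀ (c a b rest : List Bool) (V : Stk → List Bool) (v : Sg Γ₀ Λ), V k = x.ser ++ rest →
      ∃ v', Reach M ⟨some l, v, mk i o r c a b V⟩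
        (stepAux (popEnd l next) v'
          (mk i o r c (acc ta x.ser a) (acc tb x.ser b) (Function.update V k rest))) x.size := by
  induction x with
  | nil =>
    intro c a b rest V v hV
    refine ⟨setBit v (some false), ?_⟩
    have h1 := Reach.one hM v (mk i o r c a b V)
    simpa [popStm, stepAux_act, hV] using h1
  | cons x y ihx ihy =>
    intro c a b rest V v hV
    have h1 := Reach.one hM v (mk i o r c a b V)
    simp only [popStm, stepAux, mk_val, hV, D.ser_cons, List.cons_append, List.head?_cons,
      List.tail_cons, up_val, stepAux_act, bitVal_setBit, Option.getD_some, cond_true, mk_cnt,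
      up_cnt, List.append_assoc] at h1
    obtain ⟨v₁, h2⟩ := ihx (true :: c) (acc ta [true] a) (acc tb [true] b) (y.ser ++ rest)
      (Function.update V k (x.ser ++ (y.ser ++ rest))) (setBit v (some true)) (by simp)
    simp only [popEnd, stepAux, mk_cnt, List.head?_cons, List.tail_cons, up_cnt, bitSome_setBit,
      Option.isSome_some, cond_true, Function.update_idem] at h2
    obtain ⟨v₂, h3⟩ := ihy c (acc ta x.ser (acc ta [true] a)) (acc tb x.ser (acc tb [true] b)) rest
      (Function.update V k (y.ser ++ rest)) (setBit v₁ (some true)) (by simp)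
    have hacc : ∀ (t : Bool) (z : List Bool), acc t (D.cons x y).ser z =
        acc t y.ser (acc t x.ser (acc t [true] z)) := by
      intro t z
      rw [← acc_append, ← acc_append]; simp
    refine ⟨v₂, ?_⟩
    rw [hacc, hacc]
    simp only [Function.update_idem] at h3
    exact (h1.trans (h2.trans h3)).mono (by simp; omega)

lemma reach_pop {k : Stk} {ta tb : Bool} {l : Λ} {next : Stm Γ₀ Λ}
    (hM : M l = popStm k ta tb l next) (i : List Γ₀) (o : List Bool) (r : List Λ) (x : D)
    (a b rest : List Bool) (V : Stk → List Bool) (v : Sg Γ₀ Λ) (hV : V k = x.ser ++ rest) :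
    ∃ v', Reach M ⟨some l, v, mk i o r [] a b V⟩
      (stepAux next v'
        (mk i o r [] (acc ta x.ser a) (acc tb x.ser b) (Function.update V k rest))) x.size := by
  obtain ⟨v', h⟩ := reach_pop_aux hM i o r x [] a b rest V v hV
  exact ⟨setBit v' none, by simpa [popEnd] using h⟩

/-- The loop pouring the first temporary stack. -/
def back1 (k : Stk) (l : Λ) (next : Stm Γ₀ Λ) : Stm Γ₀ Λ :=
  .pop .t1 setBit (.branch bitSome (.push (.val k) bitVal (.goto fun _ => l)) next)

lemma reach_back1 {k : Stk} {l : Λ} {next : Stm Γ₀ Λ} (hM : M l = back1 k l next)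
    (i : List Γ₀) (o : List Bool) (r : List Λ) (c b : List Bool) (a : List Bool) :
    ∀ (V : Stk → List Bool) (v : Sg Γ₀ Λ),
      ∃ v', Reach M ⟨some l, v, mk i o r c a b V⟩
        (stepAux next v' (mk i o r c [] b (Function.update V k (a.reverse ++ V k))))
        (a.length + 1) := by
  induction a with
  | nil =>
    intro V v
    exact ⟨setBit v none, by simpa [back1] using Reach.one hM v (mk i o r c [] b V)⟩
  | cons x a ih =>
    intro V v
    have h1 := Reach.one hM v (mk i o r c (x :: a) b V)
    simp only [back1, stepAux, mk_t1, List.head?_cons, List.tail_cons, up_t1, bitSome_setBit,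
      Option.isSome_some, cond_true, bitVal_setBit, Option.getD_some, mk_val, up_val] at h1
    obtain ⟨v', h2⟩ := ih (Function.update V k (x :: V k)) (setBit v (some x))
    refine ⟨v', ?_⟩
    simp only [Function.update_idem, Function.update_self] at h2
    simp only [List.reverse_cons, List.append_assoc, List.singleton_append, List.length_cons]
    exact (h1.trans h2).mono (by omega)

/-- The loop pouring the second temporary stack. -/
def back2 (k : Stk) (l : Λ) (next : Stm Γ₀ Λ) : Stm Γ₀ Λ :=
  .pop .t2 setBit (.branch bitSome (.push (.val k) bitVal (.goto fun _ => l)) next)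

lemma reach_back2 {k : Stk} {l : Λ} {next : Stm Γ₀ Λ} (hM : M l = back2 k l next)
    (i : List Γ₀) (o : List Bool) (r : List Λ) (c a : List Bool) (b : List Bool) :
    ∀ (V : Stk → List Bool) (v : Sg Γ₀ Λ),
      ∃ v', Reach M ⟨some l, v, mk i o r c a b V⟩
        (stepAux next v' (mk i o r c a [] (Function.update V k (b.reverse ++ V k))))
        (b.length + 1) := by
  induction b with
  | nil =>
    intro V v
    exact ⟨setBit v none, by simpa [back2] using Reach.one hM v (mk i o r c a [] V)⟩
  | cons x b ih =>
    intro V v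
    have h1 := Reach.one hM v (mk i o r c a (x :: b) V)
    simp only [back2, stepAux, mk_t2, List.head?_cons, List.tail_cons, up_t2, bitSome_setBit,
      Option.isSome_some, cond_true, bitVal_setBit, Option.getD_some, mk_val, up_val] at h1
    obtain ⟨v', h2⟩ := ih (Function.update V k (x :: V k)) (setBit v (some x))
    refine ⟨v', ?_⟩
    simp only [Function.update_idem, Function.update_self] at h2
    simp only [List.reverse_cons, List.append_assoc, List.singleton_append, List.length_cons]
    exact (h1.trans h2).mono (by omega)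

/-- The labels of a compiled program. -/
def L : P → Type
  | .skip => Unit
  | .nil _ => Unit
  | .cons _ => Unit
  | .mv _ _ => Bool
  | .dup _ => Option Bool
  | .drop _ => Unit
  | .seq p q => L p ⊕ L q
  | .case _ p q => Option (L p ⊕ L q)
  | .loop _ p => Option (L p)
  | .call => Bool
  | .fix p => Bool ⊕ L p

lemma finite_L : ∀ p : P, Finite (L p)
  | .skip => inferInstanceAs (Finite Unit)
  | .nil _ => inferInstanceAs (Finite Unit)
  | .cons _ => inferInstanceAs (Finite Unit)
  | .mv _ _ => inferInstanceAs (Finite Bool)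
  | .dup _ => inferInstanceAs (Finite (Option Bool))
  | .drop _ => inferInstanceAs (Finite Unit)
  | .seq p q => by
    have := finite_L p; have := finite_L q; exact inferInstanceAs (Finite (L p ⊕ L q))
  | .case _ p q => by
    have := finite_L p; have := finite_L q; exact inferInstanceAs (Finite (Option (L p ⊕ L q)))
  | .loop _ p => by
    have := finite_L p; exact inferInstanceAs (Finite (Option (L p)))
  | .call => inferInstanceAs (Finite Bool)
  | .fix p => by
    have := finite_L p; exact inferInstanceAs (Finite (Bool ⊕ L p))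

/-- The entry label. -/
def entry : (p : P) → L p
  | .skip => ()
  | .nil _ => ()
  | .cons _ => ()
  | .mv _ _ => false
  | .dup _ => none
  | .drop _ => ()
  | .seq p _ => Sum.inl (entry p)
  | .case _ _ _ => none
  | .loop _ _ => none
  | .call => false
  | .fix _ => Sum.inl false

/-- Return from a call. -/
def RET : Stm Γ₀ Λ := .pop .ret setRet (.goto fun v => v.2.1)

/-- The compiled statements, given the embedding of labels, the entry of the current recursion
target and the continuation. -/
def code : (p : P) → (L p → Λ) → Λ → Stm Γ₀ Λ → L p → Stm Γ₀ Λ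
  | .skip, _, _, next, _ => next
  | .nil k, _, _, next, _ => .push (.val k) (fun _ => false) next
  | .cons k, _, _, next, _ => .push (.val k) (fun _ => true) next
  | .mv j _, emb, _, _, false => popStm j true false (emb false) (.goto fun _ => emb true)
  | .mv _ k, emb, _, next, true => back1 k (emb true) next
  | .dup k, emb, _, _, none => popStm k true true (emb none) (.goto fun _ => emb (some false))
  | .dup k, emb, _, _, some false => back1 k (emb (some false)) (.goto fun _ => emb (some true))
  | .dup k, emb, _, next, some true => back2 k (emb (some true)) next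
  | .drop k, emb, _, next, _ => popStm k false false (emb ()) next
  | .seq p q, emb, ce, _, Sum.inl l =>
      code p (fun x => emb (Sum.inl x)) ce (.goto fun _ => emb (Sum.inr (entry q))) l
  | .seq _ q, emb, ce, next, Sum.inr l => code q (fun x => emb (Sum.inr x)) ce next l
  | .case k p q, emb, _, _, none =>
      .pop (.val k) setBit (.branch bitVal (.goto fun _ => emb (some (Sum.inr (entry q))))
        (.goto fun _ => emb (some (Sum.inl (entry p)))))
  | .case _ p _, emb, ce, next, some (Sum.inl l) =>
      code p (fun x => emb (some (Sum.inl x))) ce next l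
  | .case _ _ q, emb, ce, next, some (Sum.inr l) =>
      code q (fun x => emb (some (Sum.inr x))) ce next l
  | .loop k p, emb, _, next, none =>
      .pop (.val k) setBit (.branch bitVal (.goto fun _ => emb (some (entry p))) next)
  | .loop _ p, emb, ce, _, some l =>
      code p (fun x => emb (some x)) ce (.goto fun _ => emb none) l
  | .call, emb, ce, _, false => .push .ret (fun _ => emb true) (.goto fun _ => ce)
  | .call, _, _, next, true => next
  | .fix p, emb, _, _, Sum.inl false =>
      .push .ret (fun _ => emb (Sum.inl true)) (.goto fun _ => emb (Sum.inr (entry p)))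
  | .fix _, _, _, next, Sum.inl true => next
  | .fix p, emb, _, _, Sum.inr l =>
      code p (fun x => emb (Sum.inr x)) (emb (Sum.inr (entry p))) RET l

/-- Serialisation of a stack of values. -/
def serL : List D → List Bool
  | [] => []
  | x :: l => x.ser ++ serL l

@[simp] lemma serL_nil : serL [] = [] := rfl
@[simp] lemma serL_cons (x : D) (l : List D) : serL (x :: l) = x.ser ++ serL l := rfl

/-- Serialisation of the four stacks. -/
def vals (S : St) : Stk → List Bool := fun k => serL (S.get k)

lemma vals_set (S : St) (k : Stk) (l : List D) :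
    vals (S.set k l) = Function.update (vals S) k (serL l) := by
  funext j
  by_cases h : j = k
  · subst h; simp [vals]
  · rw [Function.update_of_ne h]; simp [vals, St.get_set_ne S h]

lemma vals_eq {S : St} {k : Stk} {l : List D} (h : S.get k = l) : vals S k = serL l := by
  simp [vals, h]

theorem sim (i : List Γ₀) (o : List Bool) {cur p : P} {S S' : St} {n : ℕ}
    (h : Ev cur p S S' n) :
    ∀ (embC : L cur → Λ) (_ : ∀ l, M (embC l) = code cur embC (embC (entry cur)) RET l)
      (emb : L p → Λ) (next : Stm Γ₀ Λ)
      (_ : ∀ l, M (emb l) = code p emb (embC (entry cur)) next l) (r : List Λ) (v : Sg Γ₀ Λ),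
      ∃ v', Reach M ⟨some (emb (entry p)), v, mk i o r [] [] [] (vals S)⟩
        (stepAux next v' (mk i o r [] [] [] (vals S'))) (5 * n) := by
  induction h with
  | skip cur S =>
    intro embC hC emb next hM r v
    exact ⟨v, (Reach.one (hM ()) v _).mono (by omega)⟩
  | nil cur k S =>
    intro embC hC emb next hM r v
    refine ⟨v, ?_⟩
    have h1 := Reach.one (hM ()) v (mk i o r [] [] [] (vals S))
    simp only [code, stepAux, mk_val, up_val] at h1
    rw [vals_set]
    exact h1.mono (by omega)
  | @cons cur k S x y t h =>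
    intro embC hC emb next hM r v
    refine ⟨v, ?_⟩
    have h1 := Reach.one (hM ()) v (mk i o r [] [] [] (vals S))
    simp only [code, stepAux, mk_val, up_val, vals_eq h, serL_cons] at h1
    rw [vals_set]
    simp only [serL_cons, D.ser_cons, List.cons_append, List.append_assoc]
    exact h1.mono (by omega)
  | @mv cur j k S x t h =>
    intro embC hC emb next hM r v
    obtain ⟨v₁, h1⟩ := reach_pop (hM false) i o r x [] [] (serL t) (vals S) v (vals_eq h)
    simp only [acc, if_true, List.append_nil, Bool.false_eq_true, if_false, stepAux] at h1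
    obtain ⟨v₂, h2⟩ := reach_back1 (hM true) i o r [] [] x.ser.reverse
      (Function.update (vals S) j (serL t)) v₁
    refine ⟨v₂, ?_⟩
    rw [vals_set, vals_set, serL_cons]
    rw [List.reverse_reverse, List.length_reverse, D.length_ser] at h2
    have e : serL ((S.set j t).get k) = Function.update (vals S) j (serL t) k := by
      rw [← vals_set]; rfl
    rw [e]
    have := x.size_pos
    exact (h1.trans h2).mono (by omega)
  | @dup cur k S x t h =>
    intro embC hC emb next hM r v
    obtain ⟨v₁, h1⟩ := reach_pop (hM none) i o r x [] [] (serL t) (vals S) v (vals_eq h)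
    simp only [acc, if_true, List.append_nil, stepAux] at h1
    obtain ⟨v₂, h2⟩ := reach_back1 (hM (some false)) i o r [] x.ser.reverse x.ser.reverse
      (Function.update (vals S) k (serL t)) v₁
    simp only [stepAux, List.reverse_reverse, List.length_reverse, D.length_ser,
      Function.update_idem, Function.update_self] at h2
    obtain ⟨v₃, h3⟩ := reach_back2 (hM (some true)) i o r [] [] x.ser.reverse
      (Function.update (vals S) k (x.ser ++ serL t)) v₂
    simp only [List.reverse_reverse, List.length_reverse, D.length_ser,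
      Function.update_idem, Function.update_self] at h3
    refine ⟨v₃, ?_⟩
    rw [vals_set, serL_cons, serL_cons]
    have := x.size_pos
    exact (h1.trans (h2.trans h3)).mono (by omega)
  | @drop cur k S x t h =>
    intro embC hC emb next hM r v
    obtain ⟨v₁, h1⟩ := reach_pop (hM ()) i o r x [] [] (serL t) (vals S) v (vals_eq h)
    simp only [acc, Bool.false_eq_true, if_false] at h1
    refine ⟨v₁, ?_⟩
    rw [vals_set]
    exact h1.mono (by omega)
  | @seq cur p q S S₁ S₂ m n _ _ ih₁ ih₂ =>
    intro embC hC emb next hM r v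
    obtain ⟨v₁, h1⟩ := ih₁ embC hC (fun x => emb (Sum.inl x)) _ (fun l => hM (Sum.inl l)) r v
    obtain ⟨v₂, h2⟩ := ih₂ embC hC (fun x => emb (Sum.inr x)) _ (fun l => hM (Sum.inr l)) r v₁
    exact ⟨v₂, (h1.trans h2).mono (by omega)⟩
  | @caseNil cur p q k S S' t n h _ ih =>
    intro embC hC emb next hM r v
    have h1 := Reach.one (hM none) v (mk i o r [] [] [] (vals S))
    simp only [code, stepAux, mk_val, up_val, vals_eq h, serL_cons, D.ser_nil, List.cons_append,
      List.nil_append, List.head?_cons, List.tail_cons, bitVal_setBit, Option.getD_some,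
      cond_false] at h1
    obtain ⟨v₂, h2⟩ := ih embC hC (fun x => emb (some (Sum.inl x))) _
      (fun l => hM (some (Sum.inl l))) r (setBit v (some false))
    rw [vals_set] at h2
    exact ⟨v₂, (h1.trans h2).mono (by omega)⟩
  | @caseCons cur p q k S S' x y t n h _ ih =>
    intro embC hC emb next hM r v
    have h1 := Reach.one (hM none) v (mk i o r [] [] [] (vals S))
    simp only [code, stepAux, mk_val, up_val, vals_eq h, serL_cons, D.ser_cons, List.cons_append,
      List.head?_cons, List.tail_cons, bitVal_setBit, Option.getD_some,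
      cond_true, List.append_assoc] at h1
    obtain ⟨v₂, h2⟩ := ih embC hC (fun x => emb (some (Sum.inr x))) _
      (fun l => hM (some (Sum.inr l))) r (setBit v (some true))
    rw [vals_set] at h2
    exact ⟨v₂, (h1.trans h2).mono (by omega)⟩
  | @loopNil cur p k S t h =>
    intro embC hC emb next hM r v
    have h1 := Reach.one (hM none) v (mk i o r [] [] [] (vals S))
    simp only [code, stepAux, mk_val, up_val, vals_eq h, serL_cons, D.ser_nil, List.cons_append,
      List.nil_append, List.head?_cons, List.tail_cons, bitVal_setBit, Option.getD_some,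
      cond_false] at h1
    rw [vals_set]
    exact ⟨_, h1.mono (by omega)⟩
  | @loopCons cur p k S S₁ S₂ x y t m n h _ _ ih₁ ih₂ =>
    intro embC hC emb next hM r v
    have h1 := Reach.one (hM none) v (mk i o r [] [] [] (vals S))
    simp only [code, stepAux, mk_val, up_val, vals_eq h, serL_cons, D.ser_cons, List.cons_append,
      List.head?_cons, List.tail_cons, bitVal_setBit, Option.getD_some,
      cond_true, List.append_assoc] at h1
    obtain ⟨v₂, h2⟩ := ih₁ embC hC (fun x => emb (some x)) _
      (fun l => hM (some l)) r (setBit v (some true))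
    rw [vals_set] at h2
    obtain ⟨v₃, h3⟩ := ih₂ embC hC emb next hM r v₂
    exact ⟨v₃, (h1.trans (h2.trans h3)).mono (by omega)⟩
  | @call cur S S' n _ ih =>
    intro embC hC emb next hM r v
    have h1 := Reach.one (hM false) v (mk i o r [] [] [] (vals S))
    simp only [code, stepAux, mk_ret, up_ret] at h1
    obtain ⟨v₂, h2⟩ := ih embC hC embC RET hC (emb true :: r) v
    simp only [RET, stepAux, mk_ret, up_ret, List.head?_cons, List.tail_cons, setRet,
      Option.getD_some] at h2
    have h3 := Reach.one (hM true) (v₂.1, emb true, v₂.2.2) (mk i o r [] [] [] (vals S'))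
    exact ⟨_, (h1.trans (h2.trans h3)).mono (by omega)⟩
  | @fix cur p S S' n _ ih =>
    intro embC hC emb next hM r v
    have h1 := Reach.one (hM (Sum.inl false)) v (mk i o r [] [] [] (vals S))
    simp only [code, stepAux, mk_ret, up_ret] at h1
    obtain ⟨v₂, h2⟩ := ih (fun x => emb (Sum.inr x)) (fun l => hM (Sum.inr l))
      (fun x => emb (Sum.inr x)) RET (fun l => hM (Sum.inr l)) (emb (Sum.inl true) :: r) v
    simp only [RET, stepAux, mk_ret, up_ret, List.head?_cons, List.tail_cons, setRet,
      Option.getD_some] at h2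
    have h3 := Reach.one (hM (Sum.inl true)) (v₂.1, emb (Sum.inl true), v₂.2.2)
      (mk i o r [] [] [] (vals S'))
    exact ⟨_, (h1.trans (h2.trans h3)).mono (by omega)⟩

/-! ### Input and output -/

/-- Prepend a fixed word to the main value stack. -/
def pushAll : List Bool → Stm Γ₀ Λ → Stm Γ₀ Λ
  | [], q => q
  | x :: w, q => pushAll w (.push (.val .m) (fun _ => x) q)

lemma stepAux_pushAll (i : List Γ₀) (o : List Bool) (r : List Λ) (c a b : List Bool)
    (v : Sg Γ₀ Λ) (w : List Bool) : ∀ (q : Stm Γ₀ Λ) (V : Stk → List Bool),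
    stepAux (pushAll w q) v (mk i o r c a b V) =
      stepAux q v (mk i o r c a b (Function.update V .m (w ++ V .m))) := by
  induction w with
  | nil => intro q V; simp [pushAll]
  | cons x w ih => intro q V; simp [pushAll, ih]

/-- Labels of the whole machine: the program, the input loop, start (`false`) and output loop. -/
abbrev Lam (Γ₀ : Type) (q : P) : Type := L q ⊕ (Option Γ₀ ⊕ Bool)

/-- Read the next input symbol. -/
def rd (q : P) : Stm Γ₀ (Lam Γ₀ q) := .pop .inp setIn (.goto fun v => .inr (.inl v.2.2))

/-- The initial state. -/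
def st₀ (q : P) : Sg Γ₀ (Lam Γ₀ q) := (none, .inr (.inr false), none)

/-- Discard a symbol of the main value stack. -/
def skp (s : Stm Γ₀ Λ) : Stm Γ₀ Λ := .pop (.val .m) (fun v _ => v) s

/-- The program of the whole machine. -/
def prog (e : Γ₀ → D) (q : P) : Lam Γ₀ q → Stm Γ₀ (Lam Γ₀ q)
  | .inl l => code q Sum.inl (.inl (entry q)) RET l
  | .inr (.inl none) => .push .ret (fun _ => .inr (.inr true)) (.goto fun _ => .inl (entry q))
  | .inr (.inl (some s)) => pushAll (true :: (e s).ser) (rd q)
  | .inr (.inr false) => .push (.val .m) (fun _ => false) (rd q)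
  | .inr (.inr true) => .pop (.val .m) setBit (.branch bitVal
      (skp (.pop (.val .m) setBit (skp (skp (skp
        (.push .out bitVal (.goto fun _ => .inr (.inr true))))))))
      (.load (fun _ => st₀ q) .halt))

/-- Only the main stack is used. -/
def only (w : List Bool) : Stk → List Bool := Function.update (fun _ => []) .m w

@[simp] lemma only_m (w : List Bool) : only w .m = w := by simp [only]
@[simp] lemma update_only (w w' : List Bool) : Function.update (only w) .m w' = only w' := by
  simp [only]

lemma vals_only (x : D) : vals ⟨[x], [], [], []⟩ = only x.ser := by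
  funext k; cases k <;> simp [vals, St.get, only]

lemma reach_in (e : Γ₀ → D) (q : P) (l : List Γ₀) : ∀ (t : List D) (v : Sg Γ₀ (Lam Γ₀ q)),
    ∃ v', Reach (prog e q) (stepAux (rd q) v (mk l [] [] [] [] [] (only (D.ofList t).ser)))
      ⟨some (.inl (entry q)), v', mk [] [] [.inr (.inr true)] [] [] []
        (only (D.ofList ((l.map e).reverse ++ t)).ser)⟩ (l.length + 1) := by
  induction l with
  | nil =>
    intro t v
    have h1 := Reach.one (M := prog e q) (l := .inr (.inl none)) rfl (setIn v none)
      (mk [] [] [] [] [] [] (only (D.ofList t).ser))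
    exact ⟨_, by simpa [prog, rd, setIn] using h1⟩
  | cons s l ih =>
    intro t v
    have h1 := Reach.one (M := prog e q) (l := .inr (.inl (some s))) rfl (setIn v (some s))
      (mk l [] [] [] [] [] (only (D.ofList t).ser))
    simp only [prog, stepAux_pushAll, only_m, update_only] at h1
    obtain ⟨v', h2⟩ := ih (e s :: t) (setIn v (some s))
    refine ⟨v', ?_⟩
    have e1 : stepAux (rd q) v (mk (s :: l) [] [] [] [] [] (only (D.ofList t).ser)) =
        ⟨some (.inr (.inl (some s))), setIn v (some s),
          mk l [] [] [] [] [] (only (D.ofList t).ser)⟩ := by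
      simp [rd, setIn]
    rw [e1]
    simp only [List.map_cons, List.reverse_cons, List.append_assoc, List.singleton_append,
      List.length_cons]
    simp only [D.ofList_cons, D.ser_cons, List.cons_append] at h1 h2
    exact (h1.trans h2).mono (by omega)

lemma reach_out (e : Γ₀ → D) (q : P) (l : List Bool) : ∀ (o : List Bool) (v : Sg Γ₀ (Lam Γ₀ q)),
    Reach (prog e q) ⟨some (.inr (.inr true)), v, mk [] o [] [] [] [] (only (enc l).ser)⟩
      ⟨none, st₀ q, mk [] (l.reverse ++ o) [] [] [] [] (only [])⟩ (l.length + 1) := by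
  induction l with
  | nil =>
    intro o v
    have h1 := Reach.one (M := prog e q) (l := .inr (.inr true)) rfl v
      (mk [] o [] [] [] [] (only (enc ([] : List Bool)).ser))
    simpa [prog, enc_nil] using h1
  | cons b l ih =>
    intro o v
    have h1 := Reach.one (M := prog e q) (l := .inr (.inr true)) rfl v
      (mk [] o [] [] [] [] (only (enc (b :: l)).ser))
    have h2 := ih (b :: o) (setBit (setBit v (some true)) (some b))
    have e1 : stepAux (prog e q (.inr (.inr true))) v
        (mk [] o [] [] [] [] (only (enc (b :: l)).ser)) =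
        ⟨some (.inr (.inr true)), setBit (setBit v (some true)) (some b),
          mk [] (b :: o) [] [] [] [] (only (enc l).ser)⟩ := by
      cases b <;> simp [prog, enc_cons, enc_false, enc_true, skp]
    rw [e1] at h1
    simp only [List.reverse_cons, List.append_assoc, List.singleton_append, List.length_cons]
    exact (h1.trans h2).mono (by omega)

lemma reach_whole [Enc Γ₀] (q : P) (l : List Γ₀) (l' : List Bool) (n : ℕ)
    (h : Impl q q (enc l.reverse) (enc l'.reverse) n) :
    Reach (prog enc q) ⟨some (.inr (.inr false)), st₀ q, mk l [] [] [] [] [] (only [])⟩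
      ⟨none, st₀ q, mk [] l' [] [] [] [] (only [])⟩ (l.length + 5 * n + l'.length + 3) := by
  have h0 := Reach.one (M := prog (enc : Γ₀ → D) q) (l := .inr (.inr false)) rfl (st₀ q)
    (mk l [] [] [] [] [] (only []))
  simp only [prog, stepAux, mk_val, up_val, only_m, update_only] at h0
  obtain ⟨v₁, h1⟩ := reach_in (enc : Γ₀ → D) q l [] (st₀ q)
  obtain ⟨m, hm, hev⟩ := h [] [] [] []
  obtain ⟨v₂, h2⟩ := sim (M := prog (enc : Γ₀ → D) q) [] [] hev Sum.inl (fun _ => rfl) Sum.inl RET
    (fun _ => rfl) [.inr (.inr true)] v₁
  rw [vals_only, vals_only] at h2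
  simp only [RET, stepAux, mk_ret, up_ret, List.head?_cons, List.tail_cons, setRet,
    Option.getD_some] at h2
  have h3 := reach_out (enc : Γ₀ → D) q l'.reverse [] (v₂.1, .inr (.inr true), v₂.2.2)
  rw [List.append_nil, ← List.map_reverse, ← enc_list] at h1
  simp only [List.reverse_reverse, List.append_nil, List.length_reverse] at h3
  exact (h0.trans (h1.trans (h2.trans h3))).mono (by omega)

/-- The bundled machine. -/
noncomputable def machine (Γ₀ : Type) [Enc Γ₀] [Finite Γ₀] (q : P) : FinTM2 :=
  haveI : Finite (L q) := finite_L q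
  @FinTM2.mk K _ _ .inp .out (G Γ₀ (Lam Γ₀ q)) (Lam Γ₀ q) (.inr (.inr false))
    (Fintype.ofFinite _) (Sg Γ₀ (Lam Γ₀ q)) (st₀ q) (Fintype.ofFinite _)
    (Fintype.ofFinite Γ₀) (prog enc q)

lemma outputs [Enc Γ₀] [Finite Γ₀] (q : P) (l : List Γ₀) (l' : List Bool) (n N : ℕ)
    (h : Impl q q (enc l.reverse) (enc l'.reverse) n)
    (hN : l.length + 5 * n + l'.length + 3 ≤ N) :
    Nonempty (TM2OutputsInTime (machine Γ₀ q) l (some l') N) := by
  obtain ⟨m, hm, e⟩ := (reach_whole q l l' n h).mono hN
  refine ⟨⟨⟨m, ?_⟩, hm⟩⟩
  have h0 := initList_eq (machine Γ₀ q) l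
  have h1 := haltList_eq (machine Γ₀ q) l'
  change (flip bind (machine Γ₀ q).step)^[m] (some (initList (machine Γ₀ q) l)) =
    some (haltList (machine Γ₀ q) l')
  rw [h0, h1]
  have e1 : mk (Λ := Lam Γ₀ q) l [] [] [] [] [] (only []) =
      Function.update (β := fun k => List (G Γ₀ (Lam Γ₀ q) k)) (fun _ => []) K.inp l := by
    funext k; cases k <;> simp [only]
  have e2 : mk (Γ₀ := Γ₀) (Λ := Lam Γ₀ q) [] l' [] [] [] [] (only []) =
      Function.update (β := fun k => List (G Γ₀ (Lam Γ₀ q) k)) (fun _ => []) K.out l' := by
    funext k; cases k <;> simp [only]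
  rw [e1, e2] at e
  exact e

end Cmp

/-- A closed routine from the presented input (a list over a finite alphabet) to the presented
output (a list of bits) is executed by a machine with finitely many stacks. -/
theorem Closed.timeBoundComputable {A β Γ₀ : Type} [Enc Γ₀] [Finite Γ₀] (ea : A → List Γ₀)
    (eb : β → List Bool) (f : A → β) (T : ℕ → ℕ) (hT : ∀ n, n < T n)
    (h : Closed ea (fun a => eb (f a)) (fun a => T (ea a).length)) :
    ∃ K : ℕ, Crest.DTime.TimeBoundComputable ea eb f (fun n => K * T n) := by
  obtain ⟨p, C, h⟩ := h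
  obtain ⟨B, hB⟩ : ∃ B : ℕ, ∀ s : Γ₀, (enc s).size ≤ B := by
    obtain ⟨B, hB⟩ := (Set.finite_range fun s : Γ₀ => (enc s).size).bddAbove
    exact ⟨B, fun s => hB ⟨s, rfl⟩⟩
  let q : P := pRev ;; p ;; pRev
  let K₁ : ℕ := B + 2
  let K₂ : ℕ := K₁ + C
  let K₃ : ℕ := 4 * K₁ + C + 4 * K₂
  have key : ∀ a, Nonempty (TM2OutputsInTime (Cmp.machine Γ₀ q) (ea a) (some (eb (f a)))
      ((5 * K₃ + K₂ + 4) * T (ea a).length)) := by
    intro a
    set t := T (ea a).length with ht
    have ht1 : (ea a).length < t := hT _
    have hin : (enc (ea a)).size ≤ K₁ * t := by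
      have := D.size_ofList_le ((ea a).map enc) B (by
        intro x hx
        obtain ⟨s, -, rfl⟩ := List.mem_map.1 hx
        exact hB s)
      rw [List.length_map, ← enc_list] at this
      simp only [K₁]
      nlinarith
    have h2 : Impl q p (enc (ea a)) (enc (eb (f a))) (C * t) := h q a
    have hout : (enc (eb (f a))).size ≤ K₂ * t := by
      have := h2.size_le
      simp only [K₂, add_mul]
      omega
    have h1 := impl_rev q ((ea a).map enc).reverse
    have h3 := impl_rev q ((eb (f a)).map enc)
    rw [List.reverse_reverse, size_ofList_reverse, ← List.map_reverse, ← enc_list,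
      ← enc_list] at h1
    rw [← List.map_reverse, ← enc_list, ← enc_list] at h3
    have h4 : Impl q q (enc (ea a).reverse) (enc (eb (f a)).reverse) (K₃ * t) :=
      (h1.seq (h2.seq h3)).mono (by simp only [K₃, add_mul, mul_assoc]; omega)
    refine Cmp.outputs q _ _ _ _ h4 ?_
    have := D.length_lt_size_ofList ((eb (f a)).map enc)
    rw [List.length_map, ← enc_list] at this
    simp only [add_mul, mul_assoc]
    omega
  refine ⟨5 * K₃ + K₂ + 4, ⟨⟨Cmp.machine Γ₀ q, Equiv.refl _, Equiv.refl _⟩,
    fun n => (5 * K₃ + K₂ + 4) * T n, fun a => ?_⟩, fun _ => le_rfl⟩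
  have key' : ∀ (u : List Γ₀) (w : List Bool), u = ea a → w = eb (f a) →
      Nonempty (TM2OutputsInTime (Cmp.machine Γ₀ q) u (some w)
        ((5 * K₃ + K₂ + 4) * T (ea a).length)) := by
    rintro _ _ rfl rfl
    exact key a
  exact (key' _ _ (List.map_id _) (List.map_id _)).some

end Crest.Agent.Lib.LT
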