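import Crest.Agent.Lib.LT.Prims
import Crest.Agent.Lib.PT.Rat

/-!
The functional layer of the linear-time toolkit.

Everything is relative to a *ghost* type `A` of instances (carrying all data and all hypotheses),
a cost bound `B : A → ℕ` (up to a constant factor), the current target `cur a` of recursive calls
and the actual input `x : In B`.

* `Dom f g`: `f = O(g)` uniformly.  `Sm B n`: every power of `n` is `O(B)`.
* `CT cur x y`: one program computes `y a` from the input `x.val a` at cost `O(B a)`.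
* `CTQ cur x Q y`: the same at cost `O(B a) + Q a`, with `Q` exact (for recursions).
* `CS cur x y`: `CT` and the size of `y` is `Sm`-small; closed under all `PT` functions.
* `Closed inp y T`: a closed routine; `LT f`: `f` is linear-time.
-/

set_option autoImplicit false
set_option linter.dupNamespace false

namespace Crest.Agent.Lib.LT

open Crest.Agent.Lib.PT

/-- `f = O(g)`, uniformly. -/
def Dom {A : Type} (f g : A → ℕ) : Prop := ∃ c : ℕ, ∀ a, f a ≤ c * g a

namespace Dom

variable {A A' : Type} {f g h f' g' : A → ℕ}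

lemma of_le (H : ∀ a, f a ≤ g a) : Dom f g := ⟨1, fun a => by simpa using H a⟩

lemma refl (f : A → ℕ) : Dom f f := of_le fun _ => le_rfl

lemma trans (h₁ : Dom f g) (h₂ : Dom g h) : Dom f h := by
  obtain ⟨c, h₁⟩ := h₁
  obtain ⟨c', h₂⟩ := h₂
  exact ⟨c * c', fun a => (h₁ a).trans (by rw [mul_assoc]; exact Nat.mul_le_mul_left _ (h₂ a))⟩

lemma le_trans (h₂ : Dom g h) (H : ∀ a, f a ≤ g a) : Dom f h := (of_le H).trans h₂

lemma trans_le (h₁ : Dom f g) (H : ∀ a, g a ≤ h a) : Dom f h := h₁.trans (of_le H)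

lemma add (h₁ : Dom f g) (h₂ : Dom f' g) : Dom (fun a => f a + f' a) g := by
  obtain ⟨c, h₁⟩ := h₁
  obtain ⟨c', h₂⟩ := h₂
  exact ⟨c + c', fun a => by rw [add_mul]; exact Nat.add_le_add (h₁ a) (h₂ a)⟩

lemma mul (h₁ : Dom f g) (h₂ : Dom f' g') : Dom (fun a => f a * f' a) (fun a => g a * g' a) := by
  obtain ⟨c, h₁⟩ := h₁
  obtain ⟨c', h₂⟩ := h₂
  exact ⟨c * c', fun a => (Nat.mul_le_mul (h₁ a) (h₂ a)).trans (le_of_eq (by ring))⟩

lemma const_mul (k : ℕ) (h₁ : Dom f g) : Dom (fun a => k * f a) g := by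
  obtain ⟨c, h₁⟩ := h₁
  exact ⟨k * c, fun a => by rw [mul_assoc]; exact Nat.mul_le_mul_left _ (h₁ a)⟩

lemma mul_const (k : ℕ) (h₁ : Dom f g) : Dom (fun a => f a * k) g :=
  (h₁.const_mul k).le_trans fun _ => le_of_eq (mul_comm _ _)

lemma const (k : ℕ) (H : ∀ a, 0 < g a) : Dom (fun _ => k) g :=
  ⟨k, fun a => Nat.le_mul_of_pos_right _ (H a)⟩

lemma zero (g : A → ℕ) : Dom (fun _ => 0) g := of_le fun _ => Nat.zero_le _

lemma comap (φ : A' → A) (h₁ : Dom f g) : Dom (fun a => f (φ a)) (fun a => g (φ a)) := by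
  obtain ⟨c, h₁⟩ := h₁
  exact ⟨c, fun a => h₁ _⟩

lemma pos (h₁ : Dom f g) {a : A} (ha : 0 < f a) : 0 < g a := by
  obtain ⟨c, h₁⟩ := h₁
  by_contra h
  have := h₁ a
  rw [show g a = 0 by omega] at this
  omega

lemma sum {ι : Type} (s : Finset ι) {F : ι → A → ℕ} (H : ∀ i ∈ s, Dom (F i) g) :
    Dom (fun a => ∑ i ∈ s, F i a) g := by
  classical
  induction s using Finset.induction_on with
  | empty => simpa using zero g
  | insert i s hi ih =>
    simpa [Finset.sum_insert hi] using
      (H i (by simp)).add (ih fun j hj => H j (by simp [hj]))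

end Dom

/-- Every power of `n` is `O(B)`. -/
def Sm {A : Type} (B n : A → ℕ) : Prop := ∀ k : ℕ, Dom (fun a => n a ^ k) B

namespace Sm

variable {A A' : Type} {B B' n m : A → ℕ}

lemma dom (h : Sm B n) : Dom n B := by simpa using h 1

lemma pos (h : Sm B n) (a : A) : 0 < B a := (h 0).pos (by simp)

lemma of_le (h : Sm B m) (H : ∀ a, n a ≤ m a) : Sm B n :=
  fun k => (h k).le_trans fun a => Nat.pow_le_pow_left (H a) k

lemma mono (h : Sm B n) (H : Dom B B') : Sm B' n := fun k => (h k).trans H

lemma const (c : ℕ) (H : ∀ a, 0 < B a) : Sm B (fun _ => c) := fun _ => Dom.const _ H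

lemma mul (hn : Sm B n) (hm : Sm B m) : Sm B (fun a => n a * m a) := fun k =>
  ((hn (2 * k)).add (hm (2 * k))).le_trans fun a => by
    rw [mul_pow, mul_comm 2 k, pow_mul, pow_mul]
    nlinarith [sq_nonneg ((n a ^ k : ℤ) - (m a ^ k : ℤ)), Nat.zero_le (n a ^ k * m a ^ k)]

lemma add (hn : Sm B n) (hm : Sm B m) : Sm B (fun a => n a + m a) := fun k =>
  (((hn k).add (hm k)).const_mul (2 ^ k)).le_trans fun a => by
    rcases le_total (n a) (m a) with h | h
    · calc (n a + m a) ^ k ≤ (2 * m a) ^ k := Nat.pow_le_pow_left (by omega) k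
        _ ≤ _ := by rw [mul_pow]; exact Nat.mul_le_mul_left _ (by omega)
    · calc (n a + m a) ^ k ≤ (2 * n a) ^ k := Nat.pow_le_pow_left (by omega) k
        _ ≤ _ := by rw [mul_pow]; exact Nat.mul_le_mul_left _ (by omega)

lemma pow (hn : Sm B n) (j : ℕ) : Sm B (fun a => n a ^ j) := fun k => by
  simpa only [← pow_mul] using hn (j * k)

lemma const_mul (c : ℕ) (hn : Sm B n) : Sm B (fun a => c * n a) := (const c hn.pos).mul hn

lemma add_const (c : ℕ) (hn : Sm B n) : Sm B (fun a => n a + c) := hn.add (const c hn.pos)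

lemma of_dom (hm : Sm B m) (H : Dom n m) : Sm B n := by
  obtain ⟨c, H⟩ := H
  exact (hm.const_mul c).of_le H

lemma comap (φ : A' → A) (h : Sm B n) : Sm (fun a => B (φ a)) (fun a => n (φ a)) :=
  fun k => (h k).comap φ

/-- Logarithms are small. -/
lemma log (B : A → ℕ) (H : ∀ a, 0 < B a) : Sm B (fun a => Nat.log 2 (B a)) := fun k => by
  refine ⟨(k + 1).factorial * 2 ^ k + k ^ k, fun a => ?_⟩
  set L := Nat.log 2 (B a)
  have h1 : 2 ^ L ≤ B a := Nat.pow_log_le_self 2 (H a).ne'
  have h2 : L ^ k ≤ k ^ k * 2 ^ L := by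
    rcases Nat.eq_zero_or_pos k with rfl | hk
    · simpa using Nat.one_le_two_pow
    · have h3 : L / k + 1 ≤ 2 ^ (L / k) := Nat.lt_two_pow_self
      have h4 : L ≤ k * (L / k + 1) := by
        have := Nat.div_add_mod L k
        have := Nat.mod_lt L hk
        nlinarith
      calc L ^ k ≤ (k * 2 ^ (L / k)) ^ k :=
            Nat.pow_le_pow_left (h4.trans (Nat.mul_le_mul_left _ h3)) k
        _ = k ^ k * 2 ^ (L / k * k) := by rw [mul_pow, ← pow_mul]
        _ ≤ _ := Nat.mul_le_mul_left _
            (Nat.pow_le_pow_right (by norm_num) (Nat.div_mul_le_self _ _))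
  calc L ^ k ≤ k ^ k * B a := h2.trans (Nat.mul_le_mul_left _ h1)
    _ ≤ _ := Nat.mul_le_mul_right _ (by omega)

/-- A number bounded by a fixed power of the logarithm of a quantity below `B` is small. -/
lemma of_le_log_pow (j : ℕ) {s : A → ℕ} (hs : ∀ a, 0 < s a) (hB : Dom s B)
    (H : ∀ a, n a ≤ Nat.log 2 (s a) ^ j) : Sm B n :=
  (((log s hs).pow j).of_le H).mono hB

/-- The size of a number below `2 ^ n`, `n` small. -/
lemma sz_of_lt_two_pow {v : A → ℕ} (hn : Sm B n) (H : ∀ a, v a < 2 ^ n a) :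
    Sm B (fun a => sz (v a)) :=
  ((hn.const_mul 6).add_const 1).of_le fun a => sz_nat_le_of_lt_two_pow (H a)

/-- The size of a smaller number. -/
lemma sz_of_le {v w : A → ℕ} (hw : Sm B (fun a => sz (w a))) (H : ∀ a, v a ≤ w a) :
    Sm B (fun a => sz (v a)) := hw.of_le fun a => sz_nat_mono (H a)

/-- The size of a small number is small. -/
lemma sz_self (hn : Sm B n) : Sm B (fun a => sz (n a)) :=
  hn.sz_of_lt_two_pow fun _ => Nat.lt_two_pow_self

end Sm

/-- An input whose size is within the cost bound. -/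
structure In {A : Type} (B : A → ℕ) : Type where
  /-- the input tree -/
  val : A → D
  ok : Dom (fun a => (val a).size) B

lemma In.pos {A : Type} {B : A → ℕ} (x : In B) (a : A) : 0 < B a := x.ok.pos (D.size_pos _)

/-- A typed input. -/
def In.of {A α : Type} [Enc α] {B : A → ℕ} (u : A → α) (h : Dom (fun a => sz (u a)) B) : In B :=
  ⟨fun a => enc (u a), h⟩

/-- Change of ghost type. -/
def In.comap {A A' : Type} {B : A → ℕ} (x : In B) (φ : A' → A) : In (fun a => B (φ a)) :=
  ⟨fun a => x.val (φ a), x.ok.comap φ⟩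

/-- Change of bound. -/
def In.mono {A : Type} {B B' : A → ℕ} (x : In B) (h : Dom B B') : In B' := ⟨x.val, x.ok.trans h⟩

/-- One program computes `y a` from `x.val a` at cost `O(B a)`. -/
@[fun_prop] def CT {A β : Type} [Enc β] (cur : A → P) {B : A → ℕ} (x : In B) (y : A → β) : Prop :=
  ∃ (p : P) (C : ℕ), ∀ a, Impl (cur a) p (x.val a) (enc (y a)) (C * B a)

/-- One program computes `y a` from `x.val a` at cost `O(B a) + Q a`; the output has size
`O(B a)`. -/
def CTQ {A β : Type} [Enc β] (cur : A → P) {B : A → ℕ} (x : In B) (Q : A → ℕ) (y : A → β) :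
    Prop :=
  (∃ (p : P) (C : ℕ), ∀ a, Impl (cur a) p (x.val a) (enc (y a)) (C * B a + Q a)) ∧
    Dom (fun a => sz (y a)) B

/-- A closed routine: it maps `inp a` to `y a` at cost `O(T a)`. -/
def Closed {A α β : Type} [Enc α] [Enc β] (inp : A → α) (y : A → β) (T : A → ℕ) : Prop :=
  ∃ (p : P) (C : ℕ), ∀ cur a, Impl cur p (enc (inp a)) (enc (y a)) (C * T a)

/-- A linear-time function. -/
def LT {α β : Type} [Enc α] [Enc β] (f : α → β) : Prop := Closed (fun a => a) f sz

variable {A A' α β γ δ σ : Type} [Enc α] [Enc β] [Enc γ] [Enc δ] [Enc σ]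
variable {cur : A → P} {B : A → ℕ} {x : In B}

section basic

protected lemma CT.dom_sz {y : A → β} (h : CT cur x y) : Dom (fun a => sz (y a)) B := by
  obtain ⟨p, C, h⟩ := h
  exact (x.ok.add ((Dom.refl B).const_mul C)).le_trans fun a => (h a).size_le

protected lemma CT.of_enc {y : A → β} {z : A → γ} (h : CT cur x z) (e : ∀ a, enc (y a) = enc (z a)) :
    CT cur x y := by
  obtain ⟨p, C, h⟩ := h
  exact ⟨p, C, fun a => by rw [e]; exact h a⟩

protected lemma CT.congr {y z : A → β} (h : CT cur x z) (e : ∀ a, y a = z a) : CT cur x y :=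
  h.of_enc fun a => by rw [e]

protected lemma CT.val (cur : A → P) (x : In B) : CT cur x x.val :=
  ⟨.skip, 1, fun a m b c d => (Run.skip _ _).mono (by have := x.pos a; omega)⟩

protected lemma CT.of (cur : A → P) (u : A → α) (h : Dom (fun a => sz (u a)) B) : CT cur (In.of u h) u :=
  (CT.val cur _).of_enc fun _ => rfl

protected lemma CT.comap {y : A → β} (h : CT cur x y) (φ : A' → A) :
    CT (fun a => cur (φ a)) (x.comap φ) (fun a => y (φ a)) := by
  obtain ⟨p, C, h⟩ := h
  exact ⟨p, C, fun a => h _⟩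

protected lemma CT.mono {y : A → β} (h : CT cur x y) {B' : A → ℕ} (H : Dom B B') : CT cur (x.mono H) y := by
  obtain ⟨p, C, h⟩ := h
  obtain ⟨c, H⟩ := H
  exact ⟨p, C * c, fun a => (h a).mono (by rw [mul_assoc]; exact Nat.mul_le_mul_left _ (H a))⟩

/-- Run one more program on a computed value. -/
protected lemma CT.andThen {y : A → β} {z : A → γ} (h : CT cur x y) (q : P) {T : A → ℕ} (hT : Dom T B)
    (hq : ∀ a, Impl (cur a) q (enc (y a)) (enc (z a)) (T a)) : CT cur x z := by
  obtain ⟨p, C, h⟩ := h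
  obtain ⟨c, hT⟩ := hT
  exact ⟨p ;; q, C + c, fun a => ((h a).seq (hq a)).mono (by have := hT a; rw [add_mul]; omega)⟩

/-- If the input of `x` can be computed from `x'`, everything computable from `x` can. -/
protected lemma CT.trans {x' : In B} {y : A → β} (h : CT cur x' x.val) (hy : CT cur x y) : CT cur x' y := by
  obtain ⟨q, C, hy⟩ := hy
  exact h.andThen q ((Dom.refl B).const_mul C) hy

/-- Use a result stated for another ghost type and bound. -/
protected lemma CT.via {cur' : A' → P} {B' : A' → ℕ} {x' : In B'} {y : A' → β} (hy : CT cur' x' y)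
    (φ : A → A') (hc : ∀ a, cur' (φ a) = cur a) (h : CT cur x (fun a => x'.val (φ a)))
    (hB : Dom (fun a => B' (φ a)) B) : CT cur x (fun a => y (φ a)) := by
  obtain ⟨q, C, hy⟩ := hy
  exact h.andThen q (hB.const_mul C) fun a => hc a ▸ hy (φ a)

/-- Call a closed routine. -/
protected lemma Closed.ct {inp : A' → α} {y : A' → β} {T : A' → ℕ} (H : Closed inp y T) (φ : A → A')
    (h : CT cur x (fun a => inp (φ a))) (hT : Dom (fun a => T (φ a)) B) :
    CT cur x (fun a => y (φ a)) := by
  obtain ⟨q, C, H⟩ := H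
  exact h.andThen q (hT.const_mul C) fun a => H _ _

/-- Build a closed routine. -/
protected lemma Closed.intro {inp : A → α} {y : A → β} {T : A → ℕ} (hT : Dom (fun a => sz (inp a)) T)
    (h : ∀ x : In (fun q : P × A => T q.2), CT Prod.fst x (fun q => inp q.2) →
      CT Prod.fst x (fun q => y q.2)) : Closed inp y T := by
  obtain ⟨p, C, h⟩ := h (In.of (fun q => inp q.2) (hT.comap Prod.snd)) (CT.of _ _ _)
  exact ⟨p, C, fun cur a => h (cur, a)⟩

protected lemma Closed.mono {inp : A → α} {y : A → β} {T T' : A → ℕ} (H : Closed inp y T) (hT : Dom T T') :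
    Closed inp y T' := by
  obtain ⟨q, C, H⟩ := H
  obtain ⟨c, hT⟩ := hT
  exact ⟨q, C * c, fun cur a =>
    (H cur a).mono (by rw [mul_assoc]; exact Nat.mul_le_mul_left _ (hT a))⟩

protected lemma LT.ct {f : α → β} (H : LT f) {u : A → α} (h : CT cur x u) : CT cur x (fun a => f (u a)) :=
  Closed.ct H u h h.dom_sz

protected lemma LT.intro {f : α → β}
    (h : ∀ x : In (fun q : P × α => sz q.2), CT Prod.fst x (fun q => q.2) →
      CT Prod.fst x (fun q => f q.2)) : LT f := Closed.intro (Dom.refl _) h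

protected lemma LT.dom_sz {f : α → β} (H : LT f) : Dom (fun a => sz (f a)) sz := by
  obtain ⟨q, C, H⟩ := H
  exact ⟨C + 1, fun a => by have := (H .skip a).size_le; unfold sz at *; nlinarith⟩

/-- Programs of the tree language. -/
protected lemma CT.timeF {f : α → β} {T : α → ℕ} (hf : TimeF f T) {u : A → α} (h : CT cur x u)
    (hT : Dom (fun a => T (u a)) B) : CT cur x (fun a => f (u a)) := by
  obtain ⟨p, hp⟩ := hf
  exact h.andThen (tr p) (hT.const_mul (kost p)) fun a => impl_tr _ (hp (u a))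

/-- Polynomial-time functions of small values. -/
protected lemma CT.pt {f : α → β} (hf : PT f) {u : A → α} (h : CT cur x u) (hs : Sm B (fun a => sz (u a))) :
    CT cur x (fun a => f (u a)) := by
  obtain ⟨c, k, hf⟩ := hf.exists_bound
  exact h.timeF hf ((hs k).const_mul c)

@[fun_prop] protected lemma CT.const (b : β) : CT cur x (fun _ => b) :=
  (CT.val cur x).timeF (TimeF.const (α := D) b) (x.ok.const_mul (sz b))

@[fun_prop] protected lemma CT.pair {y : A → β} {z : A → γ} (h₁ : CT cur x y) (h₂ : CT cur x z) :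
    CT cur x (fun a => (y a, z a)) := by
  obtain ⟨c₁, s₁⟩ := h₁.dom_sz
  obtain ⟨c₀, s₀⟩ := x.ok
  obtain ⟨p, C, h₁⟩ := h₁
  obtain ⟨q, C', h₂⟩ := h₂
  refine ⟨.dup .m ;; p ;; .mv .m .a ;; q ;; .mv .a .m ;; .cons .m, c₀ + C + C' + 2 * c₁ + 1,
    fun a ms as bs cs => ?_⟩
  refine Run.mono ((Run.dup _ (k := .m) rfl).seq ((h₁ a _ _ _ _).seq
      ((Run.mv _ (j := .m) (k := .a) rfl).seq ((h₂ a _ _ _ _).seq
      ((Run.mv _ (j := .a) (k := .m) rfl).seq (Run.cons _ (k := .m) rfl)))))) ?_
  have := s₁ a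
  have := s₀ a
  have := x.pos a
  unfold sz at *
  nlinarith

@[fun_prop] protected lemma CT.enc {y : A → β} (h : CT cur x y) : CT cur x (fun a => enc (y a)) :=
  h.of_enc fun _ => rfl

@[fun_prop] protected lemma CT.car {y : A → D} (h : CT cur x y) : CT cur x (fun a => (y a).car) :=
  h.timeF (f := D.car) ⟨.car, fun a => (Eval.car a).evalLe⟩ h.dom_sz

@[fun_prop] protected lemma CT.cdr {y : A → D} (h : CT cur x y) : CT cur x (fun a => (y a).cdr) :=
  h.timeF (f := D.cdr) ⟨.cdr, fun a => (Eval.cdr a).evalLe⟩ h.dom_sz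

@[fun_prop] protected lemma CT.dcons {y z : A → D} (h₁ : CT cur x y) (h₂ : CT cur x z) :
    CT cur x (fun a => D.cons (y a) (z a)) := (h₁.pair h₂).of_enc fun _ => rfl

@[fun_prop] protected lemma CT.fst {y : A → β × γ} (h : CT cur x y) : CT cur x (fun a => (y a).1) :=
  h.enc.car.of_enc fun _ => rfl

@[fun_prop] protected lemma CT.snd {y : A → β × γ} (h : CT cur x y) : CT cur x (fun a => (y a).2) :=
  h.enc.cdr.of_enc fun _ => rfl

@[fun_prop] protected lemma CT.cons {y : A → β} {l : A → List β} (h₁ : CT cur x y) (h₂ : CT cur x l) :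
    CT cur x (fun a => y a :: l a) := (h₁.pair h₂).of_enc fun _ => rfl

@[fun_prop] protected lemma CT.tail {l : A → List β} (h : CT cur x l) : CT cur x (fun a => (l a).tail) :=
  h.enc.cdr.of_enc fun a => by cases l a <;> rfl

/-- The head of a list known to be nonempty. -/
protected lemma CT.head_of_cons {y : A → β} {l : A → List β} (h : CT cur x (fun a => y a :: l a)) :
    CT cur x y := h.enc.car.of_enc fun _ => rfl

@[fun_prop] protected lemma CT.some {y : A → β} (h : CT cur x y) : CT cur x (fun a => some (y a)) :=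
  ((CT.const D.nil).dcons h.enc).of_enc fun _ => rfl

/-- The content of an option known to be `some`. -/
protected lemma CT.of_some {y : A → β} (h : CT cur x (fun a => Option.some (y a))) : CT cur x y :=
  h.enc.cdr.of_enc fun _ => rfl

end basic

section oracle

variable {Q Q' : A → ℕ}

protected lemma CT.toQ {y : A → β} (h : CT cur x y) (Q : A → ℕ) : CTQ cur x Q y := by
  have h0 := h.dom_sz
  obtain ⟨p, C, h⟩ := h
  exact ⟨⟨p, C, fun a => (h a).mono (Nat.le_add_right _ _)⟩, h0⟩

protected lemma CTQ.toCT {y : A → β} (h : CTQ cur x Q y) (hQ : Dom Q B) : CT cur x y := by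
  obtain ⟨⟨p, C, h⟩, -⟩ := h
  obtain ⟨c, hQ⟩ := hQ
  exact ⟨p, C + c, fun a => (h a).mono (by have := hQ a; rw [add_mul]; omega)⟩

protected lemma CTQ.mono {y : A → β} (h : CTQ cur x Q y) (hQ : ∀ a, Q a ≤ Q' a) : CTQ cur x Q' y := by
  obtain ⟨⟨p, C, h⟩, h0⟩ := h
  exact ⟨⟨p, C, fun a => (h a).mono (Nat.add_le_add_left (hQ a) _)⟩, h0⟩

/-- Absorb an `O(B)` part of the oracle cost. -/
protected lemma CTQ.mono' {y : A → β} (h : CTQ cur x Q y) {E : A → ℕ} (hE : Dom E B)
    (hQ : ∀ a, Q a ≤ E a + Q' a) : CTQ cur x Q' y := by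
  obtain ⟨⟨p, C, h⟩, h0⟩ := h
  obtain ⟨c, hE⟩ := hE
  exact ⟨⟨p, C + c, fun a => (h a).mono (by
    have := hQ a; have := hE a; rw [add_mul]; omega)⟩, h0⟩

protected lemma CTQ.of_enc {y : A → β} {z : A → γ} (h : CTQ cur x Q z) (e : ∀ a, enc (y a) = enc (z a)) :
    CTQ cur x Q y := by
  obtain ⟨⟨p, C, h⟩, h0⟩ := h
  exact ⟨⟨p, C, fun a => by rw [e]; exact h a⟩, by simpa only [sz, e] using h0⟩

protected lemma CTQ.congr {y z : A → β} (h : CTQ cur x Q z) (e : ∀ a, y a = z a) : CTQ cur x Q y :=
  h.of_enc fun a => by rw [e]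

protected lemma CTQ.comap {y : A → β} (h : CTQ cur x Q y) (φ : A' → A) :
    CTQ (fun a => cur (φ a)) (x.comap φ) (fun a => Q (φ a)) (fun a => y (φ a)) := by
  obtain ⟨⟨p, C, h⟩, h0⟩ := h
  exact ⟨⟨p, C, fun a => h _⟩, h0.comap φ⟩

/-- `let`: after computing `y`, continue from an input that gives both `y` and the old input
(use `CT.trans` to transport old facts). -/
protected lemma CTQ.bind {y : A → β} {z : A → γ} (h : CTQ cur x Q y)
    (k : ∀ x' : In B, CT cur x' x.val → CT cur x' y → CTQ cur x' Q' z) :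
    CTQ cur x (fun a => Q a + Q' a) z := by
  obtain ⟨⟨p, C, h⟩, h0⟩ := h
  have hd : Dom (fun a => sz (y a, x.val a)) B := (h0.add x.ok).add (Dom.const 1 x.pos)
  have hx := CT.of cur _ hd
  obtain ⟨⟨q, C', hq⟩, h1⟩ := k _ hx.snd hx.fst
  obtain ⟨c₀, s₀⟩ := x.ok
  refine ⟨⟨.dup .m ;; p ;; .cons .m ;; q, c₀ + C + C' + 1, fun a ms as bs cs => ?_⟩, h1⟩
  refine Run.mono ((Run.dup _ (k := .m) rfl).seq ((h a _ _ _ _).seq
    ((Run.cons _ (k := .m) rfl).seq (hq a _ _ _ _)))) ?_
  have := s₀ a
  have := x.pos a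
  nlinarith

/-- Post-processing without oracle cost. -/
protected lemma CTQ.bind₀ {y : A → β} {z : A → γ} (h : CTQ cur x Q y)
    (k : ∀ x' : In B, CT cur x' x.val → CT cur x' y → CT cur x' z) : CTQ cur x Q z :=
  (h.bind (Q' := fun _ => 0) fun x' h₁ h₂ => (k x' h₁ h₂).toQ _).mono fun _ => le_rfl

/-- Transport to an input from which the old input is computable. -/
protected lemma CTQ.trans {x' : In B} {y : A → β} (h : CT cur x' x.val) (hy : CTQ cur x Q y) :
    CTQ cur x' Q y := by
  obtain ⟨p, C, h⟩ := h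
  obtain ⟨⟨q, C', hy⟩, h0⟩ := hy
  exact ⟨⟨p ;; q, C + C', fun a => ((h a).seq (hy a)).mono (by rw [add_mul]; omega)⟩, h0⟩

/-- A recursive call with exact cost. -/
protected lemma CTQ.call {u : A → α} {v : A → β} (hu : CT cur x u)
    (h : ∀ a, Impl (cur a) (cur a) (enc (u a)) (enc (v a)) (Q a))
    (hv : Dom (fun a => sz (v a)) B) : CTQ cur x Q v := by
  obtain ⟨p, C, hu⟩ := hu
  exact ⟨⟨p ;; .call, C + 1, fun a => ((hu a).seq (h a).call).mono (by
    have := x.pos a; nlinarith)⟩, hv⟩

/-- A recursive call whose cost is within the bound. -/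
protected lemma CT.call {u : A → α} {v : A → β} (hu : CT cur x u)
    (h : ∀ a, Impl (cur a) (cur a) (enc (u a)) (enc (v a)) (Q a)) (hQ : Dom Q B) : CT cur x v :=
  hu.andThen .call (hQ.add (Dom.const 1 x.pos)) fun a => (h a).call

/-- Case distinction; each branch may use the outcome of the test. -/
protected lemma CTQ.dite {c : A → Bool} {y : A → β} (hc : CT cur x c)
    (h₁ : CTQ (fun a : {a // c a = true} => cur a.1) (x.comap Subtype.val) (fun a => Q a.1)
      (fun a => y a.1))
    (h₂ : CTQ (fun a : {a // c a = false} => cur a.1) (x.comap Subtype.val) (fun a => Q a.1)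
      (fun a => y a.1)) : CTQ cur x Q y := by
  obtain ⟨r, C₀, hc⟩ := hc
  obtain ⟨⟨p, C₁, h₁⟩, d₁, s₁⟩ := h₁
  obtain ⟨⟨q, C₂, h₂⟩, d₂, s₂⟩ := h₂
  obtain ⟨c₀, s₀⟩ := x.ok
  refine ⟨⟨.dup .m ;; r ;; pFlag ;; .case .m q (.drop .m ;; .drop .m ;; p),
    c₀ + C₀ + C₁ + C₂ + 14, fun a ms as bs cs => ?_⟩, d₁ + d₂, fun a => ?_⟩
  · have := s₀ a
    have := x.pos a
    have e := hc a
    cases hca : c a
    · rw [hca] at e
      refine Run.mono ((Run.dup _ (k := .m) rfl).seq ((e _ _ _ _).seq
        ((impl_flag _ false _ _ _ _).seq (Run.caseNil (k := .m) rfl (h₂ ⟨a, hca⟩ _ _ _ _))))) ?_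
      nlinarith [Nat.zero_le (C₁ * B a)]
    · rw [hca] at e
      refine Run.mono ((Run.dup _ (k := .m) rfl).seq ((e _ _ _ _).seq
        ((impl_flag _ true _ _ _ _).seq (Run.caseCons (k := .m) rfl
        ((Run.drop _ (k := .m) rfl).seq ((Run.drop _ (k := .m) rfl).seq
        (h₁ ⟨a, hca⟩ _ _ _ _))))))) ?_
      simp only [D.size_nil]
      nlinarith [Nat.zero_le (C₂ * B a)]
  · cases hca : c a
    · have := s₂ ⟨a, hca⟩
      simp only at this ⊢
      nlinarith [Nat.zero_le (d₁ * B a)]
    · have := s₁ ⟨a, hca⟩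
      simp only at this ⊢
      nlinarith [Nat.zero_le (d₂ * B a)]

/-- Case distinction; each branch may use the outcome of the test. -/
protected lemma CT.dite {c : A → Bool} {y : A → β} (hc : CT cur x c)
    (h₁ : CT (fun a : {a // c a = true} => cur a.1) (x.comap Subtype.val) (fun a => y a.1))
    (h₂ : CT (fun a : {a // c a = false} => cur a.1) (x.comap Subtype.val) (fun a => y a.1)) :
    CT cur x y :=
  (CTQ.dite (Q := fun _ => 0) hc (h₁.toQ _) (h₂.toQ _)).toCT (Dom.zero B)

/-- Case distinction on a decidable proposition. -/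
protected lemma CTQ.byCases {R : A → Prop} [DecidablePred R] {y : A → β}
    (hc : CT cur x (fun a => decide (R a)))
    (h₁ : CTQ (fun a : {a // R a} => cur a.1) (x.comap Subtype.val) (fun a => Q a.1)
      (fun a => y a.1))
    (h₂ : CTQ (fun a : {a // ¬ R a} => cur a.1) (x.comap Subtype.val) (fun a => Q a.1)
      (fun a => y a.1)) : CTQ cur x Q y :=
  CTQ.dite hc (h₁.comap fun a : {a // decide (R a) = true} => ⟨a.1, by simpa using a.2⟩)
    (h₂.comap fun a : {a // decide (R a) = false} => ⟨a.1, by simpa using a.2⟩)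

/-- Case distinction on a decidable proposition. -/
protected lemma CT.byCases {R : A → Prop} [DecidablePred R] {y : A → β}
    (hc : CT cur x (fun a => decide (R a)))
    (h₁ : CT (fun a : {a // R a} => cur a.1) (x.comap Subtype.val) (fun a => y a.1))
    (h₂ : CT (fun a : {a // ¬ R a} => cur a.1) (x.comap Subtype.val) (fun a => y a.1)) :
    CT cur x y :=
  (CTQ.byCases (Q := fun _ => 0) hc (h₁.toQ _) (h₂.toQ _)).toCT (Dom.zero B)

@[fun_prop] protected lemma CT.cond {c : A → Bool} {y z : A → β} (hc : CT cur x c) (h₁ : CT cur x y)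
    (h₂ : CT cur x z) : CT cur x (fun a => cond (c a) (y a) (z a)) :=
  hc.dite ((h₁.comap _).congr fun a => by rw [a.2]; rfl)
    ((h₂.comap _).congr fun a => by rw [a.2]; rfl)

@[fun_prop] protected lemma CT.ite {R : A → Prop} [∀ a, Decidable (R a)] {y z : A → β}
    (hc : CT cur x (fun a => decide (R a))) (h₁ : CT cur x y) (h₂ : CT cur x z) :
    CT cur x (fun a => if R a then y a else z a) :=
  (hc.cond h₁ h₂).congr fun a => by by_cases h : R a <;> simp [h]

/-- Separate a part of the bound as exact oracle cost. -/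
protected lemma CT.split {B₀ B₁ : A → ℕ} {x : In (fun a => B₀ a + B₁ a)} {y : A → β} (h : CT cur x y)
    (x₀ : In B₀) (e : ∀ a, x₀.val a = x.val a) (hy : Dom (fun a => sz (y a)) B₀) :
    ∃ C : ℕ, CTQ cur x₀ (fun a => C * B₁ a) y := by
  obtain ⟨p, C, h⟩ := h
  exact ⟨C, ⟨p, C, fun a => by rw [e, ← mul_add]; exact h a⟩, hy⟩

/-- An instance of a recursion: `cur` already works, with cost `c * T`, on smaller instances. -/
structure Rec (inp : A → α) (y : A → β) (μ T : A → ℕ) : Type where
  /-- the instance -/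
  a : A
  /-- the target of recursive calls -/
  cur : P
  /-- the constant of the cost bound -/
  c : ℕ
  ok : ∀ a', μ a' < μ a → Impl cur cur (enc (inp a')) (enc (y a')) (c * T a')

/-- Recursion. -/
protected theorem Closed.fix {inp : A → α} {y : A → β} (μ T B : A → ℕ) (Q : ℕ → A → ℕ)
    (hin : Dom (fun a => sz (inp a)) B)
    (h : ∀ x : In (fun r : Rec inp y μ T => B r.a), CT Rec.cur x (fun r => inp r.a) →
      CTQ Rec.cur x (fun r => Q r.c r.a) (fun r => y r.a))
    (hc : ∀ C : ℕ, ∃ c : ℕ, ∀ a, C * B a + Q c a ≤ c * T a) : Closed inp y T := by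
  obtain ⟨⟨p, C, h⟩, -⟩ := h (In.of (fun r => inp r.a) (hin.comap Rec.a)) (CT.of _ _ _)
  obtain ⟨c, hc⟩ := hc C
  have key : ∀ n a, μ a = n → Impl p p (enc (inp a)) (enc (y a)) (c * T a) := by
    intro n
    induction n using Nat.strong_induction_on with
    | _ n ih =>
      intro a ha
      exact (h ⟨a, p, c, fun a' ha' => ih _ (ha ▸ ha') a' rfl⟩).mono (hc a)
  refine ⟨.fix p, c + 1, fun cur a => ((key _ a rfl).fix).mono ?_⟩
  have := (key _ a rfl).pos
  have : 0 < T a := Nat.pos_of_mul_pos_left this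
  nlinarith

end oracle

section small

/-- Computable and small. -/
def CS (cur : A → P) {B : A → ℕ} (x : In B) (y : A → β) : Prop :=
  CT cur x y ∧ Sm B (fun a => sz (y a))

protected lemma CS.ct {y : A → β} (h : CS cur x y) : CT cur x y := h.1

protected lemma CS.sm {y : A → β} (h : CS cur x y) : Sm B (fun a => sz (y a)) := h.2

protected lemma CS.congr {y z : A → β} (h : CS cur x z) (e : ∀ a, y a = z a) : CS cur x y := by
  rw [show y = z from funext e]; exact h

protected lemma CS.const (b : β) : CS cur x (fun _ => b) := ⟨CT.const b, Sm.const _ x.pos⟩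

protected lemma CS.pair {y : A → β} {z : A → γ} (h₁ : CS cur x y) (h₂ : CS cur x z) :
    CS cur x (fun a => (y a, z a)) :=
  ⟨h₁.1.pair h₂.1, by simpa using (h₁.2.add h₂.2).add_const 1⟩

/-- Polynomial-time functions of small values. -/
protected lemma CS.pt {u : A → α} (h : CS cur x u) (f : α → β) (hf : PT f) : CS cur x (fun a => f (u a)) := by
  obtain ⟨c, k, hs⟩ := PB.sz hf
  exact ⟨h.1.pt hf h.2, ((h.2.pow k).const_mul c).of_le fun a => hs _⟩

protected lemma CS.pt₂ {u : A → α} {v : A → β} (hu : CS cur x u) (hv : CS cur x v) (f : α → β → γ)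
    (hf : PT (fun q : α × β => f q.1 q.2)) : CS cur x (fun a => f (u a) (v a)) :=
  (hu.pair hv).pt _ hf

protected lemma CS.pt₃ {u : A → α} {v : A → β} {w : A → γ} (hu : CS cur x u) (hv : CS cur x v)
    (hw : CS cur x w) (f : α → β → γ → δ) (hf : PT (fun q : α × β × γ => f q.1 q.2.1 q.2.2)) :
    CS cur x (fun a => f (u a) (v a) (w a)) :=
  (hu.pair (hv.pair hw)).pt _ hf

protected lemma CS.fst {y : A → β × γ} (h : CS cur x y) : CS cur x (fun a => (y a).1) :=
  h.pt Prod.fst (by fun_prop)

protected lemma CS.snd {y : A → β × γ} (h : CS cur x y) : CS cur x (fun a => (y a).2) :=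
  h.pt Prod.snd (by fun_prop)

protected lemma CS.comap {y : A → β} (h : CS cur x y) (φ : A' → A) :
    CS (fun a => cur (φ a)) (x.comap φ) (fun a => y (φ a)) := ⟨h.1.comap φ, h.2.comap φ⟩

protected lemma CS.trans {x' : In B} {y : A → β} (h : CT cur x' x.val) (hy : CS cur x y) : CS cur x' y :=
  ⟨h.trans hy.1, hy.2⟩

end small

section loops

/-- The list `[f 0, …, f (n-1)]`. -/
def arr {α : Type} (n : ℕ) (f : ℕ → α) : List α := (List.range n).map f

/-- An instance together with an index. -/
structure Ix {A : Type} (N : A → ℕ) : Type where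
  /-- the instance -/
  a : A
  /-- the index -/
  i : ℕ
  lt : i < N a

@[fun_prop] protected lemma CT.reverse {l : A → List β} (h : CT cur x l) :
    CT cur x (fun a => (l a).reverse) :=
  h.andThen pRev (h.dom_sz.const_mul 4) fun a => by
    have := impl_rev (cur a) ((l a).map enc)
    rwa [← List.map_reverse] at this

@[fun_prop] protected lemma CT.zip {l : A → List β} {m : A → List γ} (h₁ : CT cur x l) (h₂ : CT cur x m) :
    CT cur x (fun a => (l a).zip (m a)) :=
  (h₁.pair h₂).andThen pZip ((h₁.pair h₂).dom_sz.const_mul 10) fun a => by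
    have := impl_zip (cur a) ((l a).map enc) ((m a).map enc)
    have e : List.zipWith D.cons ((l a).map enc) ((m a).map enc) =
        ((l a).zip (m a)).map enc := by
      rw [List.zipWith_map, List.zip, List.map_zipWith]; rfl
    rwa [e] at this

@[fun_prop] protected lemma CT.flatten {l : A → List (List β)} (h : CT cur x l) :
    CT cur x (fun a => (l a).flatten) :=
  h.andThen pFlat (h.dom_sz.const_mul 7) fun a => by
    have := impl_flat (cur a) ((l a).map (List.map enc))
    rw [← List.map_flatten, List.map_map] at this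
    exact this

lemma splitBy_map {α β : Type} (f : α → β) (ns : List ℕ) : ∀ l : List α,
    splitBy ns (l.map f) = ((splitBy ns l).1.map (List.map f), (splitBy ns l).2.map f) := by
  induction ns with
  | nil => intro l; rfl
  | cons n ns ih => intro l; simp [splitBy, ← List.map_drop, ih]

/-- Cut `l` into consecutive pieces whose lengths are those of the lists in `U`. -/
protected lemma CT.splitBy {U : A → List (List γ)} {l : A → List β} (h₁ : CT cur x U) (h₂ : CT cur x l) :
    CT cur x (fun a => splitBy ((U a).map List.length) (l a)) :=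
  (h₁.pair h₂).andThen pSplit ((h₁.pair h₂).dom_sz.const_mul 14) fun a => by
    have := impl_split (cur a) ((U a).map (List.map enc)) ((l a).map enc)
    have e : ((U a).map (List.map (enc : γ → D))).map List.length = (U a).map List.length := by
      simp [Function.comp_def]
    rw [e, splitBy_map, List.map_map, List.map_map] at this
    exact this

/-- Serialisation. -/
protected lemma CT.ser {y : A → β} (h : CT cur x y) : CT cur x (fun a => (enc (y a)).ser) :=
  h.andThen pSer (h.dom_sz.const_mul 40) fun a => impl_ser (cur a) _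

/-- Parsing. -/
protected lemma CT.parse {y : A → β} (h : CT cur x (fun a => (enc (y a)).ser)) : CT cur x y :=
  h.reverse.andThen pParse ((h.dom_sz.const_mul 16).le_trans fun a => by
    have := length_le_sz (enc (y a)).ser
    rw [D.length_ser] at this
    exact Nat.mul_le_mul_left _ this) fun a => impl_parse (cur a) _

lemma sum_Ix_dom {N : A → ℕ} {f g : A → ℕ → ℕ}
    (h : Dom (fun q : Ix N => f q.a q.i) (fun q => g q.a q.i)) :
    Dom (fun a => ∑ i ∈ Finset.range (N a), f a i) (fun a => ∑ i ∈ Finset.range (N a), g a i) := by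
  obtain ⟨c, h⟩ := h
  refine ⟨c, fun a => ?_⟩
  rw [Finset.mul_sum]
  exact Finset.sum_le_sum fun i hi => h ⟨a, i, Finset.mem_range.1 hi⟩

/-- Scan over an array with a state. -/
protected theorem CT.scan {N : A → ℕ} {el : A → ℕ → α} {st : A → ℕ → σ} {out : A → ℕ → β}
    (hl : CT cur x (fun a => arr (N a) (el a))) (h0 : CT cur x (fun a => st a 0))
    (B' : A → ℕ → ℕ)
    (hsz : Dom (fun q : Ix N => sz (el q.a q.i) + sz (st q.a q.i)) (fun q => B' q.a q.i))
    (body : ∀ x' : In (fun q : Ix N => B' q.a q.i),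
      CT (fun q => cur q.a) x' (fun q => el q.a q.i) →
      CT (fun q => cur q.a) x' (fun q => st q.a q.i) →
      CT (fun q => cur q.a) x' (fun q => (out q.a q.i, st q.a (q.i + 1))))
    (hB : Dom (fun a => ∑ i ∈ Finset.range (N a), B' a i) B) :
    CT cur x (fun a => (arr (N a) (out a), st a (N a))) := by
  have hd : Dom (fun q : Ix N => sz (el q.a q.i, st q.a q.i)) (fun q => B' q.a q.i) := by
    simpa using hsz.add (Dom.const 1 fun q => hsz.pos (by have := sz_pos (el q.a q.i); omega))
  have hx := CT.of (fun q : Ix N => cur q.a) _ hd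
  have hb := body _ hx.fst hx.snd
  have ho := hb.fst.dom_sz
  have hp := (In.of _ hd).pos
  obtain ⟨p, C, hb⟩ := hb
  refine (hl.pair h0).andThen (pScan p) (T := fun a => 2 * sz (arr (N a) (el a)) + 7 +
    ∑ i ∈ Finset.range (N a), (C * B' a i + 4 * sz (out a i) + 7)) ?_ fun a => ?_
  · refine ((hl.dom_sz.const_mul 2).add (Dom.const 7 x.pos)).add (Dom.trans ?_ hB)
    exact sum_Ix_dom (f := fun a i => C * B' a i + 4 * sz (out a i) + 7)
      ((((Dom.refl _).const_mul C).add (ho.const_mul 4)).add (Dom.const 7 hp))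
  · have := impl_scan (cur a) p ((arr (N a) (el a)).map enc) (fun i => enc (st a i))
      (fun i => enc (out a i)) (fun i => C * B' a i) (fun i hi => by
        have hi' : i < N a := by simpa [arr] using hi
        have := hb ⟨a, i, hi'⟩
        simp only [arr, List.getElem_map, List.getElem_range]
        exact this)
    have e : ((arr (N a) (el a)).map enc).length = N a := by simp [arr]
    rw [e] at this
    have e2 : enc (arr (N a) (out a)) =
        D.ofList ((List.range (N a)).map fun i => enc (out a i)) := by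
      simp only [arr, enc_list, List.map_map]; rfl
    rw [← e2] at this
    exact this

/-- Repeat a body returning a flag and the next state; it runs `N + 1` times. -/
protected theorem CT.iter {N : A → ℕ} {st : A → ℕ → σ} (h0 : CT cur x (fun a => st a 0)) (B' : A → ℕ → ℕ)
    (hsz : Dom (fun q : Ix (fun a => N a + 1) => sz (st q.a q.i)) (fun q => B' q.a q.i))
    (body : ∀ x' : In (fun q : Ix (fun a => N a + 1) => B' q.a q.i),
      CT (fun q => cur q.a) x' (fun q => st q.a q.i) →
      CT (fun q => cur q.a) x' (fun q => (decide (q.i < N q.a), st q.a (q.i + 1))))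
    (hB : Dom (fun a => ∑ i ∈ Finset.range (N a + 1), B' a i) B) :
    CT cur x (fun a => st a (N a + 1)) := by
  have hp := (In.of _ hsz).pos
  obtain ⟨p, C, hb⟩ := body _ (CT.of _ _ hsz)
  refine h0.andThen (pIter p) (T := fun a =>
    ∑ i ∈ Finset.range (N a + 1), (C * B' a i + 16) + 4) ?_ fun a => ?_
  · refine Dom.add (Dom.trans ?_ hB) (Dom.const 4 x.pos)
    exact sum_Ix_dom (N := fun a => N a + 1) (f := fun a i => C * B' a i + 16)
      (((Dom.refl _).const_mul C).add (Dom.const 16 hp))
  · exact impl_iter (cur a) p (N a) (fun i => enc (st a i)) (fun i => C * B' a i)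
      fun i hi => hb ⟨a, i, Nat.lt_succ_of_le hi⟩

end loops

end Crest.Agent.Lib.LT
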