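import Crest.Agent.Lib.PT.Lang

/-!
A stack language on binary trees with a big-step cost semantics: four stacks of trees,
constant-cost `nil`/`cons`/case analysis on top of a stack, moves/copies/drops at the cost of the
size of the value, loops and recursion (`fix`/`call`).  It is compiled to `Turing.FinTM2` with a
universal constant overhead (`Crest.Agent.Lib.LT.Compile`), so it supports *linear-time* list
programming.
-/

set_option autoImplicit false

namespace Crest.Agent.Lib.LT

open Crest.Agent.Lib.PT (D)

/-- The four value stacks. -/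
inductive Stk : Type
  | m | a | b | c
  deriving DecidableEq

/-- The contents of the four stacks. -/
structure St : Type where
  m : List D
  a : List D
  b : List D
  c : List D

/-- Read a stack. -/
def St.get (S : St) : Stk → List D
  | .m => S.m
  | .a => S.a
  | .b => S.b
  | .c => S.c

/-- Overwrite a stack. -/
def St.set (S : St) : Stk → List D → St
  | .m, l => ⟨l, S.a, S.b, S.c⟩
  | .a, l => ⟨S.m, l, S.b, S.c⟩
  | .b, l => ⟨S.m, S.a, l, S.c⟩
  | .c, l => ⟨S.m, S.a, S.b, l⟩

@[simp] lemma St.get_set_self (S : St) (k : Stk) (l : List D) : (S.set k l).get k = l := by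
  cases k <;> rfl

lemma St.get_set_ne (S : St) {j k : Stk} (h : j ≠ k) (l : List D) :
    (S.set k l).get j = S.get j := by
  cases k <;> cases j <;> first | rfl | exact absurd rfl h

/-- Programs. -/
inductive P : Type
  | skip : P
  /-- push `nil` -/
  | nil : Stk → P
  /-- replace the two top values `x`, `y` by `cons x y` -/
  | cons : Stk → P
  /-- move the top value of the first stack onto the second one -/
  | mv : Stk → Stk → P
  | dup : Stk → P
  | drop : Stk → P
  | seq : P → P → P
  /-- top `nil`: pop it and run the first program; top `cons x y`: replace it by `x`, `y` and run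
  the second program -/
  | case : Stk → P → P → P
  /-- while the top is `cons x y`, replace it by `x`, `y` and run the body; pop the final `nil` -/
  | loop : Stk → P → P
  /-- run the body of the innermost enclosing `fix` -/
  | call : P
  | fix : P → P

/-- `Ev cur p S S' n`: with `cur` as the target of `call`, the program `p` transforms `S` into
`S'` at cost `n`. -/
inductive Ev : P → P → St → St → ℕ → Prop
  | skip (cur : P) (S : St) : Ev cur .skip S S 1
  | nil (cur : P) (k : Stk) (S : St) : Ev cur (.nil k) S (S.set k (.nil :: S.get k)) 1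
  | cons (cur : P) {k : Stk} {S : St} {x y : D} {r : List D} (h : S.get k = x :: y :: r) :
      Ev cur (.cons k) S (S.set k (.cons x y :: r)) 1
  | mv (cur : P) {j k : Stk} {S : St} {x : D} {r : List D} (h : S.get j = x :: r) :
      Ev cur (.mv j k) S ((S.set j r).set k (x :: (S.set j r).get k)) x.size
  | dup (cur : P) {k : Stk} {S : St} {x : D} {r : List D} (h : S.get k = x :: r) :
      Ev cur (.dup k) S (S.set k (x :: x :: r)) x.size
  | drop (cur : P) {k : Stk} {S : St} {x : D} {r : List D} (h : S.get k = x :: r) :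
      Ev cur (.drop k) S (S.set k r) x.size
  | seq {cur p q : P} {S S₁ S₂ : St} {m n : ℕ} :
      Ev cur p S S₁ m → Ev cur q S₁ S₂ n → Ev cur (.seq p q) S S₂ (m + n)
  | caseNil {cur p q : P} {k : Stk} {S S' : St} {r : List D} {n : ℕ} (h : S.get k = .nil :: r) :
      Ev cur p (S.set k r) S' n → Ev cur (.case k p q) S S' (n + 1)
  | caseCons {cur p q : P} {k : Stk} {S S' : St} {x y : D} {r : List D} {n : ℕ}
      (h : S.get k = .cons x y :: r) :
      Ev cur q (S.set k (x :: y :: r)) S' n → Ev cur (.case k p q) S S' (n + 1)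
  | loopNil (cur : P) {p : P} {k : Stk} {S : St} {r : List D} (h : S.get k = .nil :: r) :
      Ev cur (.loop k p) S (S.set k r) 1
  | loopCons {cur p : P} {k : Stk} {S S₁ S₂ : St} {x y : D} {r : List D} {m n : ℕ}
      (h : S.get k = .cons x y :: r) :
      Ev cur p (S.set k (x :: y :: r)) S₁ m → Ev cur (.loop k p) S₁ S₂ n →
      Ev cur (.loop k p) S S₂ (m + n + 1)
  | call {cur : P} {S S' : St} {n : ℕ} : Ev cur cur S S' n → Ev cur .call S S' (n + 1)
  | fix {cur p : P} {S S' : St} {n : ℕ} : Ev p p S S' n → Ev cur (.fix p) S S' (n + 1)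

/-- Total size of a list of trees. -/
def lsz (l : List D) : ℕ := (l.map D.size).sum

@[simp] lemma lsz_nil : lsz [] = 0 := rfl
@[simp] lemma lsz_cons (x : D) (l : List D) : lsz (x :: l) = x.size + lsz l := by simp [lsz]

/-- Total size of a state. -/
def St.tot (S : St) : ℕ := lsz S.m + lsz S.a + lsz S.b + lsz S.c

lemma St.tot_set (S : St) (k : Stk) (l : List D) :
    (S.set k l).tot + lsz (S.get k) = S.tot + lsz l := by
  cases k <;> simp [St.tot, St.set, St.get] <;> omega

lemma Ev.pos {cur p : P} {S S' : St} {n : ℕ} (h : Ev cur p S S' n) : 0 < n := by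
  induction h <;> first | omega | exact D.size_pos _

lemma Ev.tot_le {cur p : P} {S S' : St} {n : ℕ} (h : Ev cur p S S' n) : S'.tot ≤ S.tot + n := by
  induction h with
  | skip => omega
  | nil cur k S => have := S.tot_set k (.nil :: S.get k); simp at this; omega
  | @cons cur k S x y r h =>
    have := S.tot_set k (.cons x y :: r); rw [h] at this; simp at this; omega
  | @mv cur j k S x r h =>
    have h1 := S.tot_set j r
    have h2 := (S.set j r).tot_set k (x :: (S.set j r).get k)
    rw [h] at h1; simp at h1 h2; omega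
  | @dup cur k S x r h =>
    have := S.tot_set k (x :: x :: r); rw [h] at this; simp at this; omega
  | @drop cur k S x r h => have := S.tot_set k r; rw [h] at this; simp at this; omega
  | seq _ _ h1 h2 => omega
  | @caseNil cur p q k S S' r n h _ ih =>
    have := S.tot_set k r; rw [h] at this; simp at this; omega
  | @caseCons cur p q k S S' x y r n h _ ih =>
    have := S.tot_set k (x :: y :: r); rw [h] at this; simp at this; omega
  | @loopNil cur p k S r h => have := S.tot_set k r; rw [h] at this; simp at this; omega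
  | @loopCons cur p k S S₁ S₂ x y r m n h _ _ h1 h2 =>
    have := S.tot_set k (x :: y :: r); rw [h] at this; simp at this; omega
  | call _ ih => omega
  | fix _ ih => omega

/-- Evaluation at cost at most `n`. -/
def Run (cur p : P) (S S' : St) (n : ℕ) : Prop := ∃ m, m ≤ n ∧ Ev cur p S S' m

namespace Run

variable {cur p q : P} {S S' S₁ S₂ : St} {m n : ℕ}

lemma mono (h : Run cur p S S' m) (hn : m ≤ n) : Run cur p S S' n := by
  obtain ⟨k, hk, h⟩ := h
  exact ⟨k, hk.trans hn, h⟩

lemma pos (h : Run cur p S S' n) : 0 < n := by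
  obtain ⟨k, hk, h⟩ := h
  exact lt_of_lt_of_le h.pos hk

lemma tot_le (h : Run cur p S S' n) : S'.tot ≤ S.tot + n := by
  obtain ⟨k, hk, h⟩ := h
  have := h.tot_le
  omega

lemma skip (cur : P) (S : St) : Run cur .skip S S 1 := ⟨_, le_rfl, .skip cur S⟩

lemma nil (cur : P) (k : Stk) (S : St) : Run cur (.nil k) S (S.set k (.nil :: S.get k)) 1 :=
  ⟨_, le_rfl, .nil cur k S⟩

lemma cons (cur : P) {k : Stk} {x y : D} {r : List D} (h : S.get k = x :: y :: r) :
    Run cur (.cons k) S (S.set k (.cons x y :: r)) 1 := ⟨_, le_rfl, .cons cur h⟩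

lemma mv (cur : P) {j k : Stk} {x : D} {r : List D} (h : S.get j = x :: r) :
    Run cur (.mv j k) S ((S.set j r).set k (x :: (S.set j r).get k)) x.size :=
  ⟨_, le_rfl, .mv cur h⟩

lemma dup (cur : P) {k : Stk} {x : D} {r : List D} (h : S.get k = x :: r) :
    Run cur (.dup k) S (S.set k (x :: x :: r)) x.size := ⟨_, le_rfl, .dup cur h⟩

lemma drop (cur : P) {k : Stk} {x : D} {r : List D} (h : S.get k = x :: r) :
    Run cur (.drop k) S (S.set k r) x.size := ⟨_, le_rfl, .drop cur h⟩

lemma seq (h₁ : Run cur p S S₁ m) (h₂ : Run cur q S₁ S₂ n) :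
    Run cur (.seq p q) S S₂ (m + n) := by
  obtain ⟨m', hm, h₁⟩ := h₁
  obtain ⟨n', hn, h₂⟩ := h₂
  exact ⟨_, by omega, h₁.seq h₂⟩

lemma caseNil {k : Stk} {r : List D} (h : S.get k = .nil :: r) (h₁ : Run cur p (S.set k r) S' n) :
    Run cur (.case k p q) S S' (n + 1) := by
  obtain ⟨n', hn, h₁⟩ := h₁
  exact ⟨_, by omega, .caseNil h h₁⟩

lemma caseCons {k : Stk} {x y : D} {r : List D} (h : S.get k = .cons x y :: r)
    (h₁ : Run cur q (S.set k (x :: y :: r)) S' n) : Run cur (.case k p q) S S' (n + 1) := by
  obtain ⟨n', hn, h₁⟩ := h₁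
  exact ⟨_, by omega, .caseCons h h₁⟩

lemma loopNil (cur : P) {k : Stk} {r : List D} (h : S.get k = .nil :: r) :
    Run cur (.loop k p) S (S.set k r) 1 := ⟨_, le_rfl, .loopNil cur h⟩

lemma loopCons {k : Stk} {x y : D} {r : List D} (h : S.get k = .cons x y :: r)
    (h₁ : Run cur p (S.set k (x :: y :: r)) S₁ m) (h₂ : Run cur (.loop k p) S₁ S₂ n) :
    Run cur (.loop k p) S S₂ (m + n + 1) := by
  obtain ⟨m', hm, h₁⟩ := h₁
  obtain ⟨n', hn, h₂⟩ := h₂
  exact ⟨_, by omega, .loopCons h h₁ h₂⟩

lemma call (h : Run cur cur S S' n) : Run cur .call S S' (n + 1) := by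
  obtain ⟨n', hn, h⟩ := h
  exact ⟨_, by omega, .call h⟩

lemma fix (h : Run p p S S' n) : Run cur (.fix p) S S' (n + 1) := by
  obtain ⟨n', hn, h⟩ := h
  exact ⟨_, by omega, .fix h⟩

end Run

/-- `p` replaces the top value `x` of the main stack by `y` at cost at most `n`, whatever lies
below and on the other stacks. -/
def Impl (cur p : P) (x y : D) (n : ℕ) : Prop :=
  ∀ m a b c : List D, Run cur p ⟨x :: m, a, b, c⟩ ⟨y :: m, a, b, c⟩ n

lemma Impl.mono {cur p : P} {x y : D} {m n : ℕ} (h : Impl cur p x y m) (hn : m ≤ n) :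
    Impl cur p x y n := fun m a b c => (h m a b c).mono hn

lemma Impl.size_le {cur p : P} {x y : D} {n : ℕ} (h : Impl cur p x y n) :
    y.size ≤ x.size + n := by
  have := (h [] [] [] []).tot_le
  simpa [St.tot] using this

lemma Impl.pos {cur p : P} {x y : D} {n : ℕ} (h : Impl cur p x y n) : 0 < n :=
  (h [] [] [] []).pos

lemma Impl.seq {cur p q : P} {x y z : D} {m n : ℕ} (h₁ : Impl cur p x y m)
    (h₂ : Impl cur q y z n) : Impl cur (.seq p q) x z (m + n) :=
  fun m a b c => (h₁ m a b c).seq (h₂ m a b c)

lemma Impl.call {cur : P} {x y : D} {n : ℕ} (h : Impl cur cur x y n) :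
    Impl cur .call x y (n + 1) := fun m a b c => (h m a b c).call

lemma Impl.fix {cur p : P} {x y : D} {n : ℕ} (h : Impl p p x y n) :
    Impl cur (.fix p) x y (n + 1) := fun m a b c => (h m a b c).fix

end Crest.Agent.Lib.LT
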