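import Crest.Agent.Lib.LT.Core

/-!
Linear-time list operations.
-/

set_option autoImplicit false
set_option linter.dupNamespace false

namespace Crest.Agent.Lib.LT

open Crest.Agent.Lib.PT

variable {A A' α β γ δ σ : Type} [Enc α] [Enc β] [Enc γ] [Enc δ] [Enc σ]
variable {cur : A → P} {B : A → ℕ} {x : In B}

section arr
omit [Enc α] [Enc β]

@[simp] lemma length_arr (n : ℕ) (f : ℕ → α) : (arr n f).length = n := by simp [arr]

@[simp] lemma arr_zero (f : ℕ → α) : arr 0 f = [] := rfl

lemma arr_succ (n : ℕ) (f : ℕ → α) : arr (n + 1) f = arr n f ++ [f n] := by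
  simp [arr, List.range_succ]

lemma arr_succ' (n : ℕ) (f : ℕ → α) : arr (n + 1) f = f 0 :: arr n (fun i => f (i + 1)) := by
  simp [arr, List.range_succ_eq_map, Function.comp_def]

@[simp] lemma getElem_arr (n : ℕ) (f : ℕ → α) (i : ℕ) (h : i < (arr n f).length) :
    (arr n f)[i] = f i := by simp [arr]

lemma getElem?_arr (n : ℕ) (f : ℕ → α) (i : ℕ) :
    (arr n f)[i]? = if i < n then some (f i) else none := by
  split_ifs with h
  · rw [List.getElem?_eq_getElem (by simpa using h)]; simp
  · rw [List.getElem?_eq_none (by simpa using h)]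

lemma getD_arr {n i : ℕ} (f : ℕ → α) (h : i < n) (d : α) : (arr n f).getD i d = f i := by
  simp [List.getD_eq_getElem?_getD, h]

lemma arr_congr {n : ℕ} {f g : ℕ → α} (h : ∀ i, i < n → f i = g i) : arr n f = arr n g :=
  List.map_congr_left fun i hi => h i (List.mem_range.1 hi)

lemma eq_arr {l : List α} {n : ℕ} {f : ℕ → α} (hn : l.length = n)
    (h : ∀ i (hi : i < l.length), l[i] = f i) : l = arr n f :=
  List.ext_getElem (by simpa using hn) fun i hi _ => by rw [h i hi, getElem_arr]

lemma eq_arr_getD (l : List α) (d : α) : l = arr l.length (fun i => l.getD i d) :=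
  eq_arr rfl fun i hi => by simp [List.getD_eq_getElem?_getD, List.getElem?_eq_getElem hi]

@[simp] lemma map_arr (n : ℕ) (f : ℕ → α) (g : α → β) :
    (arr n f).map g = arr n (fun i => g (f i)) := by simp [arr, Function.comp_def]

lemma mem_arr {n : ℕ} {f : ℕ → α} {e : α} : e ∈ arr n f ↔ ∃ i, i < n ∧ f i = e := by simp [arr]

lemma zip_arr (n : ℕ) (f : ℕ → α) (g : ℕ → β) :
    (arr n f).zip (arr n g) = arr n (fun i => (f i, g i)) :=
  eq_arr (by simp) fun i hi => by simp

lemma arr_add (m n : ℕ) (f : ℕ → α) :
    arr (m + n) f = arr m f ++ arr n (fun i => f (m + i)) := by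
  simp [arr, List.range_add, Function.comp_def]

lemma take_arr (k n : ℕ) (f : ℕ → α) : (arr n f).take k = arr (min k n) f :=
  eq_arr (by simp) fun i hi => by simp

lemma drop_arr (k n : ℕ) (f : ℕ → α) : (arr n f).drop k = arr (n - k) (fun i => f (k + i)) :=
  eq_arr (by simp) fun i hi => by simp

lemma reverse_arr (n : ℕ) (f : ℕ → α) : (arr n f).reverse = arr n (fun i => f (n - 1 - i)) :=
  eq_arr (by simp) fun i hi => by simp

lemma replicate_eq_arr (n : ℕ) (v : α) : List.replicate n v = arr n (fun _ => v) :=
  eq_arr (by simp) fun i hi => by simp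

lemma flatten_arr (k n : ℕ) (f : ℕ → ℕ → α) :
    (arr k (fun i => arr n (f i))).flatten = arr (k * n) (fun j => f (j / n) (j % n)) := by
  induction k with
  | zero => simp
  | succ k ih =>
    rw [arr_succ, List.flatten_append, ih, Nat.succ_mul, arr_add]
    congr 1
    simp only [List.flatten_cons, List.flatten_nil, List.append_nil]
    refine arr_congr fun i hi => ?_
    have hn : 0 < n := by omega
    rw [show k * n + i = i + n * k by ring, Nat.add_mul_div_left _ _ hn, Nat.add_mul_mod_self_left,
      Nat.div_eq_of_lt hi, Nat.mod_eq_of_lt hi, zero_add]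

lemma sum_map_arr (n : ℕ) (f : ℕ → α) (g : α → ℕ) :
    ((arr n f).map g).sum = ∑ i ∈ Finset.range n, g (f i) := by
  induction n with
  | zero => simp
  | succ n ih => rw [arr_succ, List.map_append, List.sum_append, ih, Finset.sum_range_succ]; simp

end arr

lemma sz_arr (n : ℕ) (f : ℕ → α) : sz (arr n f) = ∑ i ∈ Finset.range n, sz (f i) + n + 1 := by
  rw [sz_list, sum_map_arr, length_arr]

lemma sz_arr_le {n M : ℕ} {f : ℕ → α} (h : ∀ i, i < n → sz (f i) ≤ M) :
    sz (arr n f) ≤ n * (M + 1) + 1 := by
  have := sz_list_le (arr n f) M (fun e he => by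
    obtain ⟨i, hi, rfl⟩ := mem_arr.1 he
    exact h i hi)
  rw [length_arr] at this
  linarith [mul_comm n (M + 1)]

lemma sz_le_sz_arr {n i : ℕ} (f : ℕ → α) (h : i < n) : sz (f i) ≤ sz (arr n f) :=
  sz_le_of_mem (mem_arr.2 ⟨i, h, rfl⟩)

/-! ### small combinators -/

@[fun_prop] protected lemma CT.not {c : A → Bool} (hc : CT cur x c) :
    CT cur x (fun a => !(c a)) :=
  (hc.cond (CT.const false) (CT.const true)).congr fun a => by cases c a <;> rfl

@[fun_prop] protected lemma CT.and {c d : A → Bool} (hc : CT cur x c) (hd : CT cur x d) :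
    CT cur x (fun a => (c a && d a)) :=
  (hc.cond hd (CT.const false)).congr fun a => by cases c a <;> rfl

@[fun_prop] protected lemma CT.or {c d : A → Bool} (hc : CT cur x c) (hd : CT cur x d) :
    CT cur x (fun a => (c a || d a)) :=
  (hc.cond (CT.const true) hd).congr fun a => by cases c a <;> rfl

@[fun_prop] protected lemma CT.xor {c d : A → Bool} (hc : CT cur x c) (hd : CT cur x d) :
    CT cur x (fun a => xor (c a) (d a)) :=
  (hc.cond hd.not hd).congr fun a => by cases c a <;> cases d a <;> rfl

/-- Test for `nil`. -/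
protected lemma CT.isNil {y : A → D} (h : CT cur x y) :
    CT cur x (fun a => D.iteNil (y a) true false) :=
  h.timeF (f := fun d : D => D.iteNil d true false)
    ((TimeF.id.iteNil (TimeF.const true) (TimeF.const false)).mono (T' := fun d => 6 * sz d)
      fun d => by cases d <;> simp <;> omega) (h.dom_sz.const_mul 6)

@[fun_prop] protected lemma CT.isEmpty {l : A → List β} (h : CT cur x l) :
    CT cur x (fun a => (l a).isEmpty) := h.enc.isNil.congr fun a => by cases l a <;> rfl

@[fun_prop] protected lemma CT.isSome {o : A → Option β} (h : CT cur x o) :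
    CT cur x (fun a => (o a).isSome) := h.enc.isNil.not.congr fun a => by cases o a <;> rfl

@[fun_prop] protected lemma CT.optionGetD {o : A → Option β} {d : A → β} (h : CT cur x o)
    (hd : CT cur x d) : CT cur x (fun a => (o a).getD (d a)) :=
  (h.isSome.cond h.enc.cdr hd.enc).of_enc fun a => by cases o a <;> rfl

@[fun_prop] protected lemma CT.orElse {o o' : A → Option β} (h : CT cur x o) (h' : CT cur x o') :
    CT cur x (fun a => (o a).or (o' a)) :=
  (h.isSome.cond h h').congr fun a => by cases o a <;> rfl

@[fun_prop] protected lemma CT.optionToList {o : A → Option β} (h : CT cur x o) :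
    CT cur x (fun a => (o a).toList) :=
  (h.isSome.cond (h.enc.cdr.dcons (CT.const D.nil)) (CT.const D.nil)).of_enc
    fun a => by cases o a <;> rfl

@[fun_prop] protected lemma CT.head? {l : A → List β} (h : CT cur x l) :
    CT cur x (fun a => (l a).head?) :=
  (h.isEmpty.cond (CT.const D.nil) ((CT.const D.nil).dcons h.enc.car)).of_enc
    fun a => by cases l a <;> rfl

@[fun_prop] protected lemma CT.headD {l : A → List β} {d : A → β} (h : CT cur x l)
    (hd : CT cur x d) : CT cur x (fun a => (l a).headD (d a)) :=
  (h.head?.optionGetD hd).congr fun a => by cases l a <;> rfl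

@[fun_prop] protected lemma CT.append {l m : A → List β} (hl : CT cur x l) (hm : CT cur x m) :
    CT cur x (fun a => l a ++ m a) :=
  (hl.cons (hm.cons (CT.const []))).flatten.congr fun a => by simp

/-- Every function on a finite type is linear-time. -/
protected lemma LT.of_finite [Finite α] (f : α → β) : LT f := by
  obtain ⟨M, hM⟩ := (Set.finite_range (sz : α → ℕ)).bddAbove
  refine LT.intro fun x hx => hx.pt (PT.of_finite f) ?_
  exact (Sm.const M x.pos).of_le fun q => hM ⟨q.2, rfl⟩

protected lemma CT.finite [Finite α] (f : α → β) {u : A → α} (h : CT cur x u) :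
    CT cur x (fun a => f (u a)) := (LT.of_finite f).ct h

/-! ### maps and scans -/

/-- An instance together with a member of a list. -/
structure Mem {A α : Type} (l : A → List α) : Type where
  /-- the instance -/
  a : A
  /-- the member -/
  e : α
  mem : e ∈ l a

/-- Map over an array, with a parameter. -/
protected theorem CT.arr_map {N : A → ℕ} {el : A → ℕ → α} {par : A → γ} {out : A → ℕ → β}
    (hl : CT cur x (fun a => arr (N a) (el a))) (hp : CT cur x par) (B' : A → ℕ → ℕ)
    (hsz : Dom (fun q : Ix N => sz (el q.a q.i) + sz (par q.a)) (fun q => B' q.a q.i))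
    (body : ∀ x' : In (fun q : Ix N => B' q.a q.i),
      CT (fun q => cur q.a) x' (fun q => el q.a q.i) →
      CT (fun q => cur q.a) x' (fun q => par q.a) →
      CT (fun q => cur q.a) x' (fun q => out q.a q.i))
    (hB : Dom (fun a => ∑ i ∈ Finset.range (N a), B' a i) B) :
    CT cur x (fun a => arr (N a) (out a)) :=
  (CT.scan (st := fun a _ => par a) hl hp B' hsz
    (fun x' h₁ h₂ => (body x' h₁ h₂).pair h₂) hB).fst

lemma sum_range_getD (L : List ℕ) : ∑ i ∈ Finset.range L.length, L.getD i 0 = L.sum := by
  have := sum_map_arr L.length (fun i => L.getD i 0) id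
  rw [← eq_arr_getD, List.map_id] at this
  exact this.symm

/-- Scan over a list with a state. -/
protected theorem CT.scanL {l : A → List α} {st : A → ℕ → σ}
    {out : Ix (fun a => (l a).length) → β} {res : A → List β}
    (hl : CT cur x l) (h0 : CT cur x (fun a => st a 0)) (B' : A → ℕ → ℕ)
    (hsz : Dom (fun q : Ix (fun a => (l a).length) => sz ((l q.a)[q.i]'q.lt) + sz (st q.a q.i))
      (fun q => B' q.a q.i))
    (body : ∀ x' : In (fun q : Ix (fun a => (l a).length) => B' q.a q.i),
      CT (fun q => cur q.a) x' (fun q => (l q.a)[q.i]'q.lt) →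
      CT (fun q => cur q.a) x' (fun q => st q.a q.i) →
      CT (fun q => cur q.a) x' (fun q => (out q, st q.a (q.i + 1))))
    (hB : Dom (fun a => ∑ i ∈ Finset.range (l a).length, B' a i) B)
    (hlen : ∀ a, (res a).length = (l a).length)
    (hres : ∀ q : Ix (fun a => (l a).length), (res q.a)[q.i]'(hlen q.a ▸ q.lt) = out q) :
    CT cur x (fun a => (res a, st a (l a).length)) := by
  have e1 : ∀ q : Ix (fun a => (l a).length),
      ((l q.a).map enc).getD q.i D.nil = enc ((l q.a)[q.i]'q.lt) := fun q => by
    simp [List.getD_eq_getElem?_getD, List.getElem?_eq_getElem q.lt]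
  have e2 : ∀ q : Ix (fun a => (l a).length),
      ((res q.a).map enc).getD q.i D.nil = enc (out q) := fun q => by
    rw [← hres q]
    simp [List.getD_eq_getElem?_getD, List.getElem?_eq_getElem (hlen q.a ▸ q.lt)]
  have e3 : ∀ {ε : Type} [Enc ε] (m : List ε) (n : ℕ), m.length = n →
      enc (arr n (fun i => (m.map enc).getD i D.nil)) = enc m := by
    intro ε _ m n hn
    have := eq_arr_getD (m.map enc) D.nil
    rw [List.length_map, hn] at this
    rw [← this, enc_list, enc_list, List.map_map]; rfl
  have key := CT.scan (cur := cur) (x := x) (N := fun a => (l a).length)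
    (el := fun a i => ((l a).map enc).getD i D.nil) (st := st)
    (out := fun a i => ((res a).map enc).getD i D.nil)
    (hl.of_enc fun a => e3 _ _ rfl) h0 B'
    (hsz.le_trans fun q => by rw [e1]; rfl)
    (fun x' h₁ h₂ => (body x' (h₁.of_enc fun q => by rw [e1]; rfl) h₂).of_enc fun q => by
      rw [enc_pair, enc_pair, e2]; rfl) hB
  exact key.of_enc fun a => by rw [enc_pair, enc_pair, e3 _ _ (hlen a)]

/-- Map over a list, with a parameter. -/
protected theorem CT.map {l : A → List α} {par : A → γ} {f : A → α → β}
    (hl : CT cur x l) (hp : CT cur x par) (B' : A → α → ℕ)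
    (hsz : Dom (fun q : Mem l => sz q.e + sz (par q.a)) (fun q => B' q.a q.e))
    (body : ∀ x' : In (fun q : Mem l => B' q.a q.e),
      CT (fun q => cur q.a) x' (fun q => q.e) →
      CT (fun q => cur q.a) x' (fun q => par q.a) →
      CT (fun q => cur q.a) x' (fun q => f q.a q.e))
    (hB : Dom (fun a => ((l a).map (B' a)).sum) B) :
    CT cur x (fun a => (l a).map (f a)) := by
  have e1 : ∀ q : Ix (fun a => (l a).length),
      ((l q.a).map (B' q.a)).getD q.i 0 = B' q.a ((l q.a)[q.i]'q.lt) := fun q => by
    simp [List.getD_eq_getElem?_getD, List.getElem?_eq_getElem q.lt]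
  have hd : Dom (fun q : Mem l => sz (q.e, par q.a)) (fun q => B' q.a q.e) := by
    simpa using hsz.add (Dom.const 1 fun q => hsz.pos (by have := sz_pos q.e; omega))
  have hx := CT.of (fun q : Mem l => cur q.a) _ hd
  have hb := body _ hx.fst hx.snd
  let φ : Ix (fun a => (l a).length) → Mem l := fun q => ⟨q.a, (l q.a)[q.i]'q.lt, by simp⟩
  refine (CT.scanL (st := fun a _ => par a) (out := fun q => f q.a ((l q.a)[q.i]'q.lt)) hl hp
    (fun a i => ((l a).map (B' a)).getD i 0) ((hsz.comap φ).trans_le fun q => (e1 q).ge)
    (fun x' h₁ h₂ => (hb.via φ (fun _ => rfl) (h₁.pair h₂).enc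
      (Dom.of_le fun q => (e1 q).ge)).pair h₂)
    (hB.le_trans fun a => ?_) (fun a => by simp) (fun q => by simp)).fst
  rw [← sum_range_getD, List.length_map]

/-- Map a linear-time function. -/
protected theorem CT.map_lt {f : α → β} (hf : LT f) {l : A → List α} (hl : CT cur x l) :
    CT cur x (fun a => (l a).map f) := by
  refine hl.map (par := fun _ => ()) (f := fun _ e => f e) (CT.const ()) (fun _ e => sz e)
    ⟨2, fun q => by have := sz_pos q.e; simp only [sz_unit]; omega⟩
    (fun x' h₁ _ => hf.ct h₁) (hl.dom_sz.le_trans fun a => ?_)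
  rw [sz_list]
  exact (Nat.le_add_right _ _).trans (Nat.le_add_right _ _)

/-- Map a linear-time function with a parameter. -/
protected theorem CT.map_lt₂ {f : γ → α → β} (hf : LT (fun q : γ × α => f q.1 q.2))
    {l : A → List α} {par : A → γ} (hl : CT cur x l) (hp : CT cur x par)
    (hB : Dom (fun a => (l a).length * sz (par a)) B) :
    CT cur x (fun a => (l a).map (f (par a))) := by
  refine hl.map (f := fun a e => f (par a) e) hp (fun a e => sz e + sz (par a)) (Dom.refl _)
    (fun x' h₁ h₂ => hf.ct (h₂.pair h₁)) ((hl.dom_sz.add hB).le_trans fun a => ?_)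
  rw [sz_list, List.sum_map_add]
  simp only [List.map_const', List.sum_replicate, smul_eq_mul]
  omega

protected theorem CT.arr_map_lt {f : α → β} (hf : LT f) {N : A → ℕ} {el : A → ℕ → α}
    (hl : CT cur x (fun a => arr (N a) (el a))) :
    CT cur x (fun a => arr (N a) (fun i => f (el a i))) :=
  (hl.map_lt hf).congr fun a => by simp

protected theorem CT.arr_zip {N : A → ℕ} {f : A → ℕ → α} {g : A → ℕ → β}
    (hf : CT cur x (fun a => arr (N a) (f a))) (hg : CT cur x (fun a => arr (N a) (g a))) :
    CT cur x (fun a => arr (N a) (fun i => (f a i, g a i))) :=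
  (hf.zip hg).congr fun a => by rw [zip_arr]

/-- Left-to-right map with a state. -/
def mapAcc {α σ β : Type} (f : α → σ → β × σ) : List α → σ → List β × σ
  | [], s => ([], s)
  | e :: l, s => ((f e s).1 :: (mapAcc f l (f e s).2).1, (mapAcc f l (f e s).2).2)

section mapAcc
omit [Enc α] [Enc β] [Enc σ]

@[simp] lemma length_mapAcc (f : α → σ → β × σ) (l : List α) :
    ∀ s : σ, (mapAcc f l s).1.length = l.length := by
  induction l with
  | nil => intro s; rfl
  | cons e l ih => intro s; simp [mapAcc, ih]

lemma mapAcc_take_succ (f : α → σ → β × σ) (l : List α) : ∀ (s : σ) (i : ℕ) (h : i < l.length),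
    (mapAcc f (l.take (i + 1)) s).2 = (f l[i] (mapAcc f (l.take i) s).2).2 := by
  induction l with
  | nil => intro s i h; simp at h
  | cons e l ih =>
    intro s i h
    cases i with
    | zero => simp [mapAcc]
    | succ i => simpa [mapAcc] using ih (f e s).2 i (by simpa using h)

lemma getElem_mapAcc (f : α → σ → β × σ) (l : List α) : ∀ (s : σ) (i : ℕ) (h : i < l.length),
    (mapAcc f l s).1[i]'(by simpa using h) = (f l[i] (mapAcc f (l.take i) s).2).1 := by
  induction l with
  | nil => intro s i h; simp at h
  | cons e l ih =>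
    intro s i h
    cases i with
    | zero => simp [mapAcc]
    | succ i => simpa [mapAcc] using ih (f e s).2 i (by simpa using h)

end mapAcc

/-- Finite-state transducers. -/
protected theorem CT.mapAcc_fin [Finite σ] {f : α → σ → β × σ}
    (hf : LT (fun q : α × σ => f q.1 q.2)) {l : A → List α} {s : A → σ} (hl : CT cur x l)
    (hs : CT cur x s) : CT cur x (fun a => mapAcc f (l a) (s a)) := by
  obtain ⟨M, hM⟩ := (Set.finite_range (sz : σ → ℕ)).bddAbove
  have e1 : ∀ q : Ix (fun a => (l a).length),
      ((l q.a).map sz).getD q.i 0 = sz ((l q.a)[q.i]'q.lt) := fun q => by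
    simp [List.getD_eq_getElem?_getD, List.getElem?_eq_getElem q.lt]
  refine (CT.scanL (st := fun a i => (mapAcc f ((l a).take i) (s a)).2)
    (out := fun q => (f ((l q.a)[q.i]'q.lt) (mapAcc f ((l q.a).take q.i) (s q.a)).2).1)
    (res := fun a => (mapAcc f (l a) (s a)).1) hl (hs.congr fun a => by simp [mapAcc])
    (fun a i => ((l a).map sz).getD i 0) ⟨M + 1, fun q => ?_⟩
    (fun x' h₁ h₂ => (hf.ct (h₁.pair h₂)).congr fun q => ?_)
    (hl.dom_sz.le_trans fun a => ?_) (fun a => by simp)
    (fun q => getElem_mapAcc _ _ _ _ q.lt)).congr fun a => by simp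
  · have h1 : sz (mapAcc f ((l q.a).take q.i) (s q.a)).2 ≤ M := hM ⟨_, rfl⟩
    have h2 := sz_pos ((l q.a)[q.i]'q.lt)
    simp only [e1]
    nlinarith
  · rw [mapAcc_take_succ _ _ _ _ q.lt]
  · have := sum_range_getD ((l a).map sz)
    rw [List.length_map] at this
    rw [this, sz_list]; omega

@[fun_prop] protected theorem CT.reduceOption {l : A → List (Option β)} (hl : CT cur x l) :
    CT cur x (fun a => (l a).reduceOption) := by
  refine (hl.map_lt (f := Option.toList)
    (LT.intro fun x hx => hx.optionToList)).flatten.congr fun a => ?_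
  induction l a with
  | nil => rfl
  | cons o m ih => cases o <;> simp [ih]

/-- Filter by a linear-time test. -/
protected theorem CT.filter_lt {f : α → Bool} (hf : LT f) {l : A → List α} (hl : CT cur x l) :
    CT cur x (fun a => (l a).filter f) := by
  refine (hl.map_lt (f := fun e => cond (f e) [e] [])
    (LT.intro fun x hx => (hf.ct hx).cond (hx.cons (CT.const [])) (CT.const []))).flatten.congr
    fun a => ?_
  induction l a with
  | nil => rfl
  | cons e m ih => cases h : f e <;> simp [h, ih]

protected theorem CT.dropWhile_lt {f : α → Bool} (hf : LT f) {l : A → List α} (hl : CT cur x l) :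
    CT cur x (fun a => (l a).dropWhile f) := by
  have h1 : LT (fun q : α × Bool =>
      (fun (e : α) (s : Bool) => cond (s && f e) (([] : List α), true) ([e], false)) q.1 q.2) :=
    LT.intro fun x hx => (hx.snd.and (hf.ct hx.fst)).cond (CT.const _)
      ((hx.fst.cons (CT.const [])).pair (CT.const false))
  refine (CT.mapAcc_fin (f := fun (e : α) (s : Bool) =>
    cond (s && f e) (([] : List α), true) ([e], false)) h1 hl
    (CT.const true)).fst.flatten.congr fun a => ?_
  have h2 : ∀ m : List α, (mapAcc (fun (e : α) (s : Bool) =>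
      cond (s && f e) (([] : List α), true) ([e], false)) m false).1.flatten = m := by
    intro m
    induction m with
    | nil => rfl
    | cons e m ih => simpa [mapAcc] using ih
  induction l a with
  | nil => rfl
  | cons e m ih =>
    cases h : f e
    · simpa [mapAcc, h] using (h2 m).symm
    · simpa [mapAcc, h] using ih

/-! ### unary numbers -/

/-- The unary numeral. -/
def un (n : ℕ) : List Unit := List.replicate n ()

@[simp] lemma length_un (n : ℕ) : (un n).length = n := by simp [un]

@[simp] lemma sz_un (n : ℕ) : sz (un n) = 2 * n + 1 := by simp [sz_unitList]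

lemma un_eq_arr (n : ℕ) : un n = arr n (fun _ => ()) := replicate_eq_arr _ _

/-- The unary length. -/
protected theorem CT.unLen {l : A → List β} (hl : CT cur x l) :
    CT cur x (fun a => un (l a).length) := by
  refine (hl.map_lt (f := fun _ => ()) (LT.intro fun x _ => CT.const ())).congr fun a => ?_
  simp [un]

/-- Binary to unary in linear time. -/
protected theorem CT.un {n : A → ℕ} (hn : CT cur x n) (hB : Dom n B) :
    CT cur x (fun a => un (n a)) := by
  have hl : CT cur x (fun a => (n a).bits.reverse) :=
    CT.reverse (hn.of_enc fun a => rfl)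
  set l : A → List Bool := fun a => (n a).bits.reverse with hldef
  set v : A → ℕ → ℕ := fun a i => ofBits ((l a).take i).reverse with hv
  have e1 : ∀ a i (h : i < (l a).length), v a (i + 1) = 2 * v a i + ((l a)[i]).toNat := by
    intro a i h
    simp only [hv]
    rw [List.take_succ_eq_append_getElem h, List.reverse_append, List.reverse_singleton,
      List.singleton_append, ofBits_cons, Nat.bit_val]
  have e2 : ∀ a, v a (l a).length = n a := by
    intro a
    simp only [hv]
    rw [List.take_length, hldef, List.reverse_reverse, ofBits_bits]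
  have e3 : ∀ a k, k ≤ (l a).length → ∑ i ∈ Finset.range k, v a i ≤ v a k := by
    intro a k
    induction k with
    | zero => simp
    | succ k ih =>
      intro hk
      rw [Finset.sum_range_succ, e1 a k hk]
      have := ih (by omega)
      omega
  refine (CT.scanL (st := fun a i => un (v a i)) (out := fun _ => ())
    (res := fun a => un (l a).length) hl ((CT.const []).congr fun a => by simp [hv, un])
    (fun a i => v a i + 1) ⟨6, fun q => by simp; omega⟩
    (fun x' h₁ h₂ => (CT.const ()).pair (((h₂.append h₂).append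
      (h₁.cond (CT.const [()]) (CT.const []))).congr fun q => ?_))
    ((hB.add hl.dom_sz).le_trans fun a => ?_) (fun a => by simp)
    (fun q => rfl)).snd.congr fun a => by rw [e2]
  · rw [e1 _ _ q.lt]
    cases (l q.a)[q.i]'q.lt <;> simp [un, two_mul, List.replicate_succ']
  · have h1 := e3 a _ le_rfl
    have h2 := length_le_sz (l a)
    rw [e2] at h1
    rw [Finset.sum_add_distrib]
    simp only [Finset.sum_const, Finset.card_range, smul_eq_mul]
    omega

protected theorem CS.un {n : A → ℕ} (hn : CS cur x n) (hs : Sm B n) :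
    CS cur x (fun a => un (n a)) :=
  ⟨hn.1.un hs.dom, by simpa using (hs.const_mul 2).add_const 1⟩

protected theorem CT.takeU {u : A → List γ} {l : A → List β} (hu : CT cur x u) (hl : CT cur x l) :
    CT cur x (fun a => (l a).take (u a).length) := by
  refine (((hu.cons (CT.const [])).splitBy hl).fst.headD (CT.const [])).congr fun a => ?_
  simp [splitBy]

protected theorem CT.dropU {u : A → List γ} {l : A → List β} (hu : CT cur x u) (hl : CT cur x l) :
    CT cur x (fun a => (l a).drop (u a).length) := by
  refine ((hu.cons (CT.const [])).splitBy hl).snd.congr fun a => ?_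
  simp [splitBy]

protected theorem CT.take {n : A → ℕ} {l : A → List β} (hn : CT cur x n) (hB : Dom n B)
    (hl : CT cur x l) : CT cur x (fun a => (l a).take (n a)) := by
  simpa using (hn.un hB).takeU hl

protected theorem CT.drop {n : A → ℕ} {l : A → List β} (hn : CT cur x n) (hB : Dom n B)
    (hl : CT cur x l) : CT cur x (fun a => (l a).drop (n a)) := by
  simpa using (hn.un hB).dropU hl

protected theorem CT.replicate {n : A → ℕ} {v : A → β} (hn : CT cur x n) (hv : CT cur x v)
    (hB : Dom (fun a => n a * sz (v a)) B) : CT cur x (fun a => List.replicate (n a) (v a)) := by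
  have h1 : Dom n B := hB.le_trans fun a => Nat.le_mul_of_pos_right _ (sz_pos _)
  refine (CT.map_lt₂ (f := fun (w : β) (_ : Unit) => w) (LT.intro fun x hx => hx.fst) (hn.un h1) hv
    (by simpa using hB)).congr fun a => ?_
  simp [un]

omit [Enc β] in
lemma splitBy_arr (k : ℕ) : ∀ (len : ℕ → ℕ) (l : List β), (splitBy (arr k len) l).1 =
    arr k (fun i => (l.drop (∑ j ∈ Finset.range i, len j)).take (len i)) := by
  induction k with
  | zero => intro len l; rfl
  | succ k ih =>
    intro len l
    rw [arr_succ', arr_succ', splitBy, ih]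
    simp only [Finset.range_zero, Finset.sum_empty, List.drop_zero, List.drop_drop,
      Finset.sum_range_succ', List.cons.injEq, true_and]
    exact arr_congr fun i _ => by rw [add_comm (len 0)]

/-- `k` consecutive pieces of length `n`. -/
protected theorem CT.chunks {k n : A → ℕ} {l : A → List β} (hk : CT cur x k) (hn : CT cur x n)
    (hB : Dom (fun a => (k a + 1) * (n a + 1)) B) (hl : CT cur x l) :
    CT cur x (fun a => arr (k a) (fun i => ((l a).drop (i * n a)).take (n a))) := by
  have h1 : Dom n B := hB.le_trans fun a => by nlinarith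
  have h2 := CT.replicate hk (hn.un h1) ((hB.const_mul 2).le_trans fun a => by
    rw [sz_un]; nlinarith)
  refine (h2.splitBy hl).fst.congr fun a => ?_
  rw [replicate_eq_arr, map_arr, splitBy_arr]
  simp

/-- An array of length `k * n` as `k` rows of length `n`. -/
protected theorem CT.arr_chunks {k n : A → ℕ} {f : A → ℕ → β} (hk : CT cur x k) (hn : CT cur x n)
    (hB : Dom (fun a => (k a + 1) * (n a + 1)) B)
    (hl : CT cur x (fun a => arr (k a * n a) (f a))) :
    CT cur x (fun a => arr (k a) (fun i => arr (n a) (fun j => f a (i * n a + j)))) := by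
  refine (CT.chunks hk hn hB hl).congr fun a => arr_congr fun i hi => ?_
  rw [drop_arr, take_arr, min_eq_left]
  have : (i + 1) * n a ≤ k a * n a := Nat.mul_le_mul_right _ hi
  rw [add_mul, one_mul] at this
  omega

protected theorem CT.arr_flatten {k n : A → ℕ} {f : A → ℕ → ℕ → β}
    (hl : CT cur x (fun a => arr (k a) (fun i => arr (n a) (f a i)))) :
    CT cur x (fun a => arr (k a * n a) (fun j => f a (j / n a) (j % n a))) :=
  hl.flatten.congr fun a => by rw [flatten_arr]

/-- Consecutive pieces of variable lengths, given in unary. -/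
protected theorem CT.pieces {k : A → ℕ} {len : A → ℕ → ℕ} {l : A → List β}
    (hU : CT cur x (fun a => arr (k a) (fun i => un (len a i)))) (hl : CT cur x l) :
    CT cur x (fun a => arr (k a)
      (fun i => ((l a).drop (∑ j ∈ Finset.range i, len a j)).take (len a i))) := by
  refine (hU.splitBy hl).fst.congr fun a => ?_
  rw [map_arr, splitBy_arr]
  simp

protected theorem CT.rotate {n : A → ℕ} {l : A → List β} (hn : CT cur x n)
    (h : ∀ a, n a ≤ (l a).length) (hl : CT cur x l) : CT cur x (fun a => (l a).rotate (n a)) := by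
  have h1 : Dom n B := hl.dom_sz.le_trans fun a => (h a).trans (length_le_sz _)
  exact ((hn.drop h1 hl).append (hn.take h1 hl)).congr fun a =>
    List.rotate_eq_drop_append_take (h a)

/-- Cyclic shift of an array. -/
protected theorem CT.arr_rotate {n N : A → ℕ} {f : A → ℕ → β} (hn : CT cur x n)
    (h : ∀ a, n a ≤ N a) (hl : CT cur x (fun a => arr (N a) (f a))) :
    CT cur x (fun a => arr (N a) (fun i => f a ((i + n a) % N a))) := by
  refine (hn.rotate (fun a => by simpa using h a) hl).congr fun a => ?_
  refine (eq_arr (by simp) fun i hi => ?_).symm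
  rw [List.getElem_rotate]
  simp

/-! ### loops -/

/-- A `while` loop running `N` rounds. -/
protected theorem CT.while {N : A → ℕ} {st : A → ℕ → σ} (h0 : CT cur x (fun a => st a 0))
    (B' : A → ℕ → ℕ)
    (hsz : Dom (fun q : Ix (fun a => N a + 1) => sz (st q.a q.i)) (fun q => B' q.a q.i))
    (test : ∀ x' : In (fun q : Ix (fun a => N a + 1) => B' q.a q.i),
      CT (fun q => cur q.a) x' (fun q => st q.a q.i) →
      CT (fun q => cur q.a) x' (fun q => decide (q.i < N q.a)))
    (body : ∀ x' : In (fun q : Ix N => B' q.a q.i),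
      CT (fun q => cur q.a) x' (fun q => st q.a q.i) →
      CT (fun q => cur q.a) x' (fun q => st q.a (q.i + 1)))
    (hB : Dom (fun a => ∑ i ∈ Finset.range (N a + 1), B' a i) B) :
    CT cur x (fun a => st a (N a)) := by
  let φ : Ix N → Ix (fun a => N a + 1) := fun q => ⟨q.a, q.i, Nat.lt_succ_of_lt q.lt⟩
  have hb := body _ (CT.of (fun q : Ix N => cur q.a) _ (hsz.comap φ))
  have e1 : ∀ q : Ix (fun a => N a + 1), min q.i (N q.a) = q.i := fun q =>
    min_eq_left (Nat.le_of_lt_succ q.lt)
  refine (CT.iter (st := fun a i => st a (min i (N a))) (h0.congr fun a => by simp) B'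
    (hsz.le_trans fun q => by rw [e1]) (fun x' h₁ => ?_) hB).congr fun a => by simp
  have h₂ : CT (fun q => cur q.a) x' (fun q => st q.a q.i) := h₁.congr fun q => by rw [e1]
  have ht := test x' h₂
  refine ht.pair (CT.byCases (R := fun q : Ix (fun a => N a + 1) => q.i < N q.a) ht ?_ ?_)
  · refine (hb.via (fun q : {q : Ix (fun a => N a + 1) // q.i < N q.a} => ⟨q.1.a, q.1.i, q.2⟩)
      (fun _ => rfl) (h₂.comap Subtype.val).enc (Dom.refl _)).congr fun q => ?_
    rw [min_eq_left (Nat.succ_le_of_lt q.2)]
  · refine (h₂.comap Subtype.val).congr fun q => ?_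
    have h1 := q.1.lt
    have h2 := q.2
    rw [min_eq_right (by omega)]
    congr 1; omega

end Crest.Agent.Lib.LT
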