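import Crest.Agent.Lib.LT.Arr

/-!
Multiplication through an oracle: integers, Gaussian integers, polynomials (Kronecker
substitution); schoolbook multiplication.
-/

set_option autoImplicit false
set_option linter.dupNamespace false

namespace Crest.Agent.Lib.LT

open Crest.Agent.Lib.PT

/-- The target of recursive calls multiplies numbers of `n ≤ N` bits at cost `(n + 1) * μ`. -/
def MulOK (cur : P) (N μ : ℕ) : Prop :=
  ∀ n u v : ℕ, n ≤ N → u < 2 ^ n → v < 2 ^ n →
    Impl cur cur (enc (u, v)) (enc (u * v)) ((n + 1) * μ)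

lemma MulOK.pos {cur : P} {N μ : ℕ} (h : MulOK cur N μ) : 0 < μ := by
  simpa using (h 0 0 0 (Nat.zero_le _) (by simp) (by simp)).pos

lemma MulOK.mono {cur : P} {N N' μ μ' : ℕ} (h : MulOK cur N μ) (hN : N' ≤ N) (hμ : μ ≤ μ') :
    MulOK cur N' μ' := fun n u v hn hu hv =>
  (h n u v (hn.trans hN) hu hv).mono (Nat.mul_le_mul_left _ hμ)

variable {A : Type} {cur : A → P} {B : A → ℕ} {x : In B} {N μ : A → ℕ}

protected theorem CT.mul (hM : ∀ a, MulOK (cur a) (N a) (μ a)) (n : A → ℕ) {u v : A → ℕ}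
    (hu : CT cur x u) (hv : CT cur x v) (hn : ∀ a, n a ≤ N a) (h₁ : ∀ a, u a < 2 ^ n a)
    (h₂ : ∀ a, v a < 2 ^ n a) (hB : Dom (fun a => (n a + 1) * μ a) B) :
    CT cur x (fun a => u a * v a) :=
  (hu.pair hv).call (fun a => hM a _ _ _ (hn a) (h₁ a) (h₂ a)) hB

protected theorem CT.intMul (hM : ∀ a, MulOK (cur a) (N a) (μ a)) (n : A → ℕ) {u v : A → ℤ}
    (hu : CT cur x u) (hv : CT cur x v) (hn : ∀ a, n a ≤ N a) (h₁ : ∀ a, (u a).natAbs < 2 ^ n a)
    (h₂ : ∀ a, (v a).natAbs < 2 ^ n a) (hB : Dom (fun a => (n a + 1) * μ a) B) :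
    CT cur x (fun a => u a * v a) := by
  have h := (CT.mul hM n hu.natAbs hv.natAbs hn h₁ h₂ hB).natCast
  refine (((hu.int_decide_lt (CT.const 0)).xor (hv.int_decide_lt (CT.const 0))).cond
    h.intNeg h).congr fun a => ?_
  push_cast
  by_cases e₁ : u a < 0 <;> by_cases e₂ : v a < 0
  · simp [e₁, e₂, abs_of_neg e₁, abs_of_neg e₂]
  · simp [e₁, e₂, abs_of_neg e₁, abs_of_nonneg (not_lt.1 e₂)]
  · simp [e₁, e₂, abs_of_neg e₂, abs_of_nonneg (not_lt.1 e₁)]
  · simp [e₁, e₂, abs_of_nonneg (not_lt.1 e₁), abs_of_nonneg (not_lt.1 e₂)]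

protected theorem CT.gmul (hM : ∀ a, MulOK (cur a) (N a) (μ a)) (n : A → ℕ)
    {u v : A → GaussianInt} (hu : CT cur x u) (hv : CT cur x v) (hn : ∀ a, n a + 1 ≤ N a)
    (h₁ : ∀ a, ‖(u a : ℂ)‖ ≤ 2 ^ n a) (h₂ : ∀ a, ‖(v a : ℂ)‖ ≤ 2 ^ n a)
    (hB : Dom (fun a => (n a + 1) * μ a) B) : CT cur x (fun a => u a * v a) := by
  have hB' : Dom (fun a => (n a + 1 + 1) * μ a) B :=
    (hB.const_mul 2).le_trans fun a => by nlinarith [Nat.zero_le (n a * μ a)]
  have ur := fun a => natAbs_lt_of_abs_le (abs_re_le_of_norm_le (h₁ a))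
  have ui := fun a => natAbs_lt_of_abs_le (abs_im_le_of_norm_le (h₁ a))
  have vr := fun a => natAbs_lt_of_abs_le (abs_re_le_of_norm_le (h₂ a))
  have vi := fun a => natAbs_lt_of_abs_le (abs_im_le_of_norm_le (h₂ a))
  refine (((CT.intMul hM (fun a => n a + 1) hu.gre hv.gre hn ur vr hB').intSub
    (CT.intMul hM (fun a => n a + 1) hu.gim hv.gim hn ui vi hB')).gmk
    ((CT.intMul hM (fun a => n a + 1) hu.gre hv.gim hn ur vi hB').intAdd
    (CT.intMul hM (fun a => n a + 1) hu.gim hv.gre hn ui vr hB'))).congr fun a => ?_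
  ext
  · simp [Zsqrtd.re_mul]; ring
  · simp [Zsqrtd.im_mul]

/-- Fixed-point product. -/
def fmul (k : ℕ) (u v : GaussianInt) : GaussianInt := rshift k (u * v)

/-- Error of a fixed-point product with an approximate constant. -/
lemma norm_fmul_sub_le {k : ℕ} {u v : GaussianInt} {c : ℂ} {e : ℝ}
    (hu : ‖(u : ℂ)‖ ≤ 2 ^ k) (hv : ‖(v : ℂ) - 2 ^ k * c‖ ≤ e) :
    ‖(fmul k u v : ℂ) - c * u‖ ≤ e + 2 := by
  have h1 := norm_rshift_sub_le k (u * v)
  have hk : (0 : ℝ) < 2 ^ k := by positivity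
  have h2 : ‖((u * v : GaussianInt) : ℂ) / 2 ^ k - c * u‖ ≤ e := by
    have e1 : ((u * v : GaussianInt) : ℂ) / 2 ^ k - c * u = u * (v - 2 ^ k * c) / 2 ^ k := by
      rw [GaussianInt.toComplex_mul]
      field_simp
    rw [e1, norm_div, norm_mul, norm_pow, Complex.norm_ofNat, div_le_iff₀ hk, mul_comm e]
    exact mul_le_mul hu hv (norm_nonneg _) hk.le
  calc ‖(fmul k u v : ℂ) - c * u‖
      = ‖(((u * v : GaussianInt) : ℂ) / 2 ^ k - c * u) +
        ((rshift k (u * v) : ℂ) - ((u * v : GaussianInt) : ℂ) / 2 ^ k)‖ := by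
        unfold fmul; congr 1; ring
    _ ≤ e + 2 := (norm_add_le _ _).trans (add_le_add h2 h1)

/-- Entrywise fixed-point product of two arrays. -/
protected theorem CT.arr_fmul (hM : ∀ a, MulOK (cur a) (N a) (μ a)) (n : A → ℕ) {t k : A → ℕ}
    {u v : A → ℕ → GaussianInt} (hu : CT cur x (fun a => arr (t a) (u a)))
    (hv : CT cur x (fun a => arr (t a) (v a))) (hk : CT cur x k) (hkn : ∀ a, k a ≤ n a)
    (hn : ∀ a, n a + 1 ≤ N a) (h₁ : ∀ a i, i < t a → ‖(u a i : ℂ)‖ ≤ 2 ^ n a)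
    (h₂ : ∀ a i, i < t a → ‖(v a i : ℂ)‖ ≤ 2 ^ n a)
    (hB : Dom (fun a => t a * ((n a + 1) * μ a)) B) :
    CT cur x (fun a => arr (t a) (fun i => fmul (k a) (u a i) (v a i))) := by
  have hle : ∀ a, n a + 1 ≤ (n a + 1) * μ a := fun a => Nat.le_mul_of_pos_right _ (hM a).pos
  refine CT.arr_map (hu.arr_zip hv) hk (fun a _ => (n a + 1) * μ a) ⟨56, fun q => ?_⟩
    (fun x' h₃ h₄ => ?_) (hB.le_trans fun a => by simp)
  · have e1 := sz_gauss_le (h₁ q.a q.i q.lt)
    have e2 := sz_gauss_le (h₂ q.a q.i q.lt)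
    have e3 := sz_nat_le_self (k q.a)
    have e4 := hkn q.a
    have e5 := hle q.a
    simp only [sz_pair]
    omega
  · exact (CT.gmul (fun q : Ix t => hM q.a) (fun q => n q.a) h₃.fst h₃.snd (fun q => hn q.a)
      (fun q => h₁ q.a q.i q.lt) (fun q => h₂ q.a q.i q.lt) (Dom.refl _)).rshift h₄
      (Dom.of_le fun q => by have := hkn q.a; have := hle q.a; omega)

/-- The coefficients of the product of two polynomials with `r` and `r'` coefficients. -/
def aconv {R : Type} [Semiring R] (r r' : ℕ) (u v : ℕ → R) (k : ℕ) : R :=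
  ∑ i ∈ Finset.range r, if i ≤ k ∧ k - i < r' then u i * v (k - i) else 0

lemma aconv_gauss (r r' : ℕ) (u v : ℕ → GaussianInt) (k : ℕ) :
    aconv r r' u v k =
      ⟨aconv r r' (fun i => (u i).re) (fun i => (v i).re) k -
        aconv r r' (fun i => (u i).im) (fun i => (v i).im) k,
      aconv r r' (fun i => (u i).re) (fun i => (v i).im) k +
        aconv r r' (fun i => (u i).im) (fun i => (v i).re) k⟩ := by
  unfold aconv
  induction Finset.range r using Finset.induction_on with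
  | empty => rfl
  | insert i s hi ih =>
    simp only [Finset.sum_insert hi, ih]
    ext
    · split_ifs
      · simp [Zsqrtd.re_mul]; ring
      · simp
    · split_ifs
      · simp [Zsqrtd.im_mul]; ring
      · simp

lemma aconv_int (r r' : ℕ) (u v : ℕ → ℤ) (k : ℕ) :
    aconv r r' u v k =
      ((aconv r r' (fun i => (u i).toNat) (fun i => (v i).toNat) k : ℕ) : ℤ) -
        ((aconv r r' (fun i => (u i).toNat) (fun i => (-v i).toNat) k : ℕ) : ℤ) -
      (((aconv r r' (fun i => (-u i).toNat) (fun i => (v i).toNat) k : ℕ) : ℤ) -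
        ((aconv r r' (fun i => (-u i).toNat) (fun i => (-v i).toNat) k : ℕ) : ℤ)) := by
  unfold aconv
  push_cast
  simp only [← Finset.sum_sub_distrib]
  refine Finset.sum_congr rfl fun i _ => ?_
  split_ifs
  · conv_lhs => rw [← Int.toNat_sub_toNat_neg (u i), ← Int.toNat_sub_toNat_neg (v (k - i))]
    ring
  · simp

lemma sum_mul_sum_eq_aconv {R : Type} [CommSemiring R] (r r' : ℕ) (u v : ℕ → R) (b : R) :
    (∑ i ∈ Finset.range r, u i * b ^ i) * (∑ j ∈ Finset.range r', v j * b ^ j) =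
      ∑ k ∈ Finset.range (r + r'), aconv r r' u v k * b ^ k := by
  unfold aconv
  simp only [Finset.sum_mul]
  rw [Finset.sum_comm]
  refine Finset.sum_congr rfl fun i hi => ?_
  have hi' := Finset.mem_range.1 hi
  simp only [ite_mul, zero_mul]
  rw [← Finset.sum_filter, Finset.mul_sum]
  refine Finset.sum_nbij' (fun j => i + j) (fun k => k - i) (fun j hj => ?_) (fun k hk => ?_)
    (fun j _ => by simp) (fun k hk => ?_) (fun j _ => ?_)
  · simp only [Finset.mem_range, Finset.mem_filter] at hj ⊢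
    omega
  · simp only [Finset.mem_range, Finset.mem_filter] at hk ⊢
    omega
  · simp only [Finset.mem_range, Finset.mem_filter] at hk ⊢
    omega
  · simp only [Nat.add_sub_cancel_left]
    ring

lemma sum_digits_lt {b : ℕ} (K : ℕ) {c : ℕ → ℕ} (h : ∀ k, k < K → c k < b) :
    ∑ k ∈ Finset.range K, c k * b ^ k < b ^ K := by
  induction K with
  | zero => simp
  | succ K ih =>
    have h1 := ih fun k hk => h k (by omega)
    have h2 : (c K + 1) * b ^ K ≤ b * b ^ K := Nat.mul_le_mul_right _ (h K (by omega))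
    rw [Finset.sum_range_succ, pow_succ]
    nlinarith

lemma sum_digits_div_mod {b : ℕ} (hb : 0 < b) (i : ℕ) : ∀ (K : ℕ) {c : ℕ → ℕ},
    (∀ k, k < K → c k < b) → i < K → (∑ k ∈ Finset.range K, c k * b ^ k) / b ^ i % b = c i := by
  have e : ∀ (K : ℕ) (c : ℕ → ℕ), ∑ k ∈ Finset.range (K + 1), c k * b ^ k =
      c 0 + b * ∑ k ∈ Finset.range K, c (k + 1) * b ^ k := by
    intro K c
    rw [Finset.sum_range_succ', Finset.mul_sum, add_comm]
    simp only [pow_zero, mul_one]
    congr 1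
    exact Finset.sum_congr rfl fun k _ => by ring
  induction i with
  | zero =>
    intro K c h hi
    obtain ⟨K, rfl⟩ := Nat.exists_eq_succ_of_ne_zero hi.ne'
    rw [e, pow_zero, Nat.div_one, Nat.add_mul_mod_self_left, Nat.mod_eq_of_lt (h 0 hi)]
  | succ i ih =>
    intro K c h hi
    obtain ⟨K, rfl⟩ := Nat.exists_eq_succ_of_ne_zero (show K ≠ 0 by omega)
    rw [e, pow_succ', ← Nat.div_div_eq_div_mul, Nat.add_mul_div_left _ _ hb,
      Nat.div_eq_of_lt (h 0 (by omega)), zero_add]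
    exact ih K (c := fun k => c (k + 1)) (fun k hk => h _ (by omega)) (by omega)

lemma aconv_lt {r r' m : ℕ} {u v : ℕ → ℕ} (h₁ : ∀ i, i < r → u i < 2 ^ m)
    (h₂ : ∀ i, i < r' → v i < 2 ^ m) (k : ℕ) :
    aconv r r' u v k < 2 ^ (2 * m + r.size + 1) := by
  have h3 : aconv r r' u v k ≤ r * 2 ^ (2 * m) := by
    have := Finset.sum_le_card_nsmul (Finset.range r)
      (fun i => if i ≤ k ∧ k - i < r' then u i * v (k - i) else 0) (2 ^ (2 * m)) fun i hi => by
        split_ifs with h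
        · rw [two_mul, pow_add]
          exact Nat.mul_le_mul (h₁ i (Finset.mem_range.1 hi)).le (h₂ _ h.2).le
        · exact Nat.zero_le _
    simpa [aconv] using this
  have h4 := Nat.lt_size_self r
  have h5 : 0 < 2 ^ (2 * m) := by positivity
  calc _ ≤ r * 2 ^ (2 * m) := h3
    _ < 2 ^ r.size * 2 ^ (2 * m) := Nat.mul_lt_mul_of_pos_right h4 h5
    _ ≤ _ := by rw [← pow_add]; exact Nat.pow_le_pow_right (by norm_num) (by omega)

/-- Kronecker substitution for polynomials with natural coefficients. -/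
protected theorem CT.kronNat (hM : ∀ a, MulOK (cur a) (N a) (μ a)) {m r r' : A → ℕ}
    {u v : A → ℕ → ℕ} (hu : CT cur x (fun a => arr (r a) (u a)))
    (hv : CT cur x (fun a => arr (r' a) (v a))) (hm : CT cur x m)
    (hN : ∀ a, (r a + r' a) * (2 * m a + (r a).size + 1) ≤ N a)
    (h₁ : ∀ a i, i < r a → u a i < 2 ^ m a) (h₂ : ∀ a i, i < r' a → v a i < 2 ^ m a)
    (hB : Dom (fun a => (r a + r' a + 1) * (m a + (r a).size + 1) * μ a) B) :
    CT cur x (fun a => arr (r a + r' a) (aconv (r a) (r' a) (u a) (v a))) := by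
  have hr : CT cur x r := hu.length.congr fun a => by simp
  have hr' : CT cur x r' := hv.length.congr fun a => by simp
  set w : A → ℕ := fun a => 2 * m a + (r a).size + 1 with hw
  have hw' : CT cur x w := ((hm.const_mul 2).add hr.size).add (CT.const 1)
  have hB₀ : Dom (fun a => (r a + r' a + 1) * (m a + (r a).size + 1)) B :=
    hB.le_trans fun a => Nat.le_mul_of_pos_right _ (hM a).pos
  have hB₁ : Dom (fun a => (r a + r' a + 1) * (m a + w a + 1)) B :=
    (hB₀.const_mul 3).le_trans fun a => by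
      rw [mul_left_comm]
      exact Nat.mul_le_mul_left _ (by simp only [hw]; omega)
  have hP := CT.ofDigitsPow m hu hw' (fun a => Nat.succ_pos _) h₁
    (hB₁.le_trans fun a => Nat.mul_le_mul_right _ (by omega))
  have hQ := CT.ofDigitsPow m hv hw' (fun a => Nat.succ_pos _) h₂
    (hB₁.le_trans fun a => Nat.mul_le_mul_right _ (by omega))
  have hlt : ∀ a (K : ℕ) (c : ℕ → ℕ), K ≤ r a + r' a → (∀ i, i < K → c i < 2 ^ m a) →
      ∑ i ∈ Finset.range K, c i * 2 ^ (w a * i) < 2 ^ ((r a + r' a) * w a) := by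
    intro a K c hK h
    simp only [pow_mul 2 (w a)]
    refine (sum_digits_lt K fun i hi => (h i hi).trans_le
      (Nat.pow_le_pow_right (by norm_num) (by simp only [hw]; omega))).trans_le ?_
    rw [← pow_mul, mul_comm]
    exact Nat.pow_le_pow_right (by norm_num) (Nat.mul_le_mul_right _ hK)
  have hPQ := CT.mul hM (fun a => (r a + r' a) * w a) hP hQ hN
    (fun a => hlt a _ _ (Nat.le_add_right _ _) (h₁ a))
    (fun a => hlt a _ _ (Nat.le_add_left _ _) (h₂ a))
    ((hB.const_mul 2).le_trans fun a => by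
      rw [← mul_assoc]
      refine Nat.mul_le_mul_right _ ?_
      simp only [hw]
      nlinarith [Nat.zero_le ((r a + r' a) * (r a).size), Nat.zero_le (r a + r' a)])
  refine (hPQ.digitsPow (hr.add hr') hw'
    (hB₁.le_trans fun a => Nat.mul_le_mul_left _ (by omega))).congr
    fun a => arr_congr fun k hk => ?_
  simp only [pow_mul 2 (w a)]
  rw [sum_mul_sum_eq_aconv]
  exact (sum_digits_div_mod (by positivity) k _ (fun j _ => aconv_lt (h₁ a) (h₂ a) j) hk).symm

/-- Kronecker substitution for polynomials with integer coefficients. -/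
protected theorem CT.kronInt (hM : ∀ a, MulOK (cur a) (N a) (μ a)) {m r r' : A → ℕ}
    {u v : A → ℕ → ℤ} (hu : CT cur x (fun a => arr (r a) (u a)))
    (hv : CT cur x (fun a => arr (r' a) (v a))) (hm : CT cur x m)
    (hN : ∀ a, (r a + r' a) * (2 * m a + (r a).size + 1) ≤ N a)
    (h₁ : ∀ a i, i < r a → (u a i).natAbs < 2 ^ m a)
    (h₂ : ∀ a i, i < r' a → (v a i).natAbs < 2 ^ m a)
    (hB : Dom (fun a => (r a + r' a + 1) * (m a + (r a).size + 1) * μ a) B) :
    CT cur x (fun a => arr (r a + r' a) (aconv (r a) (r' a) (u a) (v a))) := by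
  have lp : LT (fun z : ℤ => z.toNat) := LT.intro fun _ h => h.toNat
  have ln : LT (fun z : ℤ => (-z).toNat) := LT.intro fun _ h => h.intNeg.toNat
  have up : ∀ a i, i < r a → (u a i).toNat < 2 ^ m a := fun a i hi =>
    lt_of_le_of_lt (by omega) (h₁ a i hi)
  have un : ∀ a i, i < r a → (-u a i).toNat < 2 ^ m a := fun a i hi =>
    lt_of_le_of_lt (by omega) (h₁ a i hi)
  have vp : ∀ a i, i < r' a → (v a i).toNat < 2 ^ m a := fun a i hi =>
    lt_of_le_of_lt (by omega) (h₂ a i hi)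
  have vn : ∀ a i, i < r' a → (-v a i).toNat < 2 ^ m a := fun a i hi =>
    lt_of_le_of_lt (by omega) (h₂ a i hi)
  have k1 := CT.kronNat hM (hu.arr_map_lt lp) (hv.arr_map_lt lp) hm hN up vp hB
  have k2 := CT.kronNat hM (hu.arr_map_lt lp) (hv.arr_map_lt ln) hm hN up vn hB
  have k3 := CT.kronNat hM (hu.arr_map_lt ln) (hv.arr_map_lt lp) hm hN un vp hB
  have k4 := CT.kronNat hM (hu.arr_map_lt ln) (hv.arr_map_lt ln) hm hN un vn hB
  refine (((k1.arr_zip k2).arr_zip (k3.arr_zip k4)).arr_map_lt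
    (f := fun p : (ℕ × ℕ) × ℕ × ℕ => (p.1.1 : ℤ) - (p.1.2 : ℤ) - ((p.2.1 : ℤ) - (p.2.2 : ℤ)))
    (LT.intro fun _ h => (h.fst.fst.natCast.intSub h.fst.snd.natCast).intSub
      (h.snd.fst.natCast.intSub h.snd.snd.natCast))).congr
    fun a => arr_congr fun k _ => ?_
  exact aconv_int _ _ _ _ _

/-- Polynomial multiplication by Kronecker substitution. -/
protected theorem CT.kron (hM : ∀ a, MulOK (cur a) (N a) (μ a)) {n r r' : A → ℕ}
    {u v : A → ℕ → GaussianInt} (hu : CT cur x (fun a => arr (r a) (u a)))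
    (hv : CT cur x (fun a => arr (r' a) (v a))) (hn : CT cur x n)
    (hN : ∀ a, (r a + r' a) * (2 * n a + (r a).size + 3) ≤ N a)
    (h₁ : ∀ a i, i < r a → ‖(u a i : ℂ)‖ ≤ 2 ^ n a)
    (h₂ : ∀ a i, i < r' a → ‖(v a i : ℂ)‖ ≤ 2 ^ n a)
    (hB : Dom (fun a => (r a + r' a + 1) * (n a + (r a).size + 1) * μ a) B) :
    CT cur x (fun a => arr (r a + r' a) (aconv (r a) (r' a) (u a) (v a))) := by
  have lre : LT (fun z : GaussianInt => z.re) := LT.intro fun _ h => h.gre
  have lim : LT (fun z : GaussianInt => z.im) := LT.intro fun _ h => h.gim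
  have ur := fun a i hi => natAbs_lt_of_abs_le (abs_re_le_of_norm_le (h₁ a i hi))
  have ui := fun a i hi => natAbs_lt_of_abs_le (abs_im_le_of_norm_le (h₁ a i hi))
  have vr := fun a i hi => natAbs_lt_of_abs_le (abs_re_le_of_norm_le (h₂ a i hi))
  have vi := fun a i hi => natAbs_lt_of_abs_le (abs_im_le_of_norm_le (h₂ a i hi))
  have hm := hn.add (CT.const 1)
  have hN' : ∀ a, (r a + r' a) * (2 * (n a + 1) + (r a).size + 1) ≤ N a := fun a =>
    le_of_eq_of_le (by ring) (hN a)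
  have hB' : Dom (fun a => (r a + r' a + 1) * (n a + 1 + (r a).size + 1) * μ a) B :=
    (hB.const_mul 2).le_trans fun a => by
      rw [← mul_assoc, mul_left_comm]
      exact Nat.mul_le_mul_right _ (Nat.mul_le_mul_left _ (by omega))
  have k1 := CT.kronInt hM (hu.arr_map_lt lre) (hv.arr_map_lt lre) hm hN' ur vr hB'
  have k2 := CT.kronInt hM (hu.arr_map_lt lim) (hv.arr_map_lt lim) hm hN' ui vi hB'
  have k3 := CT.kronInt hM (hu.arr_map_lt lre) (hv.arr_map_lt lim) hm hN' ur vi hB'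
  have k4 := CT.kronInt hM (hu.arr_map_lt lim) (hv.arr_map_lt lre) hm hN' ui vr hB'
  refine (((k1.arr_zip k2).arr_zip (k3.arr_zip k4)).arr_map_lt
    (f := fun p : (ℤ × ℤ) × ℤ × ℤ => (⟨p.1.1 - p.1.2, p.2.1 + p.2.2⟩ : GaussianInt))
    (LT.intro fun _ h => (h.fst.fst.intSub h.fst.snd).gmk (h.snd.fst.intAdd h.snd.snd))).congr
    fun a => arr_congr fun k _ => ?_
  exact aconv_gauss _ _ _ _ _

end Crest.Agent.Lib.LT
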