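import Crest.Agent.Lib.LT.List

/-!
Linear-time arithmetic on binary numbers.
-/

set_option autoImplicit false
set_option linter.dupNamespace false

namespace Crest.Agent.Lib.LT

open Crest.Agent.Lib.PT

variable {A α β : Type} [Enc α] [Enc β]
variable {cur : A → P} {B : A → ℕ} {x : In B}

section bitlemmas

lemma ofBits_append (l m : List Bool) :
    ofBits (l ++ m) = ofBits l + 2 ^ l.length * ofBits m := by
  induction l with
  | nil => simp
  | cons x l ih => simp [ih, Nat.bit_val, pow_succ]; ring

lemma ofBits_replicate_false (k : ℕ) : ofBits (List.replicate k false) = 0 := by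
  induction k with
  | zero => rfl
  | succ k ih => simp [List.replicate_succ, ih]

lemma ofBits_map_false {γ : Type} (l : List γ) : ofBits (l.map fun _ => false) = 0 := by
  rw [List.map_const', ofBits_replicate_false]

lemma bits_ofBits_concat_true (l : List Bool) : (ofBits (l ++ [true])).bits = l ++ [true] := by
  induction l with
  | nil => rfl
  | cons x l ih =>
    rw [List.cons_append, ofBits_cons, Nat.bits_append_bit, ih]
    intro h
    rw [ofBits_append_singleton] at h
    have : 0 < 2 ^ l.length := by positivity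
    simp at h

lemma bits_ofBits (l : List Bool) :
    (ofBits l).bits = (l.reverse.dropWhile (fun b => !b)).reverse := by
  induction l using List.reverseRecOn with
  | nil => rfl
  | append_singleton l b ih =>
    cases b
    · rw [ofBits_append_singleton]
      simpa using ih
    · rw [bits_ofBits_concat_true]
      simp

lemma ofBits_take_drop (l : List Bool) (k : ℕ) :
    ofBits (l.take k) = ofBits l % 2 ^ k ∧ ofBits (l.drop k) = ofBits l / 2 ^ k := by
  rcases le_total k l.length with h | h
  · have h1 := ofBits_append (l.take k) (l.drop k)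
    have h2 := ofBits_lt (l.take k)
    rw [List.take_append_drop] at h1
    rw [List.length_take, min_eq_left h] at h1 h2
    have hp : 0 < 2 ^ k := by positivity
    rw [h1, Nat.add_mul_mod_self_left, Nat.add_mul_div_left _ _ hp, Nat.mod_eq_of_lt h2,
      Nat.div_eq_of_lt h2, zero_add]
    exact ⟨rfl, rfl⟩
  · have h2 := (ofBits_lt l).trans_le (Nat.pow_le_pow_right (by norm_num) h)
    rw [List.take_of_length_le h, List.drop_of_length_le h, Nat.mod_eq_of_lt h2,
      Nat.div_eq_of_lt h2]
    exact ⟨rfl, rfl⟩

lemma ofBits_take (l : List Bool) (k : ℕ) : ofBits (l.take k) = ofBits l % 2 ^ k :=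
  (ofBits_take_drop l k).1

lemma ofBits_drop (l : List Bool) (k : ℕ) : ofBits (l.drop k) = ofBits l / 2 ^ k :=
  (ofBits_take_drop l k).2

lemma take_bits_append (k : ℕ) : ∀ n : ℕ,
    (n.bits ++ List.replicate k false).take k = arr k n.testBit := by
  induction k with
  | zero => intro n; simp
  | succ k ih =>
    intro n
    rw [arr_succ']
    induction n using Nat.binaryRec' with
    | zero => simp [List.replicate_succ, replicate_eq_arr]
    | bit b n h _ =>
      rw [Nat.bits_append_bit _ _ h, List.cons_append, List.take_succ_cons]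
      have e : (n.bits ++ List.replicate (k + 1) false).take k =
          (n.bits ++ List.replicate k false).take k := by
        rw [List.replicate_succ', ← List.append_assoc, List.take_append_of_le_length (by simp)]
      rw [e, ih]
      simp [Nat.testBit_bit_succ]

lemma ofBits_arr_testBit (k n : ℕ) : ofBits (arr k n.testBit) = n % 2 ^ k := by
  rw [← take_bits_append, ofBits_take, ofBits_append, ofBits_replicate_false, ofBits_bits]
  simp

/-- Full adder. -/
def addStep (p : Bool × Bool) (c : Bool) : Bool × Bool :=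
  (xor (xor p.1 p.2) c, (p.1 && p.2 || c && (p.1 || p.2)))

/-- Full subtractor. -/
def subStep (p : Bool × Bool) (c : Bool) : Bool × Bool :=
  (xor (xor p.1 p.2) c, (!p.1 && p.2 || c && (!p.1 || p.2)))

lemma mapAcc_nil' {α σ β : Type} (f : α → σ → β × σ) (s : σ) : mapAcc f [] s = ([], s) := rfl

lemma mapAcc_cons' {α σ β : Type} (f : α → σ → β × σ) (e : α) (l : List α) (s : σ) :
    mapAcc f (e :: l) s = ((f e s).1 :: (mapAcc f l (f e s).2).1, (mapAcc f l (f e s).2).2) := rfl

lemma mapAcc_addStep (L : List (Bool × Bool)) : ∀ c : Bool,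
    ofBits ((mapAcc addStep L c).1 ++ [(mapAcc addStep L c).2]) =
      ofBits (L.map Prod.fst) + ofBits (L.map Prod.snd) + c.toNat := by
  induction L with
  | nil => intro c; cases c <;> rfl
  | cons p L ih =>
    intro c
    obtain ⟨p, q⟩ := p
    rw [mapAcc_cons', List.cons_append, ofBits_cons, ih]
    cases p <;> cases q <;> cases c <;> simp [addStep, Nat.bit_val] <;> omega

lemma mapAcc_subStep (L : List (Bool × Bool)) : ∀ c : Bool,
    (mapAcc subStep L c).1.length = L.length ∧
    ofBits (mapAcc subStep L c).1 + ofBits (L.map Prod.snd) + c.toNat =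
      ofBits (L.map Prod.fst) + 2 ^ L.length * (mapAcc subStep L c).2.toNat := by
  induction L with
  | nil => intro c; cases c <;> exact ⟨rfl, rfl⟩
  | cons p L ih =>
    intro c
    obtain ⟨p, q⟩ := p
    obtain ⟨h1, h2⟩ := ih (subStep (p, q) c).2
    rw [mapAcc_cons']
    refine ⟨by simp [h1], ?_⟩
    simp only [ofBits_cons, List.map_cons, List.length_cons, Nat.bit_val, pow_succ]
    generalize (mapAcc subStep L (subStep (p, q) c).2) = r at h2 ⊢
    generalize 2 ^ L.length = t at h2 ⊢
    have e : t * 2 * r.2.toNat = 2 * (t * r.2.toNat) := by ring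
    rw [e]
    cases p <;> cases q <;> cases c <;> simp [subStep] at h2 ⊢ <;> omega

/-- Both numbers, padded to the same length, as a list of pairs of bits. -/
def padZip (m n : ℕ) : List (Bool × Bool) :=
  (m.bits ++ n.bits.map fun _ => false).zip (n.bits ++ m.bits.map fun _ => false)

lemma padZip_fst (m n : ℕ) : ofBits ((padZip m n).map Prod.fst) = m := by
  rw [padZip, List.map_fst_zip (by simp; omega), ofBits_append, ofBits_map_false, ofBits_bits]
  simp

lemma padZip_snd (m n : ℕ) : ofBits ((padZip m n).map Prod.snd) = n := by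
  rw [padZip, List.map_snd_zip (by simp; omega), ofBits_append, ofBits_map_false, ofBits_bits]
  simp

lemma subStep_padZip (m n : ℕ) :
    (mapAcc subStep (padZip m n) false).2 = decide (m < n) ∧
    (n ≤ m → ofBits (mapAcc subStep (padZip m n) false).1 = m - n) := by
  obtain ⟨h1, h2⟩ := mapAcc_subStep (padZip m n) false
  have h3 := ofBits_lt (mapAcc subStep (padZip m n) false).1
  rw [padZip_fst, padZip_snd] at h2
  rw [h1] at h3
  generalize (mapAcc subStep (padZip m n) false) = r at h2 h3 ⊢
  generalize 2 ^ (padZip m n).length = t at h2 h3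
  obtain ⟨r, b⟩ := r
  cases b <;> simp at h2 h3 ⊢ <;> omega

/-- Halving a unary number. -/
def halfStep (_ : Unit) (s : Bool) : Option Unit × Bool := (cond s (some ()) none, !s)

lemma mapAcc_halfStep (m : ℕ) : ∀ s : Bool,
    (mapAcc halfStep (un m) s).1.reduceOption = un ((m + s.toNat) / 2) ∧
    (mapAcc halfStep (un m) s).2 = (m + s.toNat).bodd := by
  induction m with
  | zero => intro s; cases s <;> exact ⟨rfl, rfl⟩
  | succ m ih =>
    intro s
    have e : un (m + 1) = () :: un m := rfl
    obtain ⟨h1, h2⟩ := ih (!s)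
    rw [e, mapAcc_cons']
    cases s
    · simp only [halfStep, Bool.not_false, cond_false, List.reduceOption_cons_of_none] at h1 h2 ⊢
      exact ⟨h1, h2⟩
    · simp only [halfStep, Bool.not_true, cond_true, List.reduceOption_cons_of_some] at h1 h2 ⊢
      refine ⟨?_, ?_⟩
      · rw [h1, show (m + 1 + true.toNat) / 2 = (m + false.toNat) / 2 + 1 by simp; omega]
        rfl
      · rw [h2]; simp

lemma sum_div_two_pow_le (n N : ℕ) :
    ∑ i ∈ Finset.range N, n / 2 ^ i + 2 * (n / 2 ^ N) ≤ 2 * n := by
  induction N with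
  | zero => simp
  | succ N ih =>
    rw [Finset.sum_range_succ, pow_succ, ← Nat.div_div_eq_div_mul]
    omega

lemma size_sq_le (n : ℕ) : (n.size + 1) * (n.size + 1) ≤ 4 * n + 1 := by
  rcases Nat.eq_zero_or_pos n with rfl | hn
  · simp
  · have hs : 0 < n.size := Nat.size_pos.2 hn
    obtain ⟨s, hs'⟩ : ∃ s, n.size = s + 1 := ⟨n.size - 1, by omega⟩
    have h1 : 2 ^ s ≤ n := Nat.lt_size.1 (by omega)
    have h2 : ∀ s : ℕ, (s + 2) * (s + 2) ≤ 4 * 2 ^ s + 1 := by
      intro s
      induction s with
      | zero => simp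
      | succ s ih =>
        rcases Nat.lt_or_ge s 1 with h | h
        · interval_cases s; norm_num
        · rw [pow_succ]; nlinarith
    rw [hs']
    exact (h2 s).trans (by omega)

end bitlemmas

section nat
variable {m n k : A → ℕ}

@[fun_prop] protected theorem CT.bits (hn : CT cur x n) : CT cur x (fun a => (n a).bits) :=
  hn.of_enc fun _ => rfl

@[fun_prop] protected theorem CT.ofBits {l : A → List Bool} (hl : CT cur x l) :
    CT cur x (fun a => ofBits (l a)) := by
  refine ((hl.reverse.dropWhile_lt (LT.of_finite fun b : Bool => !b)).reverse).of_enc fun a => ?_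
  rw [enc_nat, bits_ofBits]

protected theorem CT.padZip (hm : CT cur x m) (hn : CT cur x n) :
    CT cur x (fun a => padZip (m a) (n a)) :=
  (hm.bits.append (hn.bits.map_lt (LT.of_finite fun _ => false))).zip
    (hn.bits.append (hm.bits.map_lt (LT.of_finite fun _ => false)))

@[fun_prop] protected theorem CT.add (hm : CT cur x m) (hn : CT cur x n) :
    CT cur x (fun a => m a + n a) := by
  have h := (hm.padZip hn).mapAcc_fin (f := addStep) (LT.of_finite _) (CT.const false)
  refine (h.fst.append (h.snd.cons (CT.const []))).ofBits.congr fun a => ?_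
  rw [mapAcc_addStep, padZip_fst, padZip_snd]
  rfl

@[fun_prop] protected theorem CT.sub (hm : CT cur x m) (hn : CT cur x n) :
    CT cur x (fun a => m a - n a) := by
  have h := (hm.padZip hn).mapAcc_fin (f := subStep) (LT.of_finite _) (CT.const false)
  refine (h.snd.cond (CT.const 0) h.fst.ofBits).congr fun a => ?_
  obtain ⟨h1, h2⟩ := subStep_padZip (m a) (n a)
  rw [h1]
  by_cases h3 : m a < n a
  · simp [h3]; omega
  · simp [h3, h2 (not_lt.1 h3)]

@[fun_prop] protected theorem CT.decide_lt [∀ a, Decidable (m a < n a)] (hm : CT cur x m)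
    (hn : CT cur x n) : CT cur x (fun a => decide (m a < n a)) := by
  have h := (hm.padZip hn).mapAcc_fin (f := subStep) (LT.of_finite _) (CT.const false)
  refine h.snd.congr fun a => ?_
  rw [(subStep_padZip (m a) (n a)).1]
  congr

@[fun_prop] protected theorem CT.decide_le [∀ a, Decidable (m a ≤ n a)] (hm : CT cur x m)
    (hn : CT cur x n) : CT cur x (fun a => decide (m a ≤ n a)) := by
  refine (hn.decide_lt hm).not.congr fun a => ?_
  by_cases h : m a ≤ n a <;> simp [h]
  omega

@[fun_prop] protected theorem CT.decide_eq [∀ a, Decidable (m a = n a)] (hm : CT cur x m)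
    (hn : CT cur x n) : CT cur x (fun a => decide (m a = n a)) := by
  refine ((hm.decide_le hn).and (hn.decide_le hm)).congr fun a => ?_
  by_cases h : m a = n a <;> simp [h]
  omega

@[fun_prop] protected theorem CT.max (hm : CT cur x m) (hn : CT cur x n) :
    CT cur x (fun a => max (m a) (n a)) := by
  exact ((hm.decide_le hn).ite hn hm).congr fun a => max_def _ _

@[fun_prop] protected theorem CT.min (hm : CT cur x m) (hn : CT cur x n) :
    CT cur x (fun a => min (m a) (n a)) := by
  exact ((hm.decide_le hn).ite hm hn).congr fun a => min_def _ _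

@[fun_prop] protected theorem CT.bodd (hn : CT cur x n) : CT cur x (fun a => (n a).bodd) := by
  refine (hn.bits.headD (CT.const false)).congr fun a => ?_
  rw [Nat.bodd_eq_bits_head]
  cases (n a).bits <;> rfl

@[fun_prop] protected theorem CT.div2 (hn : CT cur x n) : CT cur x (fun a => (n a).div2) := by
  exact hn.bits.tail.of_enc fun a => by rw [enc_nat, Nat.div2_bits_eq_tail]

@[fun_prop] protected theorem CT.bit {b : A → Bool} (hb : CT cur x b) (hn : CT cur x n) :
    CT cur x (fun a => Nat.bit (b a) (n a)) := by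
  exact (hb.cons hn.bits).ofBits.congr fun a => by simp

protected theorem CT.const_mul (c : ℕ) (hn : CT cur x n) : CT cur x (fun a => c * n a) := by
  induction c with
  | zero => exact (CT.const 0).congr fun a => by simp
  | succ c ih => exact (ih.add hn).congr fun a => by ring

protected theorem CT.mul_two_pow (hn : CT cur x n) (hk : CT cur x k) (hB : Dom k B) :
    CT cur x (fun a => n a * 2 ^ k a) := by
  have h := hk.replicate (CT.const false) (by simpa using hB.mul_const 5)
  refine (h.append hn.bits).ofBits.congr fun a => ?_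
  rw [ofBits_append, ofBits_replicate_false, ofBits_bits, List.length_replicate]
  ring

protected theorem CT.two_pow (hk : CT cur x k) (hB : Dom k B) : CT cur x (fun a => 2 ^ k a) := by
  simpa using (CT.const 1).mul_two_pow hk hB

protected theorem CT.div_two_pow (hn : CT cur x n) (hk : CT cur x k) (hB : Dom k B) :
    CT cur x (fun a => n a / 2 ^ k a) := by
  exact (hk.drop hB hn.bits).ofBits.congr fun a => by rw [ofBits_drop, ofBits_bits]

protected theorem CT.mod_two_pow (hn : CT cur x n) (hk : CT cur x k) (hB : Dom k B) :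
    CT cur x (fun a => n a % 2 ^ k a) := by
  exact (hk.take hB hn.bits).ofBits.congr fun a => by rw [ofBits_take, ofBits_bits]

/-- The length of a list, in binary, in linear time. -/
@[fun_prop] protected theorem CT.length {l : A → List β} (hl : CT cur x l) :
    CT cur x (fun a => (l a).length) := by
  have hlen : Dom (fun a => (l a).length) B := hl.dom_sz.le_trans fun a => length_le_sz _
  have h := CT.while (N := fun a => (l a).length.size)
    (st := fun a i => (un ((l a).length / 2 ^ i), arr i (l a).length.testBit))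
    (cur := cur) (x := x) ((hl.unLen.pair (CT.const ([] : List Bool))).congr fun a => by simp)
    (fun a i => (l a).length / 2 ^ i + ((l a).length.size + 1))
    ⟨6, fun q => by
      have := q.lt
      simp only [sz_pair, sz_un, sz_boolList, length_arr]
      omega⟩
    (fun x' h => h.fst.isEmpty.not.congr fun q => by
      by_cases h : q.i < (l q.a).length.size
      · have h1 : 2 ^ q.i ≤ (l q.a).length := Nat.lt_size.1 h
        have h2 : 0 < (l q.a).length / 2 ^ q.i := Nat.div_pos h1 (by positivity)
        obtain ⟨t, ht⟩ : ∃ t, (l q.a).length / 2 ^ q.i = t + 1 := ⟨_, (Nat.succ_pred_eq_of_pos h2).symm⟩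
        simp [h, ht, un]
      · have h1 : (l q.a).length < 2 ^ q.i := Nat.size_le.1 (not_lt.1 h)
        simp [h, Nat.div_eq_of_lt h1, un])
    (fun x' h => by
      have h1 := h.fst.mapAcc_fin (f := halfStep) (LT.of_finite _) (CT.const false)
      refine (h1.fst.reduceOption.pair (h.snd.append (h1.snd.cons (CT.const [])))).congr
        fun q => ?_
      obtain ⟨h2, h3⟩ := mapAcc_halfStep ((l q.a).length / 2 ^ q.i) false
      simp only [h2, h3, arr_succ, Bool.toNat_false, add_zero, pow_succ, Nat.div_div_eq_div_mul]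
      congr 3
      rw [Nat.testBit_eq_decide_div_mod_eq, Nat.mod_two_of_bodd]
      cases ((l q.a).length / 2 ^ q.i).bodd <;> rfl)
    (((hlen.const_mul 6).add (Dom.const 1 x.pos)).le_trans fun a => by
      have h1 := sum_div_two_pow_le (l a).length ((l a).length.size + 1)
      have h2 := size_sq_le (l a).length
      rw [Finset.sum_add_distrib, Finset.sum_const, Finset.card_range, smul_eq_mul]
      omega)
  refine h.snd.ofBits.congr fun a => ?_
  rw [ofBits_arr_testBit, Nat.mod_eq_of_lt (Nat.lt_size_self _)]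

@[fun_prop] protected theorem CT.size (hn : CT cur x n) : CT cur x (fun a => (n a).size) := by
  simpa only [Nat.size_eq_bits_len] using hn.bits.length

/-- The lowest `k` bits. -/
protected theorem CT.fixBits (hn : CT cur x n) (hk : CT cur x k) (hB : Dom k B) :
    CT cur x (fun a => arr (k a) (n a).testBit) := by
  have h := hk.replicate (CT.const false) (by simpa using hB.mul_const 5)
  exact (hk.take hB (hn.bits.append h)).congr fun a => (take_bits_append _ _).symm

/-- Reduction modulo `2 ^ k - 1` of a number with at most `c * k` bits. -/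
protected theorem CT.mod_mersenne (c : ℕ) (hn : CT cur x n) (hk : CT cur x k) (hB : Dom k B)
    (h2 : ∀ a, 2 ≤ k a) (h : ∀ a, n a < 2 ^ (c * k a)) :
    CT cur x (fun a => n a % (2 ^ k a - 1)) := by
  induction c generalizing n with
  | zero =>
    refine (CT.const 0).congr fun a => ?_
    have := h a
    rw [show n a = 0 by simpa using this]
    simp
  | succ c ih =>
    have hq := ih (hn.div_two_pow hk hB) fun a => by
      rw [Nat.div_lt_iff_lt_mul (by positivity), ← pow_add]
      simpa [add_mul] using h a
    have ht := hq.add (hn.mod_two_pow hk hB)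
    have hM := (hk.two_pow hB).sub (CT.const 1)
    refine ((ht.decide_lt hM).ite ht (ht.sub hM)).congr fun a => ?_
    have h4 : 4 ≤ 2 ^ k a := by
      calc 4 = 2 ^ 2 := rfl
        _ ≤ _ := Nat.pow_le_pow_right (by norm_num) (h2 a)
    obtain ⟨M, hM⟩ : ∃ M, 2 ^ k a = M + 1 := ⟨2 ^ k a - 1, by omega⟩
    rw [hM, Nat.add_sub_cancel]
    have hM0 : 0 < M := by omega
    have e1 : n a % M = (n a / (M + 1) % M + n a % (M + 1)) % M := by
      conv_lhs => rw [← Nat.div_add_mod (n a) (M + 1)]
      rw [add_mul, one_mul, add_assoc, Nat.mul_add_mod, Nat.mod_add_mod]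
    have e2 : n a / (M + 1) % M < M := Nat.mod_lt _ hM0
    have e3 : n a % (M + 1) < M + 1 := Nat.mod_lt _ (by omega)
    rw [e1]
    generalize n a / (M + 1) % M = u at e2 ⊢
    generalize n a % (M + 1) = v at e3 ⊢
    split_ifs with h5
    · exact Nat.mod_eq_of_lt h5
    · rw [Nat.mod_eq_sub_mod (by omega), Nat.mod_eq_of_lt (by omega)]

/-- The lowest `k` digits in base `2 ^ m`. -/
protected theorem CT.digitsPow (hn : CT cur x n) (hk : CT cur x k) (hm : CT cur x m)
    (hB : Dom (fun a => (k a + 1) * (m a + 1)) B) :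
    CT cur x (fun a => arr (k a) (fun i => n a / 2 ^ (m a * i) % 2 ^ m a)) := by
  have h := (CT.chunks hk hm hB hn.bits).arr_map_lt (f := ofBits)
    (LT.intro fun x hx => hx.ofBits)
  refine h.congr fun a => arr_congr fun i _ => ?_
  rw [ofBits_take, ofBits_drop, ofBits_bits, mul_comm]

/-- Evaluation at `2 ^ m` of a polynomial with coefficients below `2 ^ w`. -/
protected theorem CT.ofDigitsPow {c : A → ℕ → ℕ} (w : A → ℕ)
    (hc : CT cur x (fun a => arr (k a) (c a))) (hm : CT cur x m) (hm0 : ∀ a, 0 < m a)
    (h : ∀ a i, i < k a → c a i < 2 ^ w a)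
    (hB : Dom (fun a => (k a + 1) * (w a + m a + 1)) B) :
    CT cur x (fun a => ∑ i ∈ Finset.range (k a), c a i * 2 ^ (m a * i)) := by
  obtain ⟨cr, hcr⟩ : ∃ cr : A → ℕ → ℕ, ∀ a i,
      cr a i = (∑ j ∈ Finset.range i, c a j * 2 ^ (m a * j)) / 2 ^ (m a * i) := ⟨_, fun _ _ => rfl⟩
  have h0 : ∀ a, cr a 0 = 0 := fun a => by simp [hcr]
  have hs : ∀ a i, cr a (i + 1) = (cr a i + c a i) / 2 ^ m a := fun a i => by
    rw [hcr, hcr, Finset.sum_range_succ, mul_add, mul_one, pow_add, ← Nat.div_div_eq_div_mul,
      Nat.add_mul_div_right _ _ (by positivity)]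
  have hlt : ∀ a i, i ≤ k a → cr a i < 2 ^ w a := fun a i => by
    induction i with
    | zero => intro _; rw [h0]; positivity
    | succ i ih =>
      intro hi
      have h1 := ih (by omega)
      have h2 := h a i (by omega)
      have h3 : 2 ≤ 2 ^ m a := by
        calc 2 = 2 ^ 1 := rfl
          _ ≤ _ := Nat.pow_le_pow_right (by norm_num) (hm0 a)
      rw [hs, Nat.div_lt_iff_lt_mul (by positivity)]
      nlinarith
  have hinv : ∀ a i,
      (arr i (fun j => arr (m a) (cr a j + c a j).testBit)).flatten.length = m a * i ∧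
      ofBits (arr i (fun j => arr (m a) (cr a j + c a j).testBit)).flatten +
        2 ^ (m a * i) * cr a i = ∑ j ∈ Finset.range i, c a j * 2 ^ (m a * j) := fun a i => by
    induction i with
    | zero => simp [h0]
    | succ i ih =>
      obtain ⟨h1, h2⟩ := ih
      rw [arr_succ, List.flatten_append, List.flatten_singleton, List.length_append, h1,
        length_arr, ofBits_append, h1, ofBits_arr_testBit, Finset.sum_range_succ, ← h2, hs,
        mul_add (m a), mul_one, pow_add]
      refine ⟨rfl, ?_⟩
      have h3 := Nat.div_add_mod (cr a i + c a i) (2 ^ m a)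
      generalize (cr a i + c a i) / 2 ^ m a = u at h3 ⊢
      generalize (cr a i + c a i) % 2 ^ m a = v at h3 ⊢
      have h4 : 2 ^ (m a * i) * (2 ^ m a * u + v) = 2 ^ (m a * i) * (cr a i + c a i) := by rw [h3]
      linarith
  have hsc := CT.scan (N := k) (el := c) (st := fun a i => (cr a i, m a))
    (out := fun a i => arr (m a) (cr a i + c a i).testBit) hc
    (((CT.const 0).pair hm).congr fun a => by rw [h0]) (fun a _ => w a + m a + 1)
    ⟨12, fun q => by
      have h1 := sz_nat_le_of_lt_two_pow (h q.a q.i q.lt)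
      have h2 := sz_nat_le_of_lt_two_pow (hlt q.a q.i q.lt.le)
      have h3 := sz_nat_le_self (m q.a)
      simp only [sz_pair]
      omega⟩
    (fun x' h₁ h₂ => by
      have hd : Dom (fun q : Ix k => m q.a) (fun q => w q.a + m q.a + 1) :=
        Dom.of_le fun q => by omega
      have ht := h₂.fst.add h₁
      exact ((ht.fixBits h₂.snd hd).pair ((ht.div_two_pow h₂.snd hd).pair h₂.snd)).congr
        fun q => by rw [hs])
    (hB.le_trans fun a => by
      rw [Finset.sum_const, Finset.card_range, smul_eq_mul]
      exact Nat.mul_le_mul_right _ (Nat.le_succ _))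
  refine (hsc.fst.flatten.append hsc.snd.fst.bits).ofBits.congr fun a => ?_
  obtain ⟨h1, h2⟩ := hinv a (k a)
  rw [ofBits_append, h1, ofBits_bits, h2]

end nat

section int
variable {y z : A → ℤ} {n k : A → ℕ}

/-- The sign. -/
protected theorem CT.int_neg_test (hz : CT cur x z) : CT cur x (fun a => decide (z a < 0)) :=
  (hz.of_enc (y := fun a => (decide (z a < 0), (z a).natAbs)) fun _ => rfl).fst

/-- The difference of two naturals as an integer. -/
protected theorem CT.subNatNat {m : A → ℕ} (hm : CT cur x m) (hn : CT cur x n) :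
    CT cur x (fun a => (m a : ℤ) - (n a : ℤ)) := by
  refine ((hm.decide_lt hn).pair ((hm.sub hn).add (hn.sub hm))).of_enc fun a => ?_
  show enc (decide ((m a : ℤ) - (n a : ℤ) < 0), ((m a : ℤ) - (n a : ℤ)).natAbs) = _
  congr 2
  · simp
  · omega

@[fun_prop] protected theorem CT.natCast (hn : CT cur x n) : CT cur x (fun a => (n a : ℤ)) := by
  exact (hn.subNatNat (CT.const 0)).congr fun a => by simp

@[fun_prop] protected theorem CT.natAbs (hz : CT cur x z) : CT cur x (fun a => (z a).natAbs) := by
  exact (hz.of_enc (y := fun a => (decide (z a < 0), (z a).natAbs)) fun _ => rfl).snd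

@[fun_prop] protected theorem CT.toNat (hz : CT cur x z) : CT cur x (fun a => (z a).toNat) := by
  refine (hz.int_neg_test.ite (CT.const 0) hz.natAbs).congr fun a => ?_
  split_ifs <;> omega

protected theorem CT.toNat_neg (hz : CT cur x z) : CT cur x (fun a => (-z a).toNat) := by
  refine (hz.int_neg_test.ite hz.natAbs (CT.const 0)).congr fun a => ?_
  split_ifs <;> omega

@[fun_prop] protected theorem CT.intNeg (hz : CT cur x z) : CT cur x (fun a => -z a) := by
  exact (hz.toNat_neg.subNatNat hz.toNat).congr fun a => by omega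

@[fun_prop] protected theorem CT.intAdd (hy : CT cur x y) (hz : CT cur x z) :
    CT cur x (fun a => y a + z a) := by
  exact ((hy.toNat.add hz.toNat).subNatNat (hy.toNat_neg.add hz.toNat_neg)).congr
    fun a => by omega

@[fun_prop] protected theorem CT.intSub (hy : CT cur x y) (hz : CT cur x z) :
    CT cur x (fun a => y a - z a) := by
  exact (hy.intAdd hz.intNeg).congr fun a => sub_eq_add_neg _ _

@[fun_prop] protected theorem CT.int_decide_lt [∀ a, Decidable (y a < z a)] (hy : CT cur x y)
    (hz : CT cur x z) : CT cur x (fun a => decide (y a < z a)) := by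
  exact (hy.intSub hz).int_neg_test.congr fun a => by simp

@[fun_prop] protected theorem CT.int_decide_le [∀ a, Decidable (y a ≤ z a)] (hy : CT cur x y)
    (hz : CT cur x z) : CT cur x (fun a => decide (y a ≤ z a)) := by
  refine (hz.int_decide_lt hy).not.congr fun a => ?_
  by_cases h : y a ≤ z a <;> simp [h]
  omega

protected theorem CT.int_mul_two_pow (hz : CT cur x z) (hk : CT cur x k) (hB : Dom k B) :
    CT cur x (fun a => z a * 2 ^ k a) := by
  refine ((hz.toNat.mul_two_pow hk hB).subNatNat (hz.toNat_neg.mul_two_pow hk hB)).congr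
    fun a => ?_
  push_cast
  rw [← sub_mul, Int.toNat_sub_toNat_neg]

/-- Floor division by a power of two. -/
protected theorem CT.int_div_two_pow (hz : CT cur x z) (hk : CT cur x k) (hB : Dom k B) :
    CT cur x (fun a => z a / 2 ^ k a) := by
  refine ((hz.toNat.div_two_pow hk hB).subNatNat
    ((hz.toNat_neg.add ((hk.two_pow hB).sub (CT.const 1))).div_two_pow hk hB)).congr fun a => ?_
  have hp : 0 < 2 ^ k a := by positivity
  have hc : (2 : ℤ) ^ k a = ((2 ^ k a : ℕ) : ℤ) := by push_cast; rfl
  rw [hc]
  generalize 2 ^ k a = M at hp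
  cases hza : z a with
  | ofNat t =>
    have e1 : (Int.ofNat t).toNat = t := rfl
    have e2 : (-Int.ofNat t).toNat = 0 := by simp
    rw [e1, e2, zero_add, Nat.div_eq_of_lt (show M - 1 < M by omega)]
    simp
  | negSucc t =>
    have e1 : (Int.negSucc t).toNat = 0 := rfl
    have e2 : (-Int.negSucc t).toNat = t + 1 := rfl
    rw [e1, e2, show t + 1 + (M - 1) = t + M by omega, Nat.add_div_right _ hp,
      Int.negSucc_ediv _ (by exact_mod_cast hp)]
    simp
    rfl

end int

section gauss

instance instEncGaussianInt : Enc GaussianInt :=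
  Enc.ofInj (fun z : GaussianInt => (z.re, z.im)) (by
    intro a b h
    simp only [Prod.mk.injEq] at h
    exact Zsqrtd.ext h.1 h.2)

lemma enc_gauss (z : GaussianInt) : enc z = enc (z.re, z.im) := rfl

lemma sz_gauss (z : GaussianInt) : sz z = sz z.re + sz z.im + 1 := rfl

lemma abs_re_le_of_norm_le {z : GaussianInt} {r : ℝ} (h : ‖(z : ℂ)‖ ≤ r) : |(z.re : ℝ)| ≤ r := by
  have := Complex.abs_re_le_norm (z : ℂ)
  rw [← GaussianInt.intCast_re] at this
  exact this.trans h

lemma abs_im_le_of_norm_le {z : GaussianInt} {r : ℝ} (h : ‖(z : ℂ)‖ ≤ r) : |(z.im : ℝ)| ≤ r := by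
  have := Complex.abs_im_le_norm (z : ℂ)
  rw [← GaussianInt.intCast_im] at this
  exact this.trans h

lemma natAbs_lt_of_abs_le {v : ℤ} {n : ℕ} (h : |(v : ℝ)| ≤ 2 ^ n) : v.natAbs < 2 ^ (n + 1) := by
  have h1 : ((v.natAbs : ℕ) : ℝ) ≤ 2 ^ n := by rwa [Nat.cast_natAbs, Int.cast_abs]
  have h2 : v.natAbs ≤ 2 ^ n := by exact_mod_cast h1
  have : 0 < 2 ^ n := by positivity
  rw [pow_succ]; omega

lemma sz_gauss_le {z : GaussianInt} {n : ℕ} (h : ‖(z : ℂ)‖ ≤ 2 ^ n) : sz z ≤ 12 * n + 27 := by
  have h1 := sz_nat_le_of_lt_two_pow (natAbs_lt_of_abs_le (abs_re_le_of_norm_le h))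
  have h2 := sz_nat_le_of_lt_two_pow (natAbs_lt_of_abs_le (abs_im_le_of_norm_le h))
  rw [sz_gauss, sz_int, sz_int]
  omega

variable {u v : A → GaussianInt} {k : A → ℕ}

@[fun_prop] protected theorem CT.gre (hu : CT cur x u) : CT cur x (fun a => (u a).re) :=
  (hu.of_enc (y := fun a => ((u a).re, (u a).im)) fun _ => rfl).fst

@[fun_prop] protected theorem CT.gim (hu : CT cur x u) : CT cur x (fun a => (u a).im) :=
  (hu.of_enc (y := fun a => ((u a).re, (u a).im)) fun _ => rfl).snd

@[fun_prop] protected theorem CT.gmk {y z : A → ℤ} (hy : CT cur x y) (hz : CT cur x z) :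
    CT cur x (fun a => (⟨y a, z a⟩ : GaussianInt)) := (hy.pair hz).of_enc fun _ => rfl

@[fun_prop] protected theorem CT.gadd (hu : CT cur x u) (hv : CT cur x v) :
    CT cur x (fun a => u a + v a) :=
  ((hu.gre.intAdd hv.gre).gmk (hu.gim.intAdd hv.gim)).congr fun _ => rfl

@[fun_prop] protected theorem CT.gneg (hu : CT cur x u) : CT cur x (fun a => -u a) :=
  (hu.gre.intNeg.gmk hu.gim.intNeg).congr fun _ => rfl

@[fun_prop] protected theorem CT.gsub (hu : CT cur x u) (hv : CT cur x v) :
    CT cur x (fun a => u a - v a) :=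
  (hu.gadd hv.gneg).congr fun _ => sub_eq_add_neg _ _

@[fun_prop] protected theorem CT.gstar (hu : CT cur x u) : CT cur x (fun a => star (u a)) :=
  (hu.gre.gmk hu.gim.intNeg).congr fun _ => rfl

/-- Componentwise floor division by `2 ^ k`. -/
def rshift (k : ℕ) (z : GaussianInt) : GaussianInt := ⟨z.re / 2 ^ k, z.im / 2 ^ k⟩

lemma norm_rshift_sub_le (k : ℕ) (z : GaussianInt) :
    ‖(rshift k z : ℂ) - (z : ℂ) / 2 ^ k‖ ≤ 2 := by
  have key : ∀ v : ℤ, |((v / 2 ^ k : ℤ) : ℝ) - (v : ℝ) / 2 ^ k| ≤ 1 := by
    intro v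
    have hp : (0 : ℤ) < 2 ^ k := by positivity
    have hp' : (0 : ℝ) < 2 ^ k := by positivity
    have h1 : (((2 ^ k * (v / 2 ^ k) + v % 2 ^ k : ℤ)) : ℝ) = v := by
      rw [Int.mul_ediv_add_emod]
    have h2 : ((0 : ℤ) : ℝ) ≤ ((v % 2 ^ k : ℤ) : ℝ) := by
      exact_mod_cast Int.emod_nonneg _ hp.ne'
    have h3 : ((v % 2 ^ k : ℤ) : ℝ) ≤ ((2 ^ k : ℤ) : ℝ) := by
      exact_mod_cast (Int.emod_lt_of_pos _ hp).le
    generalize v / 2 ^ k = q at h1 ⊢
    generalize v % 2 ^ k = r at h1 h2 h3
    push_cast at h1 h2 h3
    have e : (q : ℝ) - (v : ℝ) / 2 ^ k = -((r : ℝ) / 2 ^ k) := by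
      rw [← h1]; field_simp; ring
    rw [e, abs_neg, abs_of_nonneg (by positivity), div_le_one hp']
    exact h3
  have hc : (2 : ℂ) ^ k = (((2 : ℝ) ^ k : ℝ) : ℂ) := by push_cast; rfl
  refine (Complex.norm_le_abs_re_add_abs_im _).trans ?_
  rw [hc, Complex.sub_re, Complex.sub_im, Complex.div_ofReal_re, Complex.div_ofReal_im,
    ← GaussianInt.intCast_re, ← GaussianInt.intCast_im, ← GaussianInt.intCast_re,
    ← GaussianInt.intCast_im]
  have h1 := key z.re
  have h2 := key z.im
  simp only [rshift]
  linarith

protected theorem CT.rshift (hu : CT cur x u) (hk : CT cur x k) (hB : Dom k B) :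
    CT cur x (fun a => rshift (k a) (u a)) :=
  (hu.gre.int_div_two_pow hk hB).gmk (hu.gim.int_div_two_pow hk hB)

protected theorem CT.gmul_two_pow (hu : CT cur x u) (hk : CT cur x k) (hB : Dom k B) :
    CT cur x (fun a => u a * 2 ^ k a) := by
  refine ((hu.gre.int_mul_two_pow hk hB).gmk (hu.gim.int_mul_two_pow hk hB)).congr fun a => ?_
  have hc : (2 : GaussianInt) ^ k a = ((2 ^ k a : ℤ) : GaussianInt) := by push_cast; rfl
  rw [hc]
  generalize (2 : ℤ) ^ k a = M
  ext <;> simp

@[fun_prop] protected theorem PT.gre {α : Type} [Enc α] {u : α → GaussianInt} (hu : PT u) :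
    PT (fun a => (u a).re) := (hu.of_enc (f := fun a => ((u a).re, (u a).im)) fun _ => rfl).fst

@[fun_prop] protected theorem PT.gim {α : Type} [Enc α] {u : α → GaussianInt} (hu : PT u) :
    PT (fun a => (u a).im) := (hu.of_enc (f := fun a => ((u a).re, (u a).im)) fun _ => rfl).snd

@[fun_prop] protected theorem PT.gmk {α : Type} [Enc α] {y z : α → ℤ} (hy : PT y) (hz : PT z) :
    PT (fun a => (⟨y a, z a⟩ : GaussianInt)) := (hy.pair hz).of_enc fun _ => rfl

end gauss

end Crest.Agent.Lib.LT
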