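import Crest.Agent.Lib.LT.Lang
import Crest.Agent.Lib.PT.Compile
import Crest.Agent.Lib.PT.Basic

/-!
The primitive stack programs: embedding of the tree language `Prog`, reversal, scans, zip,
flatten, splitting, while loops, serialisation and parsing.
-/

set_option autoImplicit false

namespace Crest.Agent.Lib.LT

open Crest.Agent.Lib.PT

infixr:60 " ;; " => P.seq

/-- Split the top value of a stack (which is a `cons`). -/
def uncons (k : Stk) : P := .case k .skip .skip

lemma run_uncons (cur : P) {k : Stk} {S : St} {x y : D} {r : List D}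
    (h : S.get k = .cons x y :: r) : Run cur (uncons k) S (S.set k (x :: y :: r)) 2 :=
  Run.caseCons h (Run.skip _ _)

/-- Push a constant. -/
def pushD (k : Stk) : D → P
  | .nil => .nil k
  | .cons x y => pushD k y ;; pushD k x ;; .cons k

lemma St.set_set (S : St) (k : Stk) (l l' : List D) : (S.set k l).set k l' = S.set k l' := by
  cases k <;> rfl

lemma run_pushD (cur : P) (k : Stk) (d : D) :
    ∀ S : St, Run cur (pushD k d) S (S.set k (d :: S.get k)) d.size := by
  induction d with
  | nil => intro S; exact Run.nil cur k S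
  | cons x y ihx ihy =>
    intro S
    have h1 := ihy S
    have h2 := ihx (S.set k (y :: S.get k))
    rw [St.set_set, St.get_set_self] at h2
    have h3 := Run.cons cur (S := S.set k (x :: y :: S.get k)) (k := k) (St.get_set_self _ _ _)
    rw [St.set_set] at h3
    exact (h1.seq (h2.seq h3)).mono (by simp; omega)

/-! ### Embedding of the tree language -/

/-- The flag `true` for `loop`. -/
def tt : D := .cons .nil .nil

/-- The loop of a translated `while`. -/
def trLoop (c b : P) : P :=
  .loop .m (.drop .m ;; .drop .m ;; .dup .m ;; c ;;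
    .case .m (.nil .m) (.drop .m ;; .drop .m ;; b ;; pushD .m tt))

/-- Translation of tree programs. -/
def tr : Prog → P
  | .nil => .drop .m ;; .nil .m
  | .id => .skip
  | .car => .case .m (.nil .m) (.mv .m .a ;; .drop .m ;; .mv .a .m)
  | .cdr => .case .m (.nil .m) (.drop .m)
  | .cons p q => .dup .m ;; tr p ;; .mv .m .a ;; tr q ;; .mv .a .m ;; .cons .m
  | .comp p q => tr q ;; tr p
  | .ite c p q => .dup .m ;; tr c ;; .case .m (tr p) (.drop .m ;; .drop .m ;; tr q)
  | .loop c b => pushD .m tt ;; trLoop (tr c) (tr b)

/-- The overhead of the translation. -/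
def kost : Prog → ℕ
  | .nil => 2
  | .id => 1
  | .car => 3
  | .cdr => 2
  | .cons p q => kost p + kost q + 4
  | .comp p q => kost p + kost q
  | .ite c p q => kost c + kost p + kost q + 3
  | .loop c b => kost c + kost b + 11

lemma impl_tr_aux (cur : P) {p : Prog} {x y : D} {n : ℕ} (h : Eval p x y n) :
    Impl cur (tr p) x y (kost p * n) ∧ ∀ c b, p = .loop c b →
      ∀ ms as bs cs, Run cur (trLoop (tr c) (tr b))
        ⟨tt :: x :: ms, as, bs, cs⟩ ⟨y :: ms, as, bs, cs⟩ ((kost c + kost b + 8) * n) := by
  induction h with
  | nil x =>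
    refine ⟨fun m a b c => ?_, by simp⟩
    have := x.size_pos
    exact ((Run.drop cur (k := .m) rfl).seq (Run.nil cur .m _)).mono (by simp [kost]; omega)
  | id x =>
    refine ⟨fun m a b c => ?_, by simp⟩
    have := x.size_pos
    exact (Run.skip cur _).mono (by simp [kost]; omega)
  | car x =>
    refine ⟨fun m a b c => ?_, by simp⟩
    cases x with
    | nil => exact (Run.caseNil (k := .m) rfl (Run.nil cur .m _)).mono (by simp [kost])
    | cons u v =>
      exact (Run.caseCons (k := .m) rfl ((Run.mv cur (j := .m) (k := .a) rfl).seq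
        ((Run.drop cur (k := .m) rfl).seq (Run.mv cur (j := .a) (k := .m) rfl)))).mono
        (by simp [kost]; omega)
  | cdr x =>
    refine ⟨fun m a b c => ?_, by simp⟩
    cases x with
    | nil => exact (Run.caseNil (k := .m) rfl (Run.nil cur .m _)).mono (by simp [kost])
    | cons u v =>
      exact (Run.caseCons (k := .m) rfl (Run.drop cur (k := .m) rfl)).mono
        (by simp [kost]; omega)
  | @cons p q x u v m n h1 h2 ih1 ih2 =>
    refine ⟨fun ms as bs cs => ?_, by simp⟩
    have a1 := h1.size_in_le
    have a2 := h1.size_out_le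
    refine ((Run.dup cur (k := .m) rfl).seq ((ih1.1 _ _ _ _).seq
      ((Run.mv cur (j := .m) (k := .a) rfl).seq ((ih2.1 _ _ _ _).seq
      ((Run.mv cur (j := .a) (k := .m) rfl).seq (Run.cons cur (k := .m) rfl)))))).mono ?_
    simp only [kost]
    nlinarith [Nat.zero_le (kost p * n), Nat.zero_le (kost q * m)]
  | @comp p q x y z m n h1 h2 ih1 ih2 =>
    refine ⟨(ih1.1.seq ih2.1).mono ?_, by simp⟩
    simp only [kost]
    nlinarith [Nat.zero_le (kost p * m), Nat.zero_le (kost q * n)]
  | @iteNil c p q x y m n h1 h2 ih1 ih2 =>
    refine ⟨fun ms as bs cs => ?_, by simp⟩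
    have a1 := h1.size_in_le
    have a2 := h1.pos
    refine ((Run.dup cur (k := .m) rfl).seq ((ih1.1 _ _ _ _).seq
      (Run.caseNil (k := .m) rfl (ih2.1 _ _ _ _)))).mono ?_
    simp only [kost]
    nlinarith [Nat.zero_le (kost p * m), Nat.zero_le (kost q * n), Nat.zero_le (kost c * n),
      Nat.zero_le (kost q * m)]
  | @iteCons c p q x u v y m n h1 h2 ih1 ih2 =>
    refine ⟨fun ms as bs cs => ?_, by simp⟩
    have a1 := h1.size_in_le
    have a2 := h1.size_out_le
    simp only [D.size_cons] at a2
    refine ((Run.dup cur (k := .m) rfl).seq ((ih1.1 _ _ _ _).seq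
      (Run.caseCons (k := .m) rfl ((Run.drop cur (k := .m) rfl).seq
        ((Run.drop cur (k := .m) rfl).seq (ih2.1 _ _ _ _)))))).mono ?_
    simp only [kost]
    nlinarith [Nat.zero_le (kost p * m), Nat.zero_le (kost p * n), Nat.zero_le (kost c * n),
      Nat.zero_le (kost q * m)]
  | @loopNil c b x m h1 ih1 =>
    have a1 := h1.size_in_le
    have a2 := h1.pos
    have key : ∀ ms as bs cs, Run cur (trLoop (tr c) (tr b))
        ⟨tt :: x :: ms, as, bs, cs⟩ ⟨x :: ms, as, bs, cs⟩ ((kost c + kost b + 8) * m) := by
      intro ms as bs cs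
      refine Run.mono (Run.loopCons (k := .m) rfl ((Run.drop cur (k := .m) rfl).seq
        ((Run.drop cur (k := .m) rfl).seq ((Run.dup cur (k := .m) rfl).seq ((ih1.1 _ _ _ _).seq
        (Run.caseNil (k := .m) rfl (Run.nil cur .m _)))))) (Run.loopNil cur (k := .m) rfl)) ?_
      simp only [D.size_nil]
      nlinarith [Nat.zero_le (kost b * m)]
    refine ⟨fun ms as bs cs => ?_, ?_⟩
    · refine ((run_pushD cur .m tt _).seq (key _ _ _ _)).mono ?_
      simp only [kost, tt, D.size_cons, D.size_nil]
      nlinarith
    · intro c' b' e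
      obtain ⟨rfl, rfl⟩ := Prog.loop.inj e
      exact key
  | @loopCons c b x u v y z m n k h1 h2 h3 ih1 ih2 ih3 =>
    have a1 := h1.size_in_le
    have a2 := h1.size_out_le
    have a3 := h2.pos
    simp only [D.size_cons] at a2
    have key : ∀ ms as bs cs, Run cur (trLoop (tr c) (tr b))
        ⟨tt :: x :: ms, as, bs, cs⟩ ⟨z :: ms, as, bs, cs⟩
        ((kost c + kost b + 8) * (m + n + k)) := by
      intro ms as bs cs
      refine Run.mono (Run.loopCons (k := .m) rfl ((Run.drop cur (k := .m) rfl).seq
        ((Run.drop cur (k := .m) rfl).seq ((Run.dup cur (k := .m) rfl).seq ((ih1.1 _ _ _ _).seq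
        (Run.caseCons (k := .m) rfl ((Run.drop cur (k := .m) rfl).seq
        ((Run.drop cur (k := .m) rfl).seq ((ih2.1 _ _ _ _).seq (run_pushD cur .m tt _)))))))))
        (ih3.2 c b rfl _ _ _ _)) ?_
      simp only [tt, D.size_cons, D.size_nil]
      nlinarith [Nat.zero_le (kost b * m), Nat.zero_le (kost c * n)]
    refine ⟨fun ms as bs cs => ?_, ?_⟩
    · refine ((run_pushD cur .m tt _).seq (key _ _ _ _)).mono ?_
      simp only [kost, tt, D.size_cons, D.size_nil]
      nlinarith
    · intro c' b' e
      obtain ⟨rfl, rfl⟩ := Prog.loop.inj e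
      exact key

lemma impl_tr (cur : P) {p : Prog} {x y : D} {n : ℕ} (h : EvalLe p x y n) :
    Impl cur (tr p) x y (kost p * n) := by
  obtain ⟨m, hm, h⟩ := h
  exact (impl_tr_aux cur h).1.mono (Nat.mul_le_mul_left _ hm)

/-! ### Reversal -/

/-- Pour the list on top of `b` onto the list on top of `m`. -/
def pour : P := .loop .b (.mv .b .m ;; .cons .m)

lemma run_pour (cur : P) (l : List D) : ∀ (acc : List D) (ms as bs cs : List D),
    Run cur pour ⟨D.ofList acc :: ms, as, D.ofList l :: bs, cs⟩
      ⟨D.ofList (l.reverse ++ acc) :: ms, as, bs, cs⟩ (2 * (D.ofList l).size) := by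
  induction l with
  | nil => intro acc ms as bs cs; exact (Run.loopNil cur (k := .b) rfl).mono (by simp)
  | cons x l ih =>
    intro acc ms as bs cs
    have := ih (x :: acc) ms as bs cs
    simp only [List.reverse_cons, List.append_assoc, List.singleton_append]
    have hx := x.size_pos
    exact Run.mono (Run.loopCons (k := .b) rfl ((Run.mv cur (j := .b) (k := .m) rfl).seq
      (Run.cons cur (k := .m) rfl)) this) (by simp; omega)

/-- Put the reversal of the list on top of `b` onto `m`. -/
def revB : P := .nil .m ;; pour

lemma size_ofList_reverse (l : List D) : (D.ofList l.reverse).size = (D.ofList l).size := by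
  simp [D.size_ofList, List.sum_reverse]

lemma size_ofList_append (l m : List D) :
    (D.ofList (l ++ m)).size + 1 = (D.ofList l).size + (D.ofList m).size := by
  simp [D.size_ofList]; omega

lemma run_revB (cur : P) (l : List D) (ms as bs cs : List D) :
    Run cur revB ⟨ms, as, D.ofList l.reverse :: bs, cs⟩ ⟨D.ofList l :: ms, as, bs, cs⟩
      (3 * (D.ofList l).size) := by
  have := run_pour cur l.reverse [] ms as bs cs
  rw [size_ofList_reverse] at this
  simp only [List.reverse_reverse, List.append_nil] at this
  have h0 := (D.ofList l).size_pos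
  exact ((Run.nil cur .m _).seq this).mono (by omega)

/-- Reversal. -/
def pRev : P := .mv .m .b ;; revB

lemma impl_rev (cur : P) (l : List D) :
    Impl cur pRev (D.ofList l) (D.ofList l.reverse) (4 * (D.ofList l).size) := by
  intro ms as bs cs
  have := run_revB cur l.reverse ms as bs cs
  rw [List.reverse_reverse, size_ofList_reverse] at this
  exact ((Run.mv cur (j := .m) (k := .b) rfl).seq this).mono (by omega)

/-! ### Scan -/

/-- The loop of a scan. -/
def scanLoop (p : P) : P :=
  .loop .a (.mv .a .m ;; .cons .m ;; p ;; uncons .m ;; .mv .m .b ;; .cons .b)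

lemma run_scanLoop (cur p : P) (l : List D) : ∀ (st out : ℕ → D) (t : ℕ → ℕ)
    (_ : ∀ i (h : i < l.length), Impl cur p (.cons l[i] (st i)) (.cons (out i) (st (i + 1))) (t i))
    (acc ms as bs cs : List D),
    Run cur (scanLoop p) ⟨st 0 :: ms, D.ofList l :: as, D.ofList acc :: bs, cs⟩
      ⟨st l.length :: ms, as, D.ofList (((List.range l.length).map out).reverse ++ acc) :: bs, cs⟩
      ((D.ofList l).size + ∑ i ∈ Finset.range l.length, (t i + (out i).size + 4)) := by
  induction l with
  | nil => intro st out t _ acc ms as bs cs; exact (Run.loopNil cur (k := .a) rfl).mono (by simp)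
  | cons x l ih =>
    intro st out t h acc ms as bs cs
    have h0 := h 0 (by simp)
    have := ih (fun i => st (i + 1)) (fun i => out (i + 1)) (fun i => t (i + 1))
      (fun i hi => h (i + 1) (by simpa using hi)) (out 0 :: acc) ms as bs cs
    have e : ((List.range (x :: l).length).map out).reverse ++ acc =
        ((List.range l.length).map fun i => out (i + 1)).reverse ++ out 0 :: acc := by
      simp [List.range_succ_eq_map, Function.comp_def]
    rw [e]
    refine Run.mono (Run.loopCons (k := .a) rfl ((Run.mv cur (j := .a) (k := .m) rfl).seq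
      ((Run.cons cur (k := .m) rfl).seq ((h0 _ _ _ _).seq ((run_uncons cur (k := .m) rfl).seq
      ((Run.mv cur (j := .m) (k := .b) rfl).seq (Run.cons cur (k := .b) rfl)))))) this) ?_
    simp only [List.length_cons, Finset.sum_range_succ', D.ofList_cons, D.size_cons]
    omega

/-- Scan: maps `(l, s₀)` to `(outputs, final state)`. -/
def pScan (p : P) : P :=
  uncons .m ;; .mv .m .a ;; .nil .b ;; scanLoop p ;; revB ;; .cons .m

lemma size_ofList_range (n : ℕ) (out : ℕ → D) :
    (D.ofList ((List.range n).map out)).size = ∑ i ∈ Finset.range n, ((out i).size + 1) + 1 := by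
  induction n with
  | zero => simp
  | succ n ih =>
    have := size_ofList_append ((List.range n).map out) [out n]
    simp only [List.range_succ, List.map_append, List.map_cons, List.map_nil,
      Finset.sum_range_succ]
    simp at this
    omega

lemma impl_scan (cur p : P) (l : List D) (st out : ℕ → D) (t : ℕ → ℕ)
    (h : ∀ i (h : i < l.length), Impl cur p (.cons l[i] (st i)) (.cons (out i) (st (i + 1))) (t i)) :
    Impl cur (pScan p) (.cons (D.ofList l) (st 0))
      (.cons (D.ofList ((List.range l.length).map out)) (st l.length))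
      (2 * (D.ofList l).size + 7 + ∑ i ∈ Finset.range l.length, (t i + 4 * (out i).size + 7)) := by
  intro ms as bs cs
  have h1 := run_scanLoop cur p l st out t h [] ms as bs cs
  rw [List.append_nil] at h1
  refine ((run_uncons cur (k := .m) rfl).seq ((Run.mv cur (j := .m) (k := .a) rfl).seq
    ((Run.nil cur .b _).seq (h1.seq ((run_revB cur _ _ _ _ _).seq
    (Run.cons cur (k := .m) rfl)))))).mono ?_
  rw [size_ofList_range]
  simp only [Finset.sum_add_distrib, ← Finset.mul_sum, Finset.sum_const, Finset.card_range,
    smul_eq_mul]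
  omega

/-! ### Zip -/

/-- One step of `zip`. -/
def zipLoop : P :=
  .loop .a (.case .c (.drop .a ;; .drop .a ;; .nil .a ;; .nil .c)
    (.mv .c .m ;; .mv .a .m ;; .cons .m ;; .mv .m .b ;; .cons .b))

lemma run_zipLoop (cur : P) (l : List D) : ∀ (l' acc ms as bs cs : List D), ∃ r : D,
    r.size ≤ (D.ofList l').size ∧
    Run cur zipLoop ⟨ms, D.ofList l :: as, D.ofList acc :: bs, D.ofList l' :: cs⟩
      ⟨ms, as, D.ofList ((List.zipWith D.cons l l').reverse ++ acc) :: bs, r :: cs⟩
      (5 * (D.ofList l).size + 2 * (D.ofList l').size) := by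
  induction l with
  | nil =>
    intro l' acc ms as bs cs
    exact ⟨_, le_rfl, (Run.loopNil cur (k := .a) rfl).mono (by simp; omega)⟩
  | cons x l ih =>
    intro l' acc ms as bs cs
    have hx := x.size_pos
    cases l' with
    | nil =>
      refine ⟨.nil, le_rfl, Run.mono (Run.loopCons (k := .a) rfl (Run.caseNil (k := .c) rfl
        ((Run.drop cur (k := .a) rfl).seq ((Run.drop cur (k := .a) rfl).seq
        ((Run.nil cur .a _).seq (Run.nil cur .c _))))) (Run.loopNil cur (k := .a) rfl)) ?_⟩
      simp; omega
    | cons y l' =>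
      obtain ⟨r, hr, h⟩ := ih l' (.cons x y :: acc) ms as bs cs
      refine ⟨r, by simp; omega, ?_⟩
      simp only [List.zipWith_cons_cons, List.reverse_cons, List.append_assoc,
        List.singleton_append]
      refine Run.mono (Run.loopCons (k := .a) rfl (Run.caseCons (k := .c) rfl
        ((Run.mv cur (j := .c) (k := .m) rfl).seq ((Run.mv cur (j := .a) (k := .m) rfl).seq
        ((Run.cons cur (k := .m) rfl).seq ((Run.mv cur (j := .m) (k := .b) rfl).seq
        (Run.cons cur (k := .b) rfl)))))) h) ?_
      simp; omega

/-- Zip. -/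
def pZip : P := uncons .m ;; .mv .m .a ;; .mv .m .c ;; .nil .b ;; zipLoop ;; .drop .c ;; revB

lemma size_zipWith_le (l : List D) : ∀ l' : List D,
    (D.ofList (List.zipWith D.cons l l')).size ≤ (D.ofList l).size + (D.ofList l').size := by
  induction l with
  | nil => intro l'; simp
  | cons x l ih =>
    intro l'
    cases l' with
    | nil => simp
    | cons y l' => have := ih l'; simp; omega

lemma impl_zip (cur : P) (l l' : List D) :
    Impl cur pZip (.cons (D.ofList l) (D.ofList l')) (D.ofList (List.zipWith D.cons l l'))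
      (10 * (D.cons (D.ofList l) (D.ofList l')).size) := by
  intro ms as bs cs
  obtain ⟨r, hr, h1⟩ := run_zipLoop cur l l' [] ms as bs cs
  rw [List.append_nil] at h1
  have := size_zipWith_le l l'
  refine ((run_uncons cur (k := .m) rfl).seq ((Run.mv cur (j := .m) (k := .a) rfl).seq
    ((Run.mv cur (j := .m) (k := .c) rfl).seq ((Run.nil cur .b _).seq (h1.seq
    ((Run.drop cur (k := .c) rfl).seq (run_revB cur _ _ _ _ _))))))).mono ?_
  simp; omega

/-! ### Flatten -/

/-- Pour the list on top of `a` onto the list on top of `b`. -/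
def pourAB : P := .loop .a (.mv .a .b ;; .cons .b)

lemma run_pourAB (cur : P) (l : List D) : ∀ (acc : List D) (ms as bs cs : List D),
    Run cur pourAB ⟨ms, D.ofList l :: as, D.ofList acc :: bs, cs⟩
      ⟨ms, as, D.ofList (l.reverse ++ acc) :: bs, cs⟩ (2 * (D.ofList l).size) := by
  induction l with
  | nil => intro acc ms as bs cs; exact (Run.loopNil cur (k := .a) rfl).mono (by simp)
  | cons x l ih =>
    intro acc ms as bs cs
    have := ih (x :: acc) ms as bs cs
    simp only [List.reverse_cons, List.append_assoc, List.singleton_append]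
    have hx := x.size_pos
    exact Run.mono (Run.loopCons (k := .a) rfl ((Run.mv cur (j := .a) (k := .b) rfl).seq
      (Run.cons cur (k := .b) rfl)) this) (by simp; omega)

lemma run_flatLoop (cur : P) (L : List (List D)) : ∀ (acc : List D) (ms as bs cs : List D),
    Run cur (.loop .a pourAB) ⟨ms, D.ofList (L.map D.ofList) :: as, D.ofList acc :: bs, cs⟩
      ⟨ms, as, D.ofList (L.flatten.reverse ++ acc) :: bs, cs⟩
      (2 * (D.ofList (L.map D.ofList)).size) := by
  induction L with
  | nil => intro acc ms as bs cs; exact (Run.loopNil cur (k := .a) rfl).mono (by simp)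
  | cons x L ih =>
    intro acc ms as bs cs
    have := ih (x.reverse ++ acc) ms as bs cs
    simp only [List.flatten_cons, List.reverse_append, List.append_assoc]
    exact Run.mono (Run.loopCons (k := .a) rfl (run_pourAB cur x acc _ _ _ _) this) (by simp; omega)

lemma size_flatten_le (L : List (List D)) :
    (D.ofList L.flatten).size ≤ (D.ofList (L.map D.ofList)).size := by
  induction L with
  | nil => simp
  | cons x L ih => have := size_ofList_append x L.flatten; simp; omega

/-- Flatten. -/
def pFlat : P := .mv .m .a ;; .nil .b ;; .loop .a pourAB ;; revB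

lemma impl_flat (cur : P) (L : List (List D)) :
    Impl cur pFlat (D.ofList (L.map D.ofList)) (D.ofList L.flatten)
      (7 * (D.ofList (L.map D.ofList)).size) := by
  intro ms as bs cs
  have h1 := run_flatLoop cur L [] ms as bs cs
  rw [List.append_nil] at h1
  have := size_flatten_le L
  have := (D.ofList (L.map D.ofList)).size_pos
  exact ((Run.mv cur (j := .m) (k := .a) rfl).seq ((Run.nil cur .b _).seq (h1.seq
    (run_revB cur _ _ _ _ _)))).mono (by omega)

/-! ### Splitting into consecutive pieces of prescribed lengths -/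

/-- Cut consecutive pieces of the given lengths off a list; return the pieces and the rest. -/
def splitBy {α : Type} : List ℕ → List α → List (List α) × List α
  | [], l => ([], l)
  | n :: ns, l => (l.take n :: (splitBy ns (l.drop n)).1, (splitBy ns (l.drop n)).2)

/-- Take as many elements from `a` as the list on `c` has. -/
def takeLoop : P := .loop .c (.drop .c ;; .case .a (.nil .a) (.mv .a .b ;; .cons .b))

lemma size_take_drop (n : ℕ) (l : List D) :
    (D.ofList (l.take n)).size + (D.ofList (l.drop n)).size = (D.ofList l).size + 1 := by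
  rw [← size_ofList_append, List.take_append_drop]

lemma run_takeLoop (cur : P) (u : List D) : ∀ (l acc ms as bs cs : List D),
    Run cur takeLoop ⟨ms, D.ofList l :: as, D.ofList acc :: bs, D.ofList u :: cs⟩
      ⟨ms, D.ofList (l.drop u.length) :: as, D.ofList ((l.take u.length).reverse ++ acc) :: bs, cs⟩
      (3 * (D.ofList u).size + (D.ofList (l.take u.length)).size) := by
  induction u with
  | nil => intro l acc ms as bs cs; exact (Run.loopNil cur (k := .c) rfl).mono (by simp)
  | cons z u ih =>
    intro l acc ms as bs cs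
    have hz := z.size_pos
    cases l with
    | nil =>
      have := ih [] acc ms as bs cs
      simp only [List.drop_nil, List.take_nil] at this ⊢
      exact Run.mono (Run.loopCons (k := .c) rfl ((Run.drop cur (k := .c) rfl).seq
        (Run.caseNil (k := .a) rfl (Run.nil cur .a _))) this) (by simp; omega)
    | cons x l =>
      have := ih l (x :: acc) ms as bs cs
      simp only [List.length_cons, List.drop_succ_cons, List.take_succ_cons, List.reverse_cons,
        List.append_assoc, List.singleton_append]
      exact Run.mono (Run.loopCons (k := .c) rfl ((Run.drop cur (k := .c) rfl).seq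
        (Run.caseCons (k := .a) rfl ((Run.mv cur (j := .a) (k := .b) rfl).seq
        (Run.cons cur (k := .b) rfl)))) this) (by simp; omega)

/-- The outer loop of `splitBy`. -/
def splitLoop : P :=
  .loop .m (.mv .m .c ;; .nil .b ;; takeLoop ;; revB ;; .mv .m .b ;; .cons .b)

lemma size_splitBy (ns : List ℕ) : ∀ l : List D,
    (D.ofList ((splitBy ns l).1.map D.ofList)).size + (D.ofList (splitBy ns l).2).size =
      (D.ofList l).size + 2 * ns.length + 1 := by
  induction ns with
  | nil => intro l; simp [splitBy]; omega
  | cons n ns ih =>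
    intro l
    have := ih (l.drop n)
    have := size_take_drop n l
    simp [splitBy]; omega

lemma run_splitLoop (cur : P) (U : List (List D)) : ∀ (l acc ms as bs cs : List D),
    Run cur splitLoop ⟨D.ofList (U.map D.ofList) :: ms, D.ofList l :: as, D.ofList acc :: bs, cs⟩
      ⟨ms, D.ofList (splitBy (U.map List.length) l).2 :: as,
        D.ofList (((splitBy (U.map List.length) l).1.map D.ofList).reverse ++ acc) :: bs, cs⟩
      (4 * (D.ofList (U.map D.ofList)).size +
        5 * (D.ofList ((splitBy (U.map List.length) l).1.map D.ofList)).size) := by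
  induction U with
  | nil =>
    intro l acc ms as bs cs
    exact (Run.loopNil cur (k := .m) rfl).mono (by simp [splitBy])
  | cons u U ih =>
    intro l acc ms as bs cs
    have h1 := ih (l.drop u.length) (D.ofList (l.take u.length) :: acc) ms as bs cs
    have h2 := run_takeLoop cur u l [] (D.ofList (U.map D.ofList) :: ms) as
      (D.ofList acc :: bs) cs
    rw [List.append_nil] at h2
    simp only [List.map_cons, splitBy, List.reverse_cons, List.append_assoc,
      List.singleton_append]
    refine Run.mono (Run.loopCons (k := .m) rfl ((Run.mv cur (j := .m) (k := .c) rfl).seq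
      ((Run.nil cur .b _).seq (h2.seq ((run_revB cur _ _ _ _ _).seq
      ((Run.mv cur (j := .m) (k := .b) rfl).seq (Run.cons cur (k := .b) rfl)))))) h1) ?_
    simp; omega

/-- `splitBy`: input `(pattern, l)`. -/
def pSplit : P :=
  uncons .m ;; .mv .m .b ;; .mv .m .a ;; .mv .b .m ;; .nil .b ;; splitLoop ;; .mv .a .m ;; revB ;;
    .cons .m

lemma length_le_size_ofList (l : List D) : 2 * l.length + 1 ≤ (D.ofList l).size := by
  induction l with
  | nil => simp
  | cons x l ih => have := x.size_pos; simp; omega

lemma impl_split (cur : P) (U : List (List D)) (l : List D) :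
    Impl cur pSplit (.cons (D.ofList (U.map D.ofList)) (D.ofList l))
      (.cons (D.ofList ((splitBy (U.map List.length) l).1.map D.ofList))
        (D.ofList (splitBy (U.map List.length) l).2))
      (14 * (D.cons (D.ofList (U.map D.ofList)) (D.ofList l)).size) := by
  intro ms as bs cs
  have h1 := run_splitLoop cur U l [] ms as bs cs
  rw [List.append_nil] at h1
  have h2 := size_splitBy (U.map List.length) l
  have h3 := length_le_size_ofList (U.map D.ofList)
  refine ((run_uncons cur (k := .m) rfl).seq ((Run.mv cur (j := .m) (k := .b) rfl).seq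
    ((Run.mv cur (j := .m) (k := .a) rfl).seq ((Run.mv cur (j := .b) (k := .m) rfl).seq
    ((Run.nil cur .b _).seq (h1.seq ((Run.mv cur (j := .a) (k := .m) rfl).seq
    ((run_revB cur _ _ _ _ _).seq (Run.cons cur (k := .m) rfl))))))))).mono ?_
  simp only [List.length_map, D.size_cons] at h2 h3 ⊢
  omega

/-! ### While loop -/

/-- Turn an encoded Boolean on top of `m` into `nil` / `cons nil nil`. -/
def pFlag : P := uncons .m ;; .mv .m .a ;; .drop .m ;; .mv .a .m

lemma impl_flag (cur : P) (b : Bool) : Impl cur pFlag (enc b) (D.ofBool b) 11 := by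
  intro ms as bs cs
  cases b
  · exact ((run_uncons cur (k := .m) rfl).seq ((Run.mv cur (j := .m) (k := .a) rfl).seq
      ((Run.drop cur (k := .m) rfl).seq (Run.mv cur (j := .a) (k := .m) rfl)))).mono (by simp)
  · exact ((run_uncons cur (k := .m) rfl).seq ((Run.mv cur (j := .m) (k := .a) rfl).seq
      ((Run.drop cur (k := .m) rfl).seq (Run.mv cur (j := .a) (k := .m) rfl)))).mono (by simp)

/-- The loop of `pIter`. -/
def iterLoop (p : P) : P := .loop .m (.drop .m ;; .drop .m ;; p ;; uncons .m ;; pFlag)

lemma run_iterLoop (cur p : P) (N : ℕ) : ∀ (st : ℕ → D) (t : ℕ → ℕ)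
    (_ : ∀ i, i ≤ N → Impl cur p (st i) (.cons (enc (decide (i < N))) (st (i + 1))) (t i))
    (ms as bs cs : List D),
    Run cur (iterLoop p) ⟨tt :: st 0 :: ms, as, bs, cs⟩ ⟨st (N + 1) :: ms, as, bs, cs⟩
      (∑ i ∈ Finset.range (N + 1), (t i + 16) + 1) := by
  induction N with
  | zero =>
    intro st t h ms as bs cs
    exact Run.mono (Run.loopCons (k := .m) rfl ((Run.drop cur (k := .m) rfl).seq
      ((Run.drop cur (k := .m) rfl).seq ((h 0 le_rfl _ _ _ _).seq
      ((run_uncons cur (k := .m) rfl).seq (impl_flag cur _ _ _ _ _)))))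
      (Run.loopNil cur (k := .m) rfl)) (by simp; omega)
  | succ N ih =>
    intro st t h ms as bs cs
    have h1 := ih (fun i => st (i + 1)) (fun i => t (i + 1))
      (fun i hi => by simpa using h (i + 1) (by omega)) ms as bs cs
    have h0 := h 0 (by omega)
    rw [show decide (0 < N + 1) = true by simp] at h0
    refine Run.mono (Run.loopCons (k := .m) rfl ((Run.drop cur (k := .m) rfl).seq
      ((Run.drop cur (k := .m) rfl).seq ((h0 _ _ _ _).seq
      ((run_uncons cur (k := .m) rfl).seq (impl_flag cur true _ _ _ _))))) h1) ?_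
    rw [Finset.sum_range_succ' _ (N + 1)]
    simp only [D.size_nil]
    omega

/-- Repeat the body, which returns a flag and the new state, until the flag is false. -/
def pIter (p : P) : P := pushD .m tt ;; iterLoop p

lemma impl_iter (cur p : P) (N : ℕ) (st : ℕ → D) (t : ℕ → ℕ)
    (h : ∀ i, i ≤ N → Impl cur p (st i) (.cons (enc (decide (i < N))) (st (i + 1))) (t i)) :
    Impl cur (pIter p) (st 0) (st (N + 1)) (∑ i ∈ Finset.range (N + 1), (t i + 16) + 4) := by
  intro ms as bs cs
  exact ((run_pushD cur .m tt _).seq (run_iterLoop cur p N st t h ms as bs cs)).mono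
    (by simp [tt]; omega)

/-! ### Serialisation and parsing -/

/-- The loop of the serialiser; the list on `c` counts the pending values on `a`. -/
def serLoop : P :=
  .loop .c (.drop .c ;; .case .a (pushD .b (enc false) ;; .cons .b)
    (pushD .b (enc true) ;; .cons .b ;; .nil .c ;; .cons .c ;; .nil .c ;; .cons .c))

lemma run_serLoop (cur : P) (x : D) : ∀ (u : D) (acc : List Bool) (ms as bs cs : List D) (S' : St)
    (n : ℕ), Run cur serLoop ⟨ms, as, enc (x.ser.reverse ++ acc) :: bs, u :: cs⟩ S' n →
    Run cur serLoop ⟨ms, x :: as, enc acc :: bs, .cons .nil u :: cs⟩ S' (n + 13 * x.size) := by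
  induction x with
  | nil =>
    intro u acc ms as bs cs S' n h
    exact Run.mono (Run.loopCons (k := .c) rfl ((Run.drop cur (k := .c) rfl).seq
      (Run.caseNil (k := .a) rfl ((run_pushD cur .b _ _).seq (Run.cons cur (k := .b) rfl))))
      h) (by simp [enc_false]; omega)
  | cons x y ihx ihy =>
    intro u acc ms as bs cs S' n h
    simp only [D.ser_cons, List.reverse_cons, List.reverse_append, List.append_assoc,
      List.singleton_append] at h
    have h1 := ihy u _ ms as bs cs S' n h
    have h2 := ihx _ _ ms _ bs cs S' _ h1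
    exact Run.mono (Run.loopCons (k := .c) rfl ((Run.drop cur (k := .c) rfl).seq
      (Run.caseCons (k := .a) rfl ((run_pushD cur .b _ _).seq ((Run.cons cur (k := .b) rfl).seq
      ((Run.nil cur .c _).seq ((Run.cons cur (k := .c) rfl).seq ((Run.nil cur .c _).seq
      (Run.cons cur (k := .c) rfl))))))))
      h2) (by simp [enc_true]; omega)

/-- Serialise. -/
def pSer : P := .mv .m .a ;; .nil .b ;; pushD .c tt ;; serLoop ;; revB

lemma impl_ser (cur : P) (x : D) : Impl cur pSer x (enc x.ser) (40 * x.size) := by
  intro ms as bs cs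
  have h1 := run_serLoop cur x .nil [] ms as bs cs _ _ (Run.loopNil cur (k := .c) rfl)
  have h2 := run_revB cur (x.ser.map enc) ms as bs cs
  have h3 : (D.ofList (x.ser.map enc)).size = 6 * x.size + 1 := by
    have := sz_boolList x.ser
    rwa [D.length_ser] at this
  have h4 := x.size_pos
  rw [List.append_nil, enc_list x.ser.reverse, List.map_reverse] at h1
  exact ((Run.mv cur (j := .m) (k := .a) rfl).seq ((Run.nil cur .b _).seq
    ((run_pushD cur .c tt _).seq (h1.seq h2)))).mono (by simp [tt]; omega)

/-- The loop of the parser, reading a reversed serialisation. -/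
def parseLoop : P :=
  .loop .a (uncons .a ;; .case .a (.drop .a ;; .nil .m) (.drop .a ;; .drop .a ;; .drop .a ;; .cons .m))

lemma run_parseLoop (cur : P) (x : D) : ∀ (r : List Bool) (ms as bs cs : List D) (S' : St)
    (n : ℕ), Run cur parseLoop ⟨x :: ms, enc r :: as, bs, cs⟩ S' n →
    Run cur parseLoop ⟨ms, enc (x.ser.reverse ++ r) :: as, bs, cs⟩ S' (n + 8 * x.size) := by
  induction x with
  | nil =>
    intro r ms as bs cs S' n h
    exact Run.mono (Run.loopCons (k := .a) rfl ((run_uncons cur (k := .a) rfl).seq
      (Run.caseNil (k := .a) rfl ((Run.drop cur (k := .a) rfl).seq (Run.nil cur .m _))))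
      h) (by simp; omega)
  | cons x y ihx ihy =>
    intro r ms as bs cs S' n h
    have h1 : Run cur parseLoop ⟨x :: y :: ms, enc (true :: r) :: as, bs, cs⟩ S' (n + 8) :=
      Run.mono (Run.loopCons (k := .a) rfl ((run_uncons cur (k := .a) rfl).seq
      (Run.caseCons (k := .a) rfl ((Run.drop cur (k := .a) rfl).seq
      ((Run.drop cur (k := .a) rfl).seq ((Run.drop cur (k := .a) rfl).seq
      (Run.cons cur (k := .m) rfl)))))) h) (by simp; omega)
    have h2 := ihy _ _ _ _ _ _ _ (ihx _ _ _ _ _ _ _ h1)
    simp only [D.ser_cons, List.reverse_cons, List.reverse_append, List.append_assoc,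
      List.singleton_append]
    exact h2.mono (by simp; omega)

/-- Parse a reversed serialisation. -/
def pParse : P := .mv .m .a ;; parseLoop

lemma impl_parse (cur : P) (x : D) : Impl cur pParse (enc x.ser.reverse) x (16 * x.size) := by
  intro ms as bs cs
  have h1 := run_parseLoop cur x [] ms as bs cs _ _ (Run.loopNil cur (k := .a) rfl)
  rw [List.append_nil] at h1
  have h3 : (enc x.ser.reverse).size = 6 * x.size + 1 := by
    have := sz_boolList x.ser.reverse
    rwa [List.length_reverse, D.length_ser] at this
  have h4 := x.size_pos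
  exact ((Run.mv cur (j := .m) (k := .a) rfl).seq h1).mono (by omega)

end Crest.Agent.Lib.LT
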